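import Vale.Agent.P166N.Defs
import Vale.Agent.P157.Low.ParisiX

/-!
Functions monotone in the absolute value: Gaussian shifts preserve them, and opposite monotone
functions of one variable are negatively correlated.
-/

namespace Vale.Agent.P166N

open MeasureTheory ProbabilityTheory
open Vale.Agent.P157

variable {g : ℝ → ℝ}

lemma EDec.even (h : EDec g) (x : ℝ) : g (-x) = g x :=
  le_antisymm (h x (-x) (abs_neg x).ge) (h (-x) x (abs_neg x).le)

lemma EInc.even (h : EInc g) (x : ℝ) : g (-x) = g x :=
  le_antisymm (h (-x) x (abs_neg x).le) (h x (-x) (abs_neg x).ge)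

lemma EInc.neg (h : EInc g) : EDec fun x => -g x := fun x y hxy => neg_le_neg (h x y hxy)

lemma EDec.exp_mul (h : EDec g) {m : ℝ} (hm : 0 ≤ m) : EDec fun x => Real.exp (m * g x) :=
  fun x y hxy => Real.exp_le_exp.2 (mul_le_mul_of_nonneg_left (h x y hxy) hm)

/-- Reflection of the standard Gaussian. -/
lemma integral_gauss_neg (F : ℝ → ℝ) : ∫ z, F (-z) ∂gaussianReal 0 1 = ∫ z, F z ∂gaussianReal 0 1 := by
  have h : ((gaussianReal 0 1)).map (fun z : ℝ => -z) = (gaussianReal 0 1) := by
    simpa using gaussianReal_map_neg (μ := 0) (v := 1)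
  conv_rhs => rw [← h]
  exact (MeasurableEquiv.neg ℝ).measurableEmbedding.integral_map F |>.symm

/-- A unit Gaussian shift keeps functions decreasing in the absolute value. -/
lemma shift_one_le (hg : EDec g) (hi : ∀ b, Integrable (fun z => g (b + z)) (gaussianReal 0 1)) :
    EDec fun b => ∫ z, g (b + z) ∂gaussianReal 0 1 := by
  set p := gaussianPDFReal 0 1
  have hp : ∀ v, p (-v) = p v := fun v => by simp [p, gaussianPDFReal]
  have hpm : ∀ u v : ℝ, |u| ≤ |v| → p v ≤ p u := fun u v huv => by
    simp only [p, gaussianPDFReal, sub_zero, NNReal.coe_one, mul_one]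
    refine mul_le_mul_of_nonneg_left (Real.exp_le_exp.2 ?_) (by positivity)
    have := sq_le_sq.2 huv
    linarith
  have hI : ∀ b, Integrable (fun z => p z * g (b + z)) volume := fun b => by
    have h := hi b
    rw [gaussianReal_of_var_ne_zero 0 (one_ne_zero),
      integrable_withDensity_iff_integrable_smul' (measurable_gaussianPDF 0 1)
        (Filter.Eventually.of_forall fun x => by simp [gaussianPDF])] at h
    simpa [gaussianPDF, p, gaussianPDFReal_nonneg, ENNReal.toReal_ofReal, smul_eq_mul] using h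
  have hE : ∀ b, ∫ z, g (b + z) ∂gaussianReal 0 1 = ∫ z, p z * g (b + z) := fun b => by
    rw [integral_gaussianReal_eq_integral_smul one_ne_zero]
    simp [p]
  have main : ∀ b₁ b₂, 0 ≤ b₁ → b₁ ≤ b₂ → ∫ z, g (b₂ + z) ∂gaussianReal 0 1 ≤ ∫ z, g (b₁ + z) ∂gaussianReal 0 1 := by
    intro b₁ b₂ h0 h12
    set m := (b₁ + b₂) / 2 with hm
    set h := (b₂ - b₁) / 2 with hh
    have e₁ : ∀ v, p (v + h) * g (m + v) = p (v + h) * g (b₁ + (v + h)) := fun v => by
      rw [show b₁ + (v + h) = m + v by simp only [hm, hh]; ring]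
    have e₂ : ∀ v, p (v - h) * g (m + v) = p (v - h) * g (b₂ + (v - h)) := fun v => by
      rw [show b₂ + (v - h) = m + v by simp only [hm, hh]; ring]
    have i₁ : Integrable (fun v => p (v + h) * g (m + v)) volume := by
      simp only [e₁]; exact (hI b₁).comp_add_right h
    have i₂ : Integrable (fun v => p (v - h) * g (m + v)) volume := by
      simp only [e₂]; exact (hI b₂).comp_sub_right h
    have v₁ : ∫ z, g (b₁ + z) ∂gaussianReal 0 1 = ∫ v, p (v + h) * g (m + v) := by
      simp only [e₁, hE]
      exact (integral_add_right_eq_self (fun z => p z * g (b₁ + z)) h).symm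
    have v₂ : ∫ z, g (b₂ + z) ∂gaussianReal 0 1 = ∫ v, p (v - h) * g (m + v) := by
      simp only [e₂, hE]
      exact (integral_sub_right_eq_self (fun z => p z * g (b₂ + z)) h).symm
    set D : ℝ → ℝ := fun v => p (v + h) * g (m + v) - p (v - h) * g (m + v) with hD
    have hDi : Integrable D volume := i₁.sub i₂
    have hh0 : 0 ≤ h := by simp only [hh]; linarith
    have hm0 : 0 ≤ m := by simp only [hm]; linarith
    have hpos : 0 ≤ ∫ v, (D v + D (-v)) := by
      refine integral_nonneg fun v => ?_
      have e : D v + D (-v) = (g (m + v) - g (m - v)) * (p (v + h) - p (v - h)) := by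
        simp only [hD]
        rw [show -v + h = -(v - h) by ring, show -v - h = -(v + h) by ring, hp, hp,
          show m + -v = m - v by ring]
        ring
      rw [Pi.zero_apply, e]
      rcases le_total 0 v with hv | hv
      · refine mul_nonneg_of_nonpos_of_nonpos (sub_nonpos.2 (hg _ _ ?_)) (sub_nonpos.2 (hpm _ _ ?_))
        · rw [abs_of_nonneg (add_nonneg hm0 hv), abs_le]; constructor <;> linarith
        · rw [abs_of_nonneg (add_nonneg hv hh0), abs_le]; constructor <;> linarith
      · refine mul_nonneg (sub_nonneg.2 (hg _ _ ?_)) (sub_nonneg.2 (hpm _ _ ?_))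
        · rw [abs_of_nonneg (by linarith : 0 ≤ m - v), abs_le]; constructor <;> linarith
        · rw [abs_of_nonpos (by linarith : v - h ≤ 0), abs_le]; constructor <;> linarith
    rw [integral_add hDi hDi.comp_neg, integral_neg_eq_self] at hpos
    have hsum : ∫ v, D v = (∫ z, g (b₁ + z) ∂gaussianReal 0 1) - ∫ z, g (b₂ + z) ∂gaussianReal 0 1 := by
      rw [v₁, v₂, ← integral_sub i₁ i₂]
    linarith
  have heven : ∀ b, ∫ z, g (-b + z) ∂gaussianReal 0 1 = ∫ z, g (b + z) ∂gaussianReal 0 1 := fun b => by
    rw [← integral_gauss_neg (fun z => g (-b + z))]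
    refine integral_congr_ae (Filter.Eventually.of_forall fun z => ?_)
    show g (-b + -z) = g (b + z)
    rw [← hg.even (b + z)]
    congr 1
    ring
  intro x y hxy
  have habs : ∀ b, ∫ z, g (b + z) ∂gaussianReal 0 1 = ∫ z, g (|b| + z) ∂gaussianReal 0 1 := fun b => by
    rcases abs_choice b with h | h <;> rw [h]
    exact (heven b).symm
  show ∫ z, g (y + z) ∂gaussianReal 0 1 ≤ ∫ z, g (x + z) ∂gaussianReal 0 1
  rw [habs x, habs y]
  exact main _ _ (abs_nonneg x) hxy

/-- A Gaussian shift of any variance keeps functions decreasing in the absolute value. -/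
theorem EDec.shift (hg : EDec g) (d : ℝ)
    (hi : ∀ y, Integrable (fun z => g (y + Real.sqrt d * z)) (gaussianReal 0 1)) :
    EDec fun y => ∫ z, g (y + Real.sqrt d * z) ∂gaussianReal 0 1 := by
  rcases eq_or_lt_of_le (Real.sqrt_nonneg d) with h0 | hpos
  · intro x y hxy
    simpa [← h0] using hg x y hxy
  · set r := Real.sqrt d
    have e : ∀ b z : ℝ, r * (b + z) = r * b + r * z := fun b z => mul_add r b z
    have hG : EDec fun w => g (r * w) := fun x y hxy => hg _ _ (by
      rw [abs_mul, abs_mul]; exact mul_le_mul_of_nonneg_left hxy (abs_nonneg r))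
    have h := shift_one_le hG fun b => by simp only [e]; exact hi (r * b)
    intro x y hxy
    have hxy' : |x / r| ≤ |y / r| := by
      rw [abs_div, abs_div]; exact div_le_div_of_nonneg_right hxy (abs_nonneg r)
    simpa [e, mul_div_cancel₀ _ hpos.ne'] using h (x / r) (y / r) hxy'

/-- A Gaussian shift of any variance keeps functions increasing in the absolute value. -/
theorem EInc.shift (hg : EInc g) (d : ℝ)
    (hi : ∀ y, Integrable (fun z => g (y + Real.sqrt d * z)) (gaussianReal 0 1)) :
    EInc fun y => ∫ z, g (y + Real.sqrt d * z) ∂gaussianReal 0 1 := by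
  have h := hg.neg.shift d fun y => (hi y).neg
  intro x y hxy
  simpa [integral_neg] using h x y hxy

/-- Opposite monotone functions of one variable are negatively correlated. -/
theorem cheb {Z : Type} [MeasurableSpace Z] {μ : Measure Z} [IsProbabilityMeasure μ] {a b : ℝ → ℝ}
    (ha : EDec a) (hb : EInc b) (T : Z → ℝ) (hia : Integrable (fun z => a (T z)) μ)
    (hib : Integrable (fun z => b (T z)) μ) (hiab : Integrable (fun z => a (T z) * b (T z)) μ) :
    ∫ z, a (T z) * b (T z) ∂μ ≤ (∫ z, a (T z) ∂μ) * ∫ z, b (T z) ∂μ := by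
  have hneg : ∀ z z', (a (T z) - a (T z')) * (b (T z) - b (T z')) ≤ 0 := fun z z' => by
    rcases le_total |T z| |T z'| with h | h
    · exact mul_nonpos_of_nonneg_of_nonpos (sub_nonneg.2 (ha _ _ h)) (sub_nonpos.2 (hb _ _ h))
    · exact mul_nonpos_of_nonpos_of_nonneg (sub_nonpos.2 (ha _ _ h)) (sub_nonneg.2 (hb _ _ h))
  set A := ∫ z, a (T z) ∂μ
  set B := ∫ z, b (T z) ∂μ
  set AB := ∫ z, a (T z) * b (T z) ∂μ
  have h1 : ∀ z, a (T z) * b (T z) - a (T z) * B - A * b (T z) + AB ≤ 0 := fun z => by
    have i1 : Integrable (fun z' => a (T z) * b (T z) - a (T z) * b (T z') - a (T z') * b (T z)) μ :=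
      ((integrable_const _).sub (hib.const_mul _)).sub (hia.mul_const _)
    have h : ∫ z', (a (T z) * b (T z) - a (T z) * b (T z') - a (T z') * b (T z) + a (T z') * b (T z')) ∂μ
        ≤ 0 := integral_nonpos fun z' => le_of_eq_of_le (by ring) (hneg z z')
    rw [integral_add i1 hiab, integral_sub ((integrable_const _).sub' (hib.const_mul _)) (hia.mul_const _),
      integral_sub (integrable_const _) (hib.const_mul _)] at h
    simp only [integral_const_mul, integral_mul_const, integral_const, probReal_univ, one_smul] at h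
    exact h
  have i2 : Integrable (fun z => a (T z) * b (T z) - a (T z) * B - A * b (T z)) μ :=
    (hiab.sub (hia.mul_const B)).sub (hib.const_mul A)
  have h := integral_nonpos (μ := μ) h1
  rw [integral_add i2 (integrable_const _), integral_sub (hiab.sub' (hia.mul_const B)) (hib.const_mul A),
    integral_sub hiab (hia.mul_const B), integral_mul_const, integral_const_mul, integral_const,
    probReal_univ, one_smul] at h
  linarith

/-- A tilt by a function decreasing in the absolute value lowers means of increasing ones. -/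
theorem tilt_le_mean {Z : Type} [MeasurableSpace Z] {μ : Measure Z} [IsProbabilityMeasure μ]
    {φ F : ℝ → ℝ} (hφ : EDec φ) (hF : EInc F) {m : ℝ} (hm : 0 ≤ m) (T : Z → ℝ)
    (hw : RSB.Wgt μ m fun z => φ (T z)) (hiF : Integrable (fun z => F (T z)) μ)
    (hiWF : Integrable (fun z => Real.exp (m * φ (T z)) * F (T z)) μ) :
    RSB.tilt μ m (fun z => φ (T z)) (fun z => F (T z)) ≤ ∫ z, F (T z) ∂μ := by
  rw [RSB.tilt, smul_eq_mul, inv_mul_le_iff₀ hw.pos]
  exact cheb (hφ.exp_mul hm) hF T hw.int hiF hiWF

/-- The log-moment grows at most by the tilted mean of the increase. -/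
theorem lexp_sub_le {Z : Type} [MeasurableSpace Z] {μ : Measure Z} [IsProbabilityMeasure μ]
    {X Y : Z → ℝ} {m : ℝ} (hm : 0 < m) (hX : RSB.Wgt μ m X) (hY : RSB.Wgt μ m Y)
    (hi : Integrable (fun z => Real.exp (m * X z) * (X z - Y z)) μ) :
    RSB.lexp μ m X - RSB.lexp μ m Y ≤ RSB.tilt μ m X fun z => X z - Y z := by
  set k := RSB.tilt μ m X (fun z => X z - Y z) with hk
  have hpt : ∀ z, Real.exp (-(m * k)) * (Real.exp (m * X z) * (1 + m * k) -
      m * (Real.exp (m * X z) * (X z - Y z))) ≤ Real.exp (m * Y z) := fun z => by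
    have h := Real.add_one_le_exp (m * (k - (X z - Y z)))
    have h2 := mul_le_mul_of_nonneg_left h (mul_pos (Real.exp_pos (-(m * k))) (Real.exp_pos (m * X z))).le
    refine le_trans (le_of_eq (by ring)) (h2.trans (le_of_eq ?_))
    rw [← Real.exp_add, ← Real.exp_add]
    congr 1
    ring
  have hI : Integrable (fun z => Real.exp (m * X z) * (1 + m * k) -
      m * (Real.exp (m * X z) * (X z - Y z))) μ := (hX.int.mul_const _).sub (hi.const_mul m)
  have h := integral_mono (hI.const_mul (Real.exp (-(m * k)))) hY.int hpt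
  rw [integral_const_mul, integral_sub (hX.int.mul_const _) (hi.const_mul m), integral_mul_const,
    integral_const_mul] at h
  have e : ∫ z, Real.exp (m * X z) * (X z - Y z) ∂μ = k * ∫ z, Real.exp (m * X z) ∂μ := by
    rw [hk, RSB.tilt, smul_eq_mul]
    simp only [smul_eq_mul]
    rw [mul_comm (∫ z, Real.exp (m * X z) ∂μ)⁻¹, mul_assoc, inv_mul_cancel₀ hX.pos.ne', mul_one]
  rw [e] at h
  have h2 : Real.exp (-(m * k)) * ∫ z, Real.exp (m * X z) ∂μ ≤ ∫ z, Real.exp (m * Y z) ∂μ :=
    le_trans (le_of_eq (by ring)) h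
  have h3 := Real.log_le_log (mul_pos (Real.exp_pos _) hX.pos) h2
  rw [Real.log_mul (Real.exp_pos _).ne' hX.pos.ne', Real.log_exp] at h3
  simp only [RSB.lexp]
  rw [← sub_div, div_le_iff₀ hm]
  linarith

end Vale.Agent.P166N
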