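import Vale.Agent.P166N.TreeSum

/-!
Deterministic leaf weights realising the nested values, and the values of the linear and the spin
energies.
-/

namespace Vale.Agent.P166N

open MeasureTheory ProbabilityTheory Filter Set
open Vale.Agent.P157
open scoped Topology

theorem meet_self {n : ℕ} : ∀ {k : ℕ} (α : Leaf n k), meet k α α = k
  | 0, _ => rfl
  | k + 1, (a, α) => by simp [meet, meet_self α]

theorem meet_le {n : ℕ} : ∀ {k : ℕ} (α β : Leaf n k), meet k α β ≤ k
  | 0, _, _ => le_rfl
  | k + 1, (a, α), (b, β) => by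
    simp only [meet]
    split_ifs
    · exact Nat.add_le_add_right (meet_le α β) 1
    · exact Nat.zero_le _

lemma feat_inner {n : ℕ} : ∀ {k : ℕ} {R : ℕ → ℝ}, (∀ j < k, R j ≤ R (j + 1)) → ∀ α β : Leaf n k,
    ∑ ν, feat k R α ν * feat k R β ν = R (meet k α β) - R 0
  | 0, R, _, _, _ => by simp [meet, feat]
  | k + 1, R, hR, (a, α), (b, β) => by
    show ∑ p : Fin n × Option (Node n k), feat (k + 1) R (a, α) p * feat (k + 1) R (b, β) p = _
    rw [Fintype.sum_prod_type, Finset.sum_eq_single a]
    · rw [Fintype.sum_option]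
      by_cases h : a = b
      · subst h
        simp only [feat, if_true, meet]
        rw [feat_inner (R := fun j => R (j + 1)) (fun j hj => hR (j + 1) (by omega)) α β,
          Real.mul_self_sqrt (sub_nonneg.2 (hR 0 (by omega)))]
        ring
      · simp [feat, meet, h, Ne.symm h]
    · intro c _ hc
      rw [Fintype.sum_option]
      simp [feat, hc.symm]
    · simp

theorem feat0_inner {n k : ℕ} {R : ℕ → ℝ} (hR0 : 0 ≤ R 0) (hR : ∀ j < k, R j ≤ R (j + 1))
    (α β : Leaf n k) : ∑ ν, feat0 k R α ν * feat0 k R β ν = R (meet k α β) := by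
  rw [Fintype.sum_option]
  simp only [feat0]
  rw [feat_inner hR α β, Real.mul_self_sqrt hR0]
  ring

theorem lip_spinG (N : ℕ) : ∃ K, RSB.Lip K (spinG N) := by
  refine ⟨N, (Continuous.measurable (continuous_finsetSum _ fun i _ =>
    (Real.continuous_cosh.comp (PiLp.continuous_apply 2 _ i)).log fun x => (Real.cosh_pos _).ne')),
    Nat.cast_nonneg N, fun x y => ?_⟩
  rw [spinG, spinG, ← Finset.sum_sub_distrib]
  refine (Finset.abs_sum_le_sum_abs _ _).trans ((Finset.sum_le_sum fun i _ =>
    (RSB.log_cosh_lip (x i) (y i)).trans (PiLp.norm_apply_le y i)).trans ?_)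
  simp

lemma lip_linG : RSB.Lip 1 linG := by
  refine ⟨(PiLp.continuous_apply 2 _ (0 : Fin 1)).measurable, zero_le_one, fun x y => ?_⟩
  rw [one_mul, linG, linG, PiLp.add_apply, add_sub_cancel_left]
  exact PiLp.norm_apply_le y 0

/-! ### The root -/

/-- The standard Gaussian vector of all fields, split into the root and the nodes. -/
lemma measurePreserving_split (N : ℕ) (J : Type) [Fintype J] :
    MeasurePreserving (fun g : EuclideanSpace ℝ (Option J × Fin N) =>
        ((WithLp.toLp 2 fun i => g (none, i) : EuclideanSpace ℝ (Fin N)),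
          fun ν => (WithLp.toLp 2 fun i => g (some ν, i) : EuclideanSpace ℝ (Fin N))))
      (stdGaussian (EuclideanSpace ℝ (Option J × Fin N)))
      ((stdGaussian (EuclideanSpace ℝ (Fin N))).prod
        (Measure.pi fun _ : J => stdGaussian (EuclideanSpace ℝ (Fin N)))) := by
  set S := fun g : EuclideanSpace ℝ (Option J × Fin N) =>
    ((WithLp.toLp 2 fun i => g (none, i) : EuclideanSpace ℝ (Fin N)),
      fun ν => (WithLp.toLp 2 fun i => g (some ν, i) : EuclideanSpace ℝ (Fin N))) with hS
  have hSm : Measurable S := by rw [hS]; fun_prop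
  set μ := Measure.pi fun _ : Fin N => gaussianReal 0 1
  have hu := measurePreserving_uncurry (gaussianReal 0 1) (Option J) (Fin N)
  have ho := measurePreserving_option μ J
  have ht : MeasurePreserving (WithLp.toLp 2 : (Fin N → ℝ) → EuclideanSpace ℝ (Fin N)) μ
      (stdGaussian (EuclideanSpace ℝ (Fin N))) := ⟨by fun_prop, map_pi_eq_stdGaussian⟩
  have hp := ht.prod (measurePreserving_pi (fun _ : J => μ)
    (fun _ : J => stdGaussian (EuclideanSpace ℝ (Fin N))) fun _ => ht)
  refine ⟨hSm, ?_⟩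
  rw [← map_pi_eq_stdGaussian, Measure.map_map hSm (by fun_prop), ← (hu.comp ho).map_eq,
    Measure.map_map (by fun_prop) (hu.comp ho).measurable, ← hp.map_eq]
  rfl

variable {N : ℕ} {G : EuclideanSpace ℝ (Fin N) → ℝ} {K : ℝ}

lemma leafField_feat0 {n k : ℕ} (R : ℕ → ℝ) (l : Leaf n k)
    (g : EuclideanSpace ℝ (Option (Node n k) × Fin N)) :
    leafField N (feat0 k R) l g =
      Real.sqrt (R 0) • (WithLp.toLp 2 fun i => g (none, i) : EuclideanSpace ℝ (Fin N)) +
        fld k R l fun ν => (WithLp.toLp 2 fun i => g (some ν, i) : EuclideanSpace ℝ (Fin N)) := by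
  ext i
  simp [leafField, fld, Fintype.sum_option, feat0]

/-- The length of all fields. -/
noncomputable def fbound {n : ℕ} (k : ℕ) (R : ℕ → ℝ) (z : Node n k → EuclideanSpace ℝ (Fin N)) : ℝ :=
  ∑ l, ‖fld k R l z‖

lemma integrable_fbound {n : ℕ} (k : ℕ) (R : ℕ → ℝ) :
    Integrable (fbound (N := N) (n := n) k R)
      (Measure.pi fun _ : Node n k => stdGaussian (EuclideanSpace ℝ (Fin N))) := by
  refine integrable_finsetSum _ fun l _ => Integrable.norm (integrable_finsetSum _ fun ν _ => ?_)
  have h : Integrable (fun h : EuclideanSpace ℝ (Fin N) => feat k R l ν • h) (stdGaussian _) :=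
    Integrable.smul (feat k R l ν) (IsGaussian.integrable_id (μ := stdGaussian (EuclideanSpace ℝ (Fin N))))
  exact (measurePreserving_eval (fun _ : Node n k => stdGaussian (EuclideanSpace ℝ (Fin N)))
    ν).integrable_comp_of_integrable h

lemma abs_logRho_sub_le (hG : RSB.Lip K G) {n : ℕ} (hn : 1 ≤ n) {ls : List (ℝ × ℝ)} (R : ℕ → ℝ)
    (x : EuclideanSpace ℝ (Fin N)) {v : Node n ls.length → ℝ} (hv : ∀ u, 0 < v u)
    (z : Node n ls.length → EuclideanSpace ℝ (Fin N)) :
    |logRho n ls R G x v z - logRho n ls R G 0 v z| ≤ K * ‖x‖ := by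
  have := nonempty_leaf hn ls.length
  refine abs_logsum_sub_le (rho_pos hn hv) fun l => ?_
  rw [zero_add, add_comm]
  exact hG.lip _ x

lemma abs_logRho_le (hG : RSB.Lip K G) {n : ℕ} (hn : 1 ≤ n) {ls : List (ℝ × ℝ)} (R : ℕ → ℝ)
    (x : EuclideanSpace ℝ (Fin N)) {v : Node n ls.length → ℝ} (hv : ∀ u, 0 < v u)
    (z : Node n ls.length → EuclideanSpace ℝ (Fin N)) :
    |logRho n ls R G x v z| ≤ |G 0| + K * ‖x‖ + K * fbound ls.length R z := by
  have := nonempty_leaf hn ls.length
  have h := abs_logsum_sub_le (a := fun l => G (x + fld ls.length R l z)) (b := fun _ => G 0)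
    (rho_pos hn hv) (C := K * ‖x‖ + K * fbound ls.length R z) fun l => ?_
  · rw [← Finset.sum_mul, sum_rho hn hv, one_mul, Real.log_exp] at h
    have := abs_sub_abs_le_abs_sub (logRho n ls R G x v z) (G 0)
    rw [logRho] at this ⊢
    linarith
  · have h1 := hG.lip 0 (x + fld ls.length R l z)
    rw [zero_add] at h1
    refine h1.trans ?_
    rw [← mul_add]
    exact mul_le_mul_of_nonneg_left ((norm_add_le _ _).trans (add_le_add le_rfl
      (Finset.single_le_sum (f := fun l => ‖fld ls.length R l z‖) (fun _ _ => norm_nonneg _)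
        (Finset.mem_univ l)))) hG.nonneg

lemma ae_pos_pi {n k : ℕ} : ∀ᵐ v ∂Measure.pi (fun _ : Node n k => unif), ∀ u, 0 < v u :=
  ae_all_iff.2 fun u => (measurePreserving_eval (fun _ : Node n k => unif) u).quasiMeasurePreserving.ae
    (ae_unif.mono fun v hv => hv.1)

lemma measurable_rho (n : ℕ) (ls : List (ℝ × ℝ)) (l : Leaf n ls.length) :
    Measurable fun v => rho n ls v l :=
  (measurable_lw n ls l).div (Finset.measurable_fun_sum _ fun l' _ => measurable_lw n ls l')

lemma measurable_logRho (hG : Measurable G) (n : ℕ) (ls : List (ℝ × ℝ)) (R : ℕ → ℝ) :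
    Measurable fun p : EuclideanSpace ℝ (Fin N) × (Node n ls.length → ℝ) ×
      (Node n ls.length → EuclideanSpace ℝ (Fin N)) => logRho n ls R G p.1 p.2.1 p.2.2 :=
  (Finset.measurable_fun_sum _ fun l _ =>
    ((measurable_rho n ls l).comp (measurable_fst.comp measurable_snd)).mul
      ((hG.comp (measurable_fst.add
        ((measurable_fld R l).comp (measurable_snd.comp measurable_snd)))).exp)).log

lemma measurable_logRho' (hG : Measurable G) (n : ℕ) (ls : List (ℝ × ℝ)) (R : ℕ → ℝ) {P : Type}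
    [MeasurableSpace P] {fx : P → EuclideanSpace ℝ (Fin N)} {fv : P → Node n ls.length → ℝ}
    {fz : P → Node n ls.length → EuclideanSpace ℝ (Fin N)} (hx : Measurable fx) (hv : Measurable fv)
    (hz : Measurable fz) : Measurable fun p => logRho n ls R G (fx p) (fv p) (fz p) :=
  Measurable.comp (g := fun p : EuclideanSpace ℝ (Fin N) × (Node n ls.length → ℝ) ×
      (Node n ls.length → EuclideanSpace ℝ (Fin N)) => logRho n ls R G p.1 p.2.1 p.2.2)
    (f := fun p => (fx p, fv p, fz p)) (measurable_logRho hG n ls R) (hx.prodMk (hv.prodMk hz))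

lemma norm_linear_integrable (a b : ℝ) :
    Integrable (fun h : EuclideanSpace ℝ (Fin N) => a + b * ‖h‖) (stdGaussian _) :=
  (integrable_const a).add
    ((IsGaussian.integrable_id (μ := stdGaussian (EuclideanSpace ℝ (Fin N)))).norm.const_mul b)

lemma integrable_split (hG : RSB.Lip K G) {n : ℕ} (hn : 1 ≤ n) {ls : List (ℝ × ℝ)} (R : ℕ → ℝ)
    {v : Node n ls.length → ℝ} (hv : ∀ u, 0 < v u) :
    Integrable (fun q : EuclideanSpace ℝ (Fin N) × (Node n ls.length → EuclideanSpace ℝ (Fin N)) =>
        logRho n ls R G (Real.sqrt (R 0) • q.1) v q.2)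
      ((stdGaussian _).prod (Measure.pi fun _ => stdGaussian _)) := by
  refine ((((norm_linear_integrable |G 0| (K * Real.sqrt (R 0))).comp_fst _)).add
    (((integrable_fbound ls.length R).const_mul K).comp_snd _)).mono'
    (measurable_logRho' hG.meas n ls R (fv := fun _ => v) (measurable_fst.const_smul (Real.sqrt (R 0)))
      measurable_const measurable_snd).aestronglyMeasurable
    (Eventually.of_forall fun q => ?_)
  refine (abs_logRho_le hG hn R _ hv q.2).trans_eq ?_
  rw [norm_smul, Real.norm_eq_abs, abs_of_nonneg (Real.sqrt_nonneg _)]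
  simp only [Pi.add_apply]
  ring

lemma leafVal_feat0 (hG : RSB.Lip K G) {n : ℕ} (hn : 1 ≤ n) {ls : List (ℝ × ℝ)} (R : ℕ → ℝ)
    {v : Node n ls.length → ℝ} (hv : ∀ u, 0 < v u) :
    leafVal N (feat0 ls.length R) G (rho n ls v) =
      ∫ h, ∫ z, logRho n ls R G (Real.sqrt (R 0) • h) v z
        ∂Measure.pi (fun _ : Node n ls.length => stdGaussian (EuclideanSpace ℝ (Fin N)))
        ∂stdGaussian (EuclideanSpace ℝ (Fin N)) := by
  have hi := integrable_split hG hn R hv
  rw [← integral_prod _ hi, ← (measurePreserving_split N (Node n ls.length)).map_eq,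
    integral_map (measurePreserving_split N (Node n ls.length)).measurable.aemeasurable]
  · simp only [leafVal, logRho, leafField_feat0]
  · rw [(measurePreserving_split N (Node n ls.length)).map_eq]
    exact hi.aestronglyMeasurable

/-- The mean log-sum at given weights. -/
noncomputable def psi (n : ℕ) (ls : List (ℝ × ℝ)) (R : ℕ → ℝ) (G : EuclideanSpace ℝ (Fin N) → ℝ)
    (x : EuclideanSpace ℝ (Fin N)) (v : Node n ls.length → ℝ) : ℝ :=
  ∫ z, logRho n ls R G x v z
    ∂Measure.pi (fun _ : Node n ls.length => stdGaussian (EuclideanSpace ℝ (Fin N)))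

lemma measurable_psi (hG : Measurable G) (n : ℕ) (ls : List (ℝ × ℝ)) (R : ℕ → ℝ) :
    Measurable fun p : EuclideanSpace ℝ (Fin N) × (Node n ls.length → ℝ) => psi n ls R G p.1 p.2 :=
  ((measurable_logRho' hG n ls R (P := (EuclideanSpace ℝ (Fin N) × (Node n ls.length → ℝ)) ×
      (Node n ls.length → EuclideanSpace ℝ (Fin N))) (measurable_fst.comp measurable_fst)
      (measurable_snd.comp measurable_fst) measurable_snd).stronglyMeasurable.integral_prod_right'
    (ν := Measure.pi fun _ : Node n ls.length => stdGaussian (EuclideanSpace ℝ (Fin N)))).measurable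

lemma integrable_logRho_z (hG : RSB.Lip K G) {n : ℕ} (hn : 1 ≤ n) {ls : List (ℝ × ℝ)} (R : ℕ → ℝ)
    (x : EuclideanSpace ℝ (Fin N)) {v : Node n ls.length → ℝ} (hv : ∀ u, 0 < v u) :
    Integrable (fun z => logRho n ls R G x v z)
      (Measure.pi fun _ : Node n ls.length => stdGaussian (EuclideanSpace ℝ (Fin N))) :=
  ((integrable_const (|G 0| + K * ‖x‖)).add ((integrable_fbound ls.length R).const_mul K)).mono'
    (measurable_logRho' hG.meas n ls R (fx := fun _ => x) (fv := fun _ => v) measurable_const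
      measurable_const measurable_id).aestronglyMeasurable
    (Eventually.of_forall fun z => abs_logRho_le hG hn R x hv z)

/-- The mean length of all fields. -/
noncomputable def fmean (N n k : ℕ) (R : ℕ → ℝ) : ℝ :=
  ∫ z, fbound (N := N) k R z ∂Measure.pi (fun _ : Node n k => stdGaussian (EuclideanSpace ℝ (Fin N)))

lemma abs_psi_le (hG : RSB.Lip K G) {n : ℕ} (hn : 1 ≤ n) {ls : List (ℝ × ℝ)} (R : ℕ → ℝ)
    (x : EuclideanSpace ℝ (Fin N)) {v : Node n ls.length → ℝ} (hv : ∀ u, 0 < v u) :
    |psi n ls R G x v| ≤ |G 0| + K * ‖x‖ + K * fmean N n ls.length R := by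
  refine abs_integral_le_integral_abs.trans ((integral_mono (integrable_logRho_z hG hn R x hv).abs
    ((integrable_const _).add ((integrable_fbound ls.length R).const_mul K))
    fun z => abs_logRho_le hG hn R x hv z).trans_eq ?_)
  simp only [Pi.add_apply]
  rw [integral_add (integrable_const _) ((integrable_fbound ls.length R).const_mul K),
    integral_const_mul, integral_const, probReal_univ, one_smul]
  rfl

lemma abs_psi_sub_le (hG : RSB.Lip K G) {n : ℕ} (hn : 1 ≤ n) {ls : List (ℝ × ℝ)} (R : ℕ → ℝ)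
    (x : EuclideanSpace ℝ (Fin N)) {v : Node n ls.length → ℝ} (hv : ∀ u, 0 < v u) :
    |psi n ls R G x v - psi n ls R G 0 v| ≤ K * ‖x‖ := by
  rw [psi, psi, ← integral_sub (integrable_logRho_z hG hn R x hv) (integrable_logRho_z hG hn R 0 hv),
    ← Real.norm_eq_abs]
  exact (norm_integral_le_of_norm_le_const (C := K * ‖x‖)
    (Eventually.of_forall fun z => abs_logRho_sub_le hG hn R x hv z)).trans_eq
      (by rw [probReal_univ, mul_one])

lemma integrable_psi_joint (hG : RSB.Lip K G) {n : ℕ} (hn : 1 ≤ n) (ls : List (ℝ × ℝ)) (R : ℕ → ℝ) :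
    Integrable (fun p : (Node n ls.length → ℝ) × EuclideanSpace ℝ (Fin N) =>
      psi n ls R G (Real.sqrt (R 0) • p.2) p.1)
      ((Measure.pi fun _ : Node n ls.length => unif).prod (stdGaussian _)) :=
  ((norm_linear_integrable (|G 0| + K * fmean N n ls.length R) (K * Real.sqrt (R 0))).comp_snd _).mono'
    (Measurable.comp (g := fun p : EuclideanSpace ℝ (Fin N) × (Node n ls.length → ℝ) =>
        psi n ls R G p.1 p.2)
      (f := fun p : (Node n ls.length → ℝ) × EuclideanSpace ℝ (Fin N) => (Real.sqrt (R 0) • p.2, p.1))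
      (measurable_psi hG.meas n ls R)
      ((measurable_snd.const_smul (Real.sqrt (R 0))).prodMk measurable_fst)).aestronglyMeasurable
    ((Measure.quasiMeasurePreserving_fst.ae ae_pos_pi).mono fun p hp => by
      refine (abs_psi_le hG hn R _ hp).trans_eq ?_
      rw [norm_smul, Real.norm_eq_abs, abs_of_nonneg (Real.sqrt_nonneg _)]
      ring)

lemma integrable_psi (hG : RSB.Lip K G) {n : ℕ} (hn : 1 ≤ n) (ls : List (ℝ × ℝ)) (R : ℕ → ℝ)
    (x : EuclideanSpace ℝ (Fin N)) :
    Integrable (fun v => psi n ls R G x v) (Measure.pi fun _ : Node n ls.length => unif) :=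
  Integrable.of_bound (Measurable.comp (g := fun p : EuclideanSpace ℝ (Fin N) × (Node n ls.length → ℝ) =>
      psi n ls R G p.1 p.2) (f := fun v : Node n ls.length → ℝ => (x, v))
      (measurable_psi hG.meas n ls R) (measurable_const.prodMk measurable_id)).aestronglyMeasurable
    (|G 0| + K * ‖x‖ + K * fmean N n ls.length R)
    (ae_pos_pi.mono fun _ hv => abs_psi_le hG hn R x hv)

lemma tendsto_psi_root (hG : RSB.Lip K G) {ls : List (ℝ × ℝ)} (hls : Strict ls) (R : ℕ → ℝ) :
    Tendsto (fun n => ∫ h, ∫ v, psi n ls R G (Real.sqrt (R 0) • h) v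
      ∂Measure.pi (fun _ : Node n ls.length => unif) ∂stdGaussian (EuclideanSpace ℝ (Fin N)))
      atTop (𝓝 (rootVal N ls R G)) := by
  have hVlim : ∀ x, Tendsto (fun n => ∫ v, psi n ls R G x v
      ∂Measure.pi (fun _ : Node n ls.length => unif)) atTop
      (𝓝 (RSB.casc (stdGaussian _) RSB.levM (RSB.sh 1) (RSB.withR ls R) G x)) := fun x =>
    tendsto_logRho hG hls R x
  obtain ⟨B, hB⟩ := (hVlim 0).abs.bddAbove_range
  refine tendsto_integral_filter_of_dominated_convergence _
    (Eventually.of_forall fun n => ?_) ((eventually_ge_atTop 1).mono fun n hn =>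
      Eventually.of_forall fun h => ?_) (norm_linear_integrable B (K * Real.sqrt (R 0)))
    (Eventually.of_forall fun h => hVlim _)
  · have hm := ((measurable_psi hG.meas n ls R).stronglyMeasurable.integral_prod_right'
      (ν := Measure.pi fun _ : Node n ls.length => unif)).measurable
    exact (hm.comp (measurable_id.const_smul (Real.sqrt (R 0)))).aestronglyMeasurable
  · set x := Real.sqrt (R 0) • h with hx
    have h1 : |(∫ v, psi n ls R G x v ∂Measure.pi (fun _ : Node n ls.length => unif)) -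
        ∫ v, psi n ls R G 0 v ∂Measure.pi (fun _ : Node n ls.length => unif)| ≤ K * ‖x‖ := by
      rw [← integral_sub (integrable_psi hG hn ls R x) (integrable_psi hG hn ls R 0), ← Real.norm_eq_abs]
      exact (norm_integral_le_of_norm_le_const (C := K * ‖x‖)
        (ae_pos_pi.mono fun v hv => abs_psi_sub_le hG hn R x hv)).trans_eq
          (by rw [probReal_univ, mul_one])
    have h2 := abs_sub_abs_le_abs_sub (∫ v, psi n ls R G x v ∂Measure.pi (fun _ : Node n ls.length => unif))
      (∫ v, psi n ls R G 0 v ∂Measure.pi (fun _ : Node n ls.length => unif))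
    have h3 : ‖x‖ = Real.sqrt (R 0) * ‖h‖ := by
      rw [hx, norm_smul, Real.norm_eq_abs, abs_of_nonneg (Real.sqrt_nonneg _)]
    rw [h3, ← mul_assoc] at h1
    rw [Real.norm_eq_abs]
    linarith [hB ⟨n, rfl⟩]

/-- Random weights approximate the values with root. -/
theorem tendsto_leafVal (hG : RSB.Lip K G) {ls : List (ℝ × ℝ)} (hls : Strict ls) (R : ℕ → ℝ) :
    (∀ n, 1 ≤ n → Integrable (fun v => leafVal N (feat0 ls.length R) G (rho n ls v))
      (Measure.pi fun _ : Node n ls.length => unif)) ∧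
    Tendsto (fun n => ∫ v, leafVal N (feat0 ls.length R) G (rho n ls v)
        ∂Measure.pi (fun _ : Node n ls.length => unif)) atTop (𝓝 (rootVal N ls R G)) := by
  have hval : ∀ n, 1 ≤ n → (fun v => leafVal N (feat0 ls.length R) G (rho n ls v))
      =ᵐ[Measure.pi fun _ : Node n ls.length => unif]
      fun v => ∫ h, psi n ls R G (Real.sqrt (R 0) • h) v ∂stdGaussian _ := fun n hn =>
    ae_pos_pi.mono fun _ hv => leafVal_feat0 hG hn R hv
  refine ⟨fun n hn => (integrable_psi_joint hG hn ls R).integral_prod_left.congr (hval n hn).symm, ?_⟩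
  refine (tendsto_psi_root hG hls R).congr' ((eventually_ge_atTop 1).mono fun n hn => ?_)
  simp only [integral_congr_ae (hval n hn)]
  exact (integral_integral_swap (integrable_psi_joint hG hn ls R)).symm

theorem tree_realise {ls : List (ℝ × ℝ)} (hls : Strict ls) {N N' : ℕ} {R R' : ℕ → ℝ}
    {G : EuclideanSpace ℝ (Fin N) → ℝ} {G' : EuclideanSpace ℝ (Fin N') → ℝ} {K K' : ℝ}
    (hG : RSB.Lip K G) (hG' : RSB.Lip K' G') {η : ℝ} (hη : 0 < η) :
    ∃ (n : ℕ) (ρ : Leaf n ls.length → ℝ), (∀ l, 0 < ρ l) ∧ ∑ l, ρ l = 1 ∧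
      leafVal N (feat0 ls.length R) G ρ - leafVal N' (feat0 ls.length R') G' ρ ≤
        rootVal N ls R G - rootVal N' ls R' G' + η := by
  obtain ⟨hi, hl⟩ := tendsto_leafVal hG hls R
  obtain ⟨hi', hl'⟩ := tendsto_leafVal hG' hls R'
  obtain ⟨n, hn, hle⟩ := ((eventually_ge_atTop 1).and ((hl.sub hl').eventually
    (Iio_mem_nhds (lt_add_of_pos_right (rootVal N ls R G - rootVal N' ls R' G') hη)))).exists
  obtain ⟨v, hv, hvle⟩ := exists_notMem_null_le_integral ((hi n hn).sub (hi' n hn))
    (ae_iff.1 (ae_pos_pi (n := n) (k := ls.length)))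
  have hv : ∀ u, 0 < v u := by simpa using hv
  refine ⟨n, rho n ls v, rho_pos hn hv, sum_rho hn hv, le_trans ?_ hle.le⟩
  rw [← integral_sub (hi n hn) (hi' n hn)]
  exact hvle

lemma ordered_withR : ∀ {ls : List (ℝ × ℝ)} (R : ℕ → ℝ), Strict ls → RSB.Ordered (RSB.withR ls R)
  | [], _, _ => trivial
  | [(m, d)], _, h => ⟨(h.2 _ (List.mem_cons_self ..)).1, (h.2 _ (List.mem_cons_self ..)).2.le, trivial⟩
  | (m, d) :: (m', d') :: ls, R, h =>
    ⟨(h.2 _ (List.mem_cons_self ..)).1, (List.isChain_cons_cons.1 h.1).1.le,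
      ordered_withR _ ⟨(List.isChain_cons_cons.1 h.1).2, fun p hp => h.2 p (List.mem_cons_of_mem _ hp)⟩⟩

lemma casc_linG : ∀ {ls : List (ℝ × ℝ)} {R : ℕ → ℝ}, (∀ p ∈ ls, 0 < p.1) →
    (∀ j < ls.length, R j ≤ R (j + 1)) → ∀ x,
    RSB.casc (stdGaussian (EuclideanSpace ℝ (Fin 1))) RSB.levM (RSB.sh 1) (RSB.withR ls R) linG x =
      linG x + (∑ i : Fin ls.length, (ls.get i).1 * (R (i + 1) - R i)) / 2
  | [], R, _, _, x => by simp [RSB.withR, RSB.casc]
  | (m, d) :: ls, R, hp, hR, x => by
    have hm : 0 < m := hp _ (List.mem_cons_self ..)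
    have ih := casc_linG (ls := ls) (R := fun j => R (j + 1))
      (fun q hq => hp q (List.mem_cons_of_mem _ hq))
      (fun j hj => hR (j + 1) (by simp only [List.length_cons]; omega))
    set c := (∑ i : Fin ls.length, (ls.get i).1 * (R (i + 1 + 1) - R (i + 1))) / 2
    set s := Real.sqrt (R 1 - R 0)
    have hsh : ∀ h : EuclideanSpace ℝ (Fin 1),
        m * (linG (x + RSB.sh 1 (m, d, R 1 - R 0) h) + c) = m * (linG x + c) + m * s * h 0 := fun h => by
      simp only [linG, RSB.sh, one_mul, PiLp.add_apply, PiLp.smul_apply, smul_eq_mul, s]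
      ring
    have hg : ∫ h : EuclideanSpace ℝ (Fin 1), Real.exp (m * s * h 0) ∂stdGaussian _ =
        Real.exp ((m * s) ^ 2 / 2) := by
      have := mgf_gaussianReal (measurePreserving_coord (0 : Fin 1)).map_eq (m * s)
      simpa [mgf] using this
    simp only [RSB.withR, RSB.casc, RSB.lexp, RSB.levM, ih, hsh, Real.exp_add]
    rw [integral_const_mul, hg, Real.log_mul (Real.exp_pos _).ne' (Real.exp_pos _).ne', Real.log_exp,
      Real.log_exp]
    have hs : s ^ 2 = R 1 - R 0 := Real.sq_sqrt (sub_nonneg.2 (hR 0 (by simp)))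
    rw [show (∑ i : Fin ((m, d) :: ls).length, (((m, d) :: ls).get i).1 * (R (i + 1) - R i)) =
      ∑ i : Fin (ls.length + 1), (((m, d) :: ls).get i).1 * (R (i + 1) - R i) from rfl, Fin.sum_univ_succ]
    simp only [List.get_cons_zero, List.get_cons_succ', Fin.val_succ, Fin.val_zero,
      zero_add]
    field_simp
    rw [hs]
    simp only [c]
    ring

theorem rootVal_linG {ls : List (ℝ × ℝ)} (hls : Strict ls) {R : ℕ → ℝ}
    (hR : ∀ j < ls.length, R j ≤ R (j + 1)) :
    rootVal 1 ls R linG = (∑ i : Fin ls.length, (ls.get i).1 * (R (i + 1) - R i)) / 2 := by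
  have hi : Integrable (fun h : EuclideanSpace ℝ (Fin 1) => Real.sqrt (R 0) * h 0) (stdGaussian _) :=
    ((measurePreserving_coord (0 : Fin 1)).integrable_comp_of_integrable
      (IsGaussian.integrable_id (μ := gaussianReal 0 1))).const_mul _
  simp only [rootVal, casc_linG hls.pos hR, linG, PiLp.smul_apply, smul_eq_mul]
  rw [integral_add hi (integrable_const _), integral_const_mul]
  have h0 : ∫ h : EuclideanSpace ℝ (Fin 1), h 0 ∂stdGaussian _ = 0 := by
    have hmp := measurePreserving_coord (0 : Fin 1)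
    have := integral_map hmp.measurable.aemeasurable
      (f := fun y : ℝ => y) (μ := stdGaussian (EuclideanSpace ℝ (Fin 1))) (by fun_prop)
    rw [hmp.map_eq, integral_id_gaussianReal] at this
    exact this.symm
  simp [h0]

theorem rootVal_spinG {ls : List (ℝ × ℝ)} (hls : Strict ls) (N : ℕ) (R : ℕ → ℝ) :
    rootVal N ls R (spinG N) = N * ∫ x, rsbSpin ls R (Real.sqrt (R 0) * x) ∂gaussianReal 0 1 := by
  rcases Nat.eq_zero_or_pos N with rfl | hN
  · have h0 : spinG 0 = fun _ => (0 : ℝ) := funext fun H => by simp [spinG]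
    have hne : ∀ i ∈ RSB.withR ls R, RSB.levM i ≠ 0 := fun i hi =>
      ((good_withR (N := 0) R hls.pos) i hi).1.ne'
    simp [rootVal, h0, RSB.casc_zero hne]
  · set c := Real.sqrt (N : ℝ)
    have hc : c ≠ 0 := Real.sqrt_ne_zero'.2 (by exact_mod_cast hN)
    set φ : EuclideanSpace ℝ (Fin N) →+ EuclideanSpace ℝ (Fin N) :=
      DistribSMul.toAddMonoidHom _ c with hφ
    have hGφ : spinG N = fun H => RSB.hBase (cubeMeasure N) (fun _ => 1) (cubeVec N) (φ H) := funext fun H => by
      rw [RSB.hBase_cube, spinG]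
      refine Finset.sum_congr rfl fun i _ => ?_
      simp [hφ, c, hc]
    have hσ : (fun (i : RSB.Lev) (z : EuclideanSpace ℝ (Fin N)) => φ (RSB.sh 1 i z)) =
        RSB.sh (1 * (N : ℝ)) := by
      funext i z
      simp only [hφ, RSB.sh, DistribSMul.toAddMonoidHom_apply, smul_smul, one_mul, c,
        ← Real.sqrt_mul (Nat.cast_nonneg N)]
    have h1 := RSB.fldPsi_cube (α := (1 : ℝ)) hN (ordered_withR R hls)
      (by simpa using ordered_withR R hls)
    simp only [one_mul] at h1
    rw [← h1, rootVal, RSB.fldPsi]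
    refine integral_congr_ae (Eventually.of_forall fun h => ?_)
    dsimp only
    rw [hGφ, RSB.casc_map, hσ, one_mul]
    congr 1
    simp only [hφ, DistribSMul.toAddMonoidHom_apply, smul_smul, c, ← Real.sqrt_mul (Nat.cast_nonneg N)]

end Vale.Agent.P166N
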