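import Vale.Agent.P166N.Mono
import Vale.Agent.P157.Low.BorelSpin

/-!
The nested spin entropy changes by at most the uniform change of its conjugate overlaps.
-/

namespace Vale.Agent.P166N

open MeasureTheory ProbabilityTheory Filter
open Vale.Agent.P157

variable {U : ℝ → ℝ} {K m m' a b t : ℝ}

/-- One level of exponent `m` and variance `s`. -/
noncomputable def levelStep (U : ℝ → ℝ) (m s y : ℝ) : ℝ :=
  RSB.lexp (gaussianReal 0 1) m fun z => U (y + Real.sqrt s * z)

lemma rsbSpin_cons (m d : ℝ) (ls : List (ℝ × ℝ)) (R : ℕ → ℝ) :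
    rsbSpin ((m, d) :: ls) R = levelStep (rsbSpin ls fun j => R (j + 1)) m (R 1 - R 0) := rfl

lemma lip_levelStep (hU : RSB.Lip K U) (hm : 0 < m) (s : ℝ) : RSB.Lip K (levelStep U m s) :=
  Low.lip_level hU hm s

lemma wgt_lip (hU : RSB.Lip K U) (m y r : ℝ) : RSB.Wgt (gaussianReal 0 1) m fun z => U (y + r * z) :=
  ⟨hU.meas.comp (by fun_prop), Low.lip_exp_int hU m y r⟩

/-- A larger exponent gives a larger log-moment. -/
lemma lexp_mono_exponent {X : ℝ → ℝ} (hm : 0 < m) (hmm : m ≤ m') (h : RSB.Wgt (gaussianReal 0 1) m X)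
    (h' : RSB.Wgt (gaussianReal 0 1) m' X) : RSB.lexp (gaussianReal 0 1) m X ≤ RSB.lexp (gaussianReal 0 1) m' X := by
  have hm' : 0 < m' := hm.trans_le hmm
  set L := RSB.lexp (gaussianReal 0 1) m' X with hL
  have hI : ∫ z, Real.exp (m' * X z) ∂gaussianReal 0 1 = Real.exp (m' * L) := by
    rw [hL, RSB.lexp, mul_div_cancel₀ _ hm'.ne', Real.exp_log h'.pos]
  set p := m / m' with hp
  have hp0 : 0 ≤ p := by positivity
  have hp1 : p ≤ 1 := (div_le_one hm').2 hmm
  have hpt : ∀ z, Real.exp (m * X z) ≤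
      Real.exp (m * L) * (1 - p) + Real.exp (m * L) * Real.exp (-(m' * L)) * p * Real.exp (m' * X z) := by
    intro z
    have h1 := convexOn_exp.2 (Set.mem_univ (0 : ℝ)) (Set.mem_univ (m' * (X z - L)))
      (by linarith : 0 ≤ 1 - p) hp0 (by ring)
    simp only [smul_eq_mul, mul_zero, zero_add, Real.exp_zero, mul_one] at h1
    rw [show p * (m' * (X z - L)) = m * X z - m * L by rw [hp]; field_simp] at h1
    rw [Real.exp_sub, div_le_iff₀ (Real.exp_pos _)] at h1
    refine h1.trans (le_of_eq ?_)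
    rw [mul_sub m', Real.exp_sub, Real.exp_neg, div_eq_mul_inv]
    ring
  have hi := integral_mono h.int ((integrable_const _).add (h'.int.const_mul _)) hpt
  simp only [Pi.add_apply] at hi
  rw [integral_add (integrable_const _) (h'.int.const_mul _), integral_const, probReal_univ, one_smul,
    integral_const_mul, hI, Real.exp_neg] at hi
  have e : Real.exp (m * L) * (1 - p) +
      Real.exp (m * L) * (Real.exp (m' * L))⁻¹ * p * Real.exp (m' * L) = Real.exp (m * L) := by
    field_simp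
    ring
  rw [e] at hi
  rw [RSB.lexp, div_le_iff₀ hm, mul_comm L]
  exact (Real.log_le_iff_le_exp h.pos).2 hi

/-- The mean is at most every log-moment. -/
lemma mean_le_lexp {X : ℝ → ℝ} (hm : 0 < m) (h : RSB.Wgt (gaussianReal 0 1) m X) (hX : Integrable X (gaussianReal 0 1)) :
    ∫ z, X z ∂gaussianReal 0 1 ≤ RSB.lexp (gaussianReal 0 1) m X := by
  set L := RSB.lexp (gaussianReal 0 1) m X with hL
  have hI : ∫ z, Real.exp (m * X z) ∂gaussianReal 0 1 = Real.exp (m * L) := by
    rw [hL, RSB.lexp, mul_div_cancel₀ _ hm.ne', Real.exp_log h.pos]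
  have hpt : ∀ z, m * X z + (1 - m * L) ≤ Real.exp (-(m * L)) * Real.exp (m * X z) := fun z => by
    rw [← Real.exp_add]
    linarith [Real.add_one_le_exp (-(m * L) + m * X z)]
  have hi := integral_mono ((hX.const_mul m).add (integrable_const _)) (h.int.const_mul _) hpt
  simp only [Pi.add_apply] at hi
  rw [integral_add (hX.const_mul m) (integrable_const _), integral_const_mul, integral_const_mul, hI,
    ← Real.exp_add, neg_add_cancel, Real.exp_zero] at hi
  simp only [integral_const, probReal_univ, one_smul] at hi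
  exact le_of_mul_le_mul_left (by linarith) hm

/-- Two levels of the same exponent merge. -/
lemma levelStep_merge (hU : RSB.Lip K U) (hm : 0 < m) (ha : 0 ≤ a) (hb : 0 ≤ b) (x : ℝ) :
    levelStep (levelStep U m b) m a x = levelStep U m (a + b) x := by
  have e : ∀ z, Real.exp (m * levelStep U m b (x + Real.sqrt a * z)) =
      ∫ w, Real.exp (m * U (x + Real.sqrt a * z + Real.sqrt b * w)) ∂gaussianReal 0 1 := fun z => by
    rw [levelStep, RSB.lexp, mul_div_cancel₀ _ hm.ne', Real.exp_log (wgt_lip hU m _ _).pos]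
  have h := (Low.gauss_merge (H := fun u => Real.exp (m * U (x + u)))
    ((hU.meas.comp (measurable_const_add x)).const_mul m).exp
    (show Real.sqrt a ^ 2 + Real.sqrt b ^ 2 = Real.sqrt (a + b) ^ 2 by
      rw [Real.sq_sqrt ha, Real.sq_sqrt hb, Real.sq_sqrt (add_nonneg ha hb)])
    (Low.lip_exp_int hU m x _)).2
  simp only [levelStep, RSB.lexp] at e ⊢
  simp only [e]
  simp only [add_assoc]
  rw [h]

/-- Means merge with means. -/
lemma mean_merge (hU : RSB.Lip K U) (ha : 0 ≤ a) (hb : 0 ≤ b) :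
    Integrable (fun z => ∫ w, U (Real.sqrt a * z + Real.sqrt b * w) ∂gaussianReal 0 1) (gaussianReal 0 1) ∧
      ∫ z, ∫ w, U (Real.sqrt a * z + Real.sqrt b * w) ∂gaussianReal 0 1 ∂gaussianReal 0 1 = ∫ u, U (Real.sqrt (a + b) * u) ∂gaussianReal 0 1 :=
  Low.gauss_merge hU.meas
    (show Real.sqrt a ^ 2 + Real.sqrt b ^ 2 = Real.sqrt (a + b) ^ 2 by
      rw [Real.sq_sqrt ha, Real.sq_sqrt hb, Real.sq_sqrt (add_nonneg ha hb)])
    (by simpa using Low.lip_integrable hU 0 (Real.sqrt (a + b)))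

/-- Variance moved to an inner level of larger exponent raises the value. -/
lemma levelStep_move (hU : RSB.Lip K U) (hm : 0 < m) (hmm : m ≤ m') (ha : 0 ≤ a) (hb : 0 ≤ b)
    (ht : 0 ≤ t) (x : ℝ) :
    levelStep (levelStep U m' b) m (a + t) x ≤ levelStep (levelStep U m' (t + b)) m a x := by
  have hm' : 0 < m' := hm.trans_le hmm
  have hV := lip_levelStep hU hm' b
  rw [← levelStep_merge hV hm ha ht]
  refine RSB.lexp_mono (wgt_lip (lip_levelStep hV hm t) m x _)
    (wgt_lip (lip_levelStep hU hm' (t + b)) m x _) hm fun z => ?_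
  rw [← levelStep_merge hU hm' ht hb]
  exact lexp_mono_exponent hm hmm (wgt_lip hV m _ _) (wgt_lip hV m' _ _)

lemma mean_move (hU : RSB.Lip K U) (hm : 0 < m) (ha : 0 ≤ a) (hb : 0 ≤ b) (ht : 0 ≤ t) :
    ∫ z, levelStep U m b (Real.sqrt (a + t) * z) ∂gaussianReal 0 1 ≤
      ∫ z, levelStep U m (t + b) (Real.sqrt a * z) ∂gaussianReal 0 1 := by
  have hV := lip_levelStep hU hm b
  obtain ⟨hi, he⟩ := mean_merge hV ha ht
  rw [← he]
  refine integral_mono hi (by simpa using Low.lip_integrable (lip_levelStep hU hm (t + b)) 0 (Real.sqrt a))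
    fun z => ?_
  rw [← levelStep_merge hU hm ht hb]
  exact mean_le_lexp hm (wgt_lip hV m _ _) (Low.lip_integrable hV _ _)

/-! ### The nested spin entropy -/

lemma rsbSpin_congr : ∀ (ls : List (ℝ × ℝ)) {R R' : ℕ → ℝ},
    (∀ j < ls.length, R (j + 1) - R j = R' (j + 1) - R' j) → rsbSpin ls R = rsbSpin ls R'
  | [], _, _, _ => rfl
  | (m, d) :: ls, R, R', h => by
    rw [rsbSpin_cons, rsbSpin_cons, rsbSpin_congr ls (R := fun j => R (j + 1)) (R' := fun j => R' (j + 1))
      fun j hj => h (j + 1) (by simpa using hj)]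
    congr 1
    simpa using h 0 (by simp)

lemma einc_rsbSpin : ∀ (ls : List (ℝ × ℝ)) (R : ℕ → ℝ), (∀ p ∈ ls, 0 < p.1 ∧ p.1 ≤ 1) →
    EInc (rsbSpin ls R)
  | [], _, _ => fun x y h => Real.log_le_log (Real.cosh_pos x) (Real.cosh_le_cosh.2 h)
  | (m, d) :: ls, R, hb => by
    obtain ⟨hm, -⟩ := hb (m, d) (List.mem_cons_self ..)
    have hb' : ∀ p ∈ ls, 0 < p.1 ∧ p.1 ≤ 1 := fun p hp => hb p (List.mem_cons_of_mem _ hp)
    obtain ⟨hl, -⟩ := Low.rsbSpin_props ls (fun j => R (j + 1)) hb'
    have hE : EInc fun x => Real.exp (m * rsbSpin ls (fun j => R (j + 1)) x) := fun x y h =>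
      Real.exp_le_exp.2 (mul_le_mul_of_nonneg_left (einc_rsbSpin ls _ hb' x y h) hm.le)
    intro x y h
    exact div_le_div_of_nonneg_right (Real.log_le_log (wgt_lip hl m x _).pos
      (hE.shift _ (fun u => Low.lip_exp_int hl m u _) x y h)) hm.le

/-- Lower conjugate overlaps under the same last one give a larger value. -/
lemma spin_antitone : ∀ (ls : List (ℝ × ℝ)) {μ : ℝ} {R R' : ℕ → ℝ}, 0 < μ →
    (μ :: ls.map Prod.fst).IsChain (· ≤ ·) → (∀ p ∈ ls, 0 < p.1 ∧ p.1 ≤ 1) → 0 ≤ R' 0 →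
    (∀ j < ls.length, R j ≤ R (j + 1) ∧ R' j ≤ R' (j + 1)) → (∀ j ≤ ls.length, R' j ≤ R j) →
    R' ls.length = R ls.length → ∀ x,
      levelStep (rsbSpin ls R) μ (R 0) x ≤ levelStep (rsbSpin ls R') μ (R' 0) x
  | [], _, R, R', _, _, _, _, _, _, htop, x => by
    simp only [List.length_nil] at htop
    rw [htop]
    exact le_rfl
  | (m, d) :: ls, μ, R, R', hμ, hch, hb, h0, hmon, hle, htop, x => by
    simp only [List.map_cons, List.isChain_cons_cons] at hch
    obtain ⟨hm, -⟩ := hb (m, d) (List.mem_cons_self ..)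
    have hb' : ∀ p ∈ ls, 0 < p.1 ∧ p.1 ≤ 1 := fun p hp => hb p (List.mem_cons_of_mem _ hp)
    obtain ⟨hl, -⟩ := Low.rsbSpin_props ls (fun j => R (j + 1)) hb'
    obtain ⟨hl', -⟩ := Low.rsbSpin_props ls (fun j => R' (j + 1)) hb'
    have h00 := hle 0 (by simp)
    have h01 := hmon 0 (by simp)
    rw [rsbSpin_cons, rsbSpin_cons]
    have hmv := levelStep_move hl hμ hch.1 h0 (sub_nonneg.2 h01.1) (sub_nonneg.2 h00) x
    rw [add_sub_cancel] at hmv
    refine hmv.trans ?_
    refine RSB.lexp_mono (wgt_lip (lip_levelStep hl hm _) μ x _) (wgt_lip (lip_levelStep hl' hm _) μ x _) hμ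
      fun z => ?_
    have ih := spin_antitone ls (μ := m) (R := fun j => R (j + 1) - R' 0)
      (R' := fun j => R' (j + 1) - R' 0) hm hch.2 hb' (sub_nonneg.2 h01.2)
      (fun j hj => ⟨sub_le_sub_right (hmon (j + 1) (by simpa using hj)).1 _,
        sub_le_sub_right (hmon (j + 1) (by simpa using hj)).2 _⟩)
      (fun j hj => sub_le_sub_right (hle (j + 1) (by simpa using hj)) _)
      (by simpa using htop) (x + Real.sqrt (R' 0) * z)
    rw [rsbSpin_congr ls (R := fun j => R (j + 1) - R' 0) (R' := fun j => R (j + 1)) (fun j _ => by ring),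
      rsbSpin_congr ls (R := fun j => R' (j + 1) - R' 0) (R' := fun j => R' (j + 1)) (fun j _ => by ring)]
      at ih
    rwa [sub_add_sub_cancel', zero_add]

/-- The spin term. -/
noncomputable def spinRoot (ls : List (ℝ × ℝ)) (R : ℕ → ℝ) : ℝ :=
  ∫ x, rsbSpin ls R (Real.sqrt (R 0) * x) ∂gaussianReal 0 1

lemma spinRoot_antitone (ls : List (ℝ × ℝ)) {R R' : ℕ → ℝ} (hch : (ls.map Prod.fst).IsChain (· ≤ ·))
    (hb : ∀ p ∈ ls, 0 < p.1 ∧ p.1 ≤ 1) (h0 : 0 ≤ R' 0)
    (hmon : ∀ j < ls.length, R j ≤ R (j + 1) ∧ R' j ≤ R' (j + 1)) (hle : ∀ j ≤ ls.length, R' j ≤ R j)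
    (htop : R' ls.length = R ls.length) : spinRoot ls R ≤ spinRoot ls R' := by
  rcases ls with _ | ⟨⟨m, d⟩, ls⟩
  · simp only [List.length_nil] at htop
    simp only [spinRoot, rsbSpin, htop]
    exact le_rfl
  · obtain ⟨hm, -⟩ := hb (m, d) (List.mem_cons_self ..)
    have hb' : ∀ p ∈ ls, 0 < p.1 ∧ p.1 ≤ 1 := fun p hp => hb p (List.mem_cons_of_mem _ hp)
    obtain ⟨hl, -⟩ := Low.rsbSpin_props ls (fun j => R (j + 1)) hb'
    obtain ⟨hl', -⟩ := Low.rsbSpin_props ls (fun j => R' (j + 1)) hb'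
    have h00 := hle 0 (by simp)
    have h01 := hmon 0 (by simp)
    have hmv := mean_move hl hm h0 (sub_nonneg.2 h01.1) (sub_nonneg.2 h00)
    rw [add_sub_cancel] at hmv
    simp only [spinRoot, rsbSpin_cons]
    refine hmv.trans (integral_mono (by simpa using Low.lip_integrable (lip_levelStep hl hm _) 0 _)
      (by simpa using Low.lip_integrable (lip_levelStep hl' hm _) 0 _) fun z => ?_)
    have ih := spin_antitone ls (μ := m) (R := fun j => R (j + 1) - R' 0)
      (R' := fun j => R' (j + 1) - R' 0) hm hch hb' (sub_nonneg.2 h01.2)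
      (fun j hj => ⟨sub_le_sub_right (hmon (j + 1) (by simpa using hj)).1 _,
        sub_le_sub_right (hmon (j + 1) (by simpa using hj)).2 _⟩)
      (fun j hj => sub_le_sub_right (hle (j + 1) (by simpa using hj)) _)
      (by simpa using htop) (Real.sqrt (R' 0) * z)
    rw [rsbSpin_congr ls (R := fun j => R (j + 1) - R' 0) (R' := fun j => R (j + 1)) (fun j _ => by ring),
      rsbSpin_congr ls (R := fun j => R' (j + 1) - R' 0) (R' := fun j => R' (j + 1)) (fun j _ => by ring)]
      at ih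
    rwa [sub_add_sub_cancel', zero_add]

/-- A last level of exponent one adds half of its variance. -/
lemma rsbSpin_append : ∀ (ls : List (ℝ × ℝ)) (R : ℕ → ℝ), (∀ p ∈ ls, 0 < p.1 ∧ p.1 ≤ 1) →
    R ls.length ≤ R (ls.length + 1) → ∀ x,
      rsbSpin (ls ++ [(1, 0)]) R x = rsbSpin ls R x + (R (ls.length + 1) - R ls.length) / 2
  | [], R, _, h, x => by
    simp only [List.length_nil, zero_add] at h ⊢
    simp only [List.nil_append, rsbSpin, one_mul, div_one, Real.exp_log (Real.cosh_pos _)]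
    have := Low.integral_cosh_gauss 1 x (sub_nonneg.2 h)
    simp only [one_mul, one_pow] at this
    rw [this, Real.log_mul (Real.exp_pos _).ne' (Real.cosh_pos _).ne', Real.log_exp]
    ring
  | (m, d) :: ls, R, hb, h, x => by
    obtain ⟨hm, -⟩ := hb (m, d) (List.mem_cons_self ..)
    have hb' : ∀ p ∈ ls, 0 < p.1 ∧ p.1 ≤ 1 := fun p hp => hb p (List.mem_cons_of_mem _ hp)
    obtain ⟨hl, -⟩ := Low.rsbSpin_props ls (fun j => R (j + 1)) hb'
    simp only [List.cons_append, rsbSpin_cons, levelStep, List.length_cons,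
      rsbSpin_append ls (fun j => R (j + 1)) hb' h]
    exact RSB.lexp_add_const (wgt_lip hl m x _) hm.ne' _

/-- The spin term changes by at most the uniform change of the conjugate overlaps. -/
theorem spinRoot_close {ls : List (ℝ × ℝ)} (hch : (ls.map Prod.fst).IsChain (· ≤ ·))
    (hb : ∀ p ∈ ls, 0 < p.1 ∧ p.1 ≤ 1) {R R' : ℕ → ℝ} (h0' : 0 ≤ R' 0)
    (hmon : ∀ j < ls.length, R j ≤ R (j + 1) ∧ R' j ≤ R' (j + 1)) {ε : ℝ}
    (hε : ∀ j ≤ ls.length, |R j - R' j| ≤ ε) : spinRoot ls R ≤ spinRoot ls R' + ε := by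
  set k := ls.length
  have hε0 : 0 ≤ ε := (abs_nonneg _).trans (hε 0 (Nat.zero_le _))
  set T := max (R k + ε) (R' k) with hT
  set S := fun j => if j ≤ k then R j + ε else T with hS
  set S' := fun j => if j ≤ k then R' j else T with hS'
  set ls' := ls ++ [((1 : ℝ), (0 : ℝ))] with hls'
  have hl' : ls'.length = k + 1 := by simp [ls', k]
  have hb1 : ∀ p ∈ ls', 0 < p.1 ∧ p.1 ≤ 1 := fun p hp => by
    rcases List.mem_append.1 hp with hp | hp
    · exact hb p hp
    · simp only [List.mem_singleton] at hp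
      subst hp
      norm_num
  have hch' : (ls'.map Prod.fst).IsChain (· ≤ ·) := by
    simp only [ls', List.map_append, List.map_cons, List.map_nil]
    refine List.isChain_append.2 ⟨hch, List.isChain_singleton _, fun x hx y hy => ?_⟩
    obtain ⟨p, hp, rfl⟩ := List.mem_map.1 (List.mem_of_getLast? hx)
    simp only [List.head?_cons, Option.mem_def, Option.some.injEq] at hy
    rw [← hy]
    exact (hb p hp).2
  have hA := spinRoot_antitone ls' (R := S) (R' := S') hch' hb1 (by simp [hS', h0'])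
    (fun j hj => by
      rw [hl'] at hj
      rcases lt_or_eq_of_le (Nat.lt_succ_iff.1 hj) with hj | rfl
      · simp only [hS, hS', if_pos hj.le, if_pos (Nat.succ_le_of_lt hj)]
        exact ⟨by linarith [(hmon j hj).1], (hmon j hj).2⟩
      · simp only [hS, hS', le_refl, if_true, if_neg (Nat.not_succ_le_self _)]
        exact ⟨le_max_left _ _, le_max_right _ _⟩)
    (fun j hj => by
      simp only [hS, hS']
      split_ifs with h
      · linarith [(abs_le.1 (hε j h)).1]
      · exact le_rfl)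
    (by simp [hS, hS', hl'])
  have hx : ∀ Q : ℕ → ℝ, (∀ j, j ≤ k → Q j ≤ T) → ∀ x,
      rsbSpin ls' (fun j => if j ≤ k then Q j else T) x = rsbSpin ls Q x + (T - Q k) / 2 := fun Q hQ x => by
    rw [hls', rsbSpin_append ls _ hb (by simp [k, hQ k le_rfl]),
      rsbSpin_congr ls (R' := Q) fun j hj => by simp [hj.le, Nat.succ_le_of_lt hj, k]]
    simp [k]
  have hl := (Low.rsbSpin_props ls R hb).1
  have hl2 := (Low.rsbSpin_props ls R' hb).1
  have eR : rsbSpin ls (fun j => R j + ε) = rsbSpin ls R := rsbSpin_congr ls fun j _ => by ring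
  have hmonle : ∀ {Q : ℕ → ℝ}, (∀ j < k, Q j ≤ Q (j + 1)) → ∀ j ≤ k, Q j ≤ Q k := fun {Q} hQ j hj => by
    induction hj using Nat.decreasingInduction with
    | self => exact le_rfl
    | of_succ i hi ih => exact (hQ i hi).trans ih
  have e1 : spinRoot ls' S = (∫ x, rsbSpin ls R (Real.sqrt (R 0 + ε) * x) ∂gaussianReal 0 1) + (T - (R k + ε)) / 2 := by
    simp only [spinRoot, hS, Nat.zero_le, if_true]
    simp only [hx (fun j => R j + ε) fun j hj => le_trans (by linarith [hmonle (fun i hi => (hmon i hi).1) j hj])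
      (le_max_left _ _), eR]
    rw [integral_add (by simpa using Low.lip_integrable hl 0 _) (integrable_const _)]
    simp
  have e2 : spinRoot ls' S' = spinRoot ls R' + (T - R' k) / 2 := by
    simp only [spinRoot, hS', Nat.zero_le, if_true]
    simp only [hx R' fun j hj => (hmonle (fun i hi => (hmon i hi).2) j hj).trans (le_max_right _ _)]
    rw [integral_add (by simpa using Low.lip_integrable hl2 0 _) (integrable_const _)]
    simp
  have hR : spinRoot ls R ≤ ∫ x, rsbSpin ls R (Real.sqrt (R 0 + ε) * x) ∂gaussianReal 0 1 := by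
    refine integral_mono (by simpa using Low.lip_integrable hl 0 _)
      (by simpa using Low.lip_integrable hl 0 _) fun x => einc_rsbSpin ls R hb _ _ ?_
    rw [abs_mul, abs_mul, abs_of_nonneg (Real.sqrt_nonneg _), abs_of_nonneg (Real.sqrt_nonneg _)]
    exact mul_le_mul_of_nonneg_right (Real.sqrt_le_sqrt (by linarith)) (abs_nonneg _)
  rw [e1, e2] at hA
  linarith [(abs_le.1 (hε k le_rfl)).2]

end Vale.Agent.P166N
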