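import Vale.Agent.P166N.Slope
import Vale.Agent.P166N.Spin

/-!
Parisi's functional at a regularisation is at least the closed form minus an error which is uniform in
the order parameter and vanishes with the regularisation.
-/

namespace Vale.Agent.P166N

open MeasureTheory ProbabilityTheory Filter
open Vale.Agent.P157
open scoped Topology

variable {c δ : ℝ}

lemma integral_sq_gauss : ∫ z, z ^ 2 ∂gaussianReal 0 1 = 1 := by
  have := variance_id_gaussianReal (μ := 0) (v := 1)
  rw [variance_eq_integral measurable_id.aemeasurable] at this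
  simpa using this

lemma integrable_sq_gauss : Integrable (fun z : ℝ => z ^ 2) (gaussianReal 0 1) :=
  (IsGaussian.memLp_id (gaussianReal 0 1) 2 (by simp)).integrable_sq

lemma abs_add_sq_le (y r z : ℝ) : (|y + r * z| + 1) ^ 2 ≤ 3 * (y ^ 2 + 1) + 3 * r ^ 2 * z ^ 2 := by
  refine (pow_le_pow_left₀ (by positivity) (add_le_add (abs_add_le _ _) le_rfl) 2).trans ?_
  nlinarith [sq_nonneg (|y| - |r * z|), sq_nonneg (|y| - 1), sq_nonneg (|r * z| - 1), sq_abs y,
    sq_abs (r * z), mul_pow r z 2]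

/-! ### The envelope -/

lemma integrable_hD_abs (hc : 0 < c) (hδ : 0 < δ) (hδ1 : δ < 1) (a : ℝ) :
    Integrable (fun z => hD c δ (a + |z|)) (gaussianReal 0 1) := by
  refine integrable_of_le_sq ((continuous_hD hc hδ).measurable.comp (by fun_prop)) (c * a ^ 2) c fun z => ?_
  rw [abs_of_nonneg (hD_nonneg hc hδ _)]
  refine (hD_le hc hδ hδ1 _).trans ?_
  nlinarith [mul_nonneg hc.le (sq_nonneg (a - |z|)), sq_abs z]

lemma envelope_le (hc : 0 < c) (hδ : 0 < δ) (hδ1 : δ < 1) (y : ℝ) :
    ∫ z, hD c δ (3 * |y| + 2 + |z|) ∂gaussianReal 0 1 ≤ 10 * c * (|y| + 1) ^ 2 := by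
  refine (integral_mono (integrable_hD_abs hc hδ hδ1 _)
    ((integrable_const (9 * c * (|y| + 1) ^ 2)).add (integrable_sq_gauss.const_mul c)) fun z => ?_).trans ?_
  · refine (hD_le hc hδ hδ1 _).trans ?_
    simp only [Pi.add_apply]
    have h2 := mul_le_mul_of_nonneg_left (pow_le_pow_left₀ (by positivity)
      (show 3 * |y| + 2 ≤ 3 * (|y| + 1) by linarith) 2) hc.le
    nlinarith [mul_nonneg hc.le (sq_nonneg (3 * |y| + 2 - |z|)), sq_abs z]
  · simp only [Pi.add_apply]
    rw [integral_add (integrable_const _) (integrable_sq_gauss.const_mul _), integral_const, probReal_univ,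
      one_smul, integral_const_mul, integral_sq_gauss]
    nlinarith [mul_le_mul_of_nonneg_left (one_le_pow₀ (show 1 ≤ |y| + 1 by linarith [abs_nonneg y]) (n := 2))
      hc.le]

lemma phiD_nonneg (c δ y : ℝ) : 0 ≤ phiD c δ y := by unfold phiD; positivity

lemma einc_phiD (hc : 0 < c) (hδ : 0 < δ) (hδ1 : δ < 1) : EInc (phiD c δ) := fun x y h =>
  mul_le_mul (by linarith) (Real.sqrt_le_sqrt (integral_mono (integrable_hD_abs hc hδ hδ1 _)
    (integrable_hD_abs hc hδ hδ1 _) fun z => einc_hD hc hδ _ _ (by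
      rw [abs_of_nonneg (by positivity : (0 : ℝ) ≤ 3 * |x| + 2 + |z|),
        abs_of_nonneg (by positivity : (0 : ℝ) ≤ 3 * |y| + 2 + |z|)]
      linarith)))
    (Real.sqrt_nonneg _) (by positivity)

lemma phiD_le (hc : 0 < c) (hδ : 0 < δ) (hδ1 : δ < 1) (y : ℝ) :
    phiD c δ y ≤ Real.sqrt (10 * c) * (|y| + 1) ^ 2 := by
  refine (mul_le_mul_of_nonneg_left (Real.sqrt_le_sqrt (envelope_le hc hδ hδ1 y)) (by positivity)).trans
    (le_of_eq ?_)
  rw [Real.sqrt_mul (by positivity), Real.sqrt_sq (by positivity)]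
  ring

lemma measurable_phiD (hc : 0 < c) (hδ : 0 < δ) : Measurable (phiD c δ) :=
  (by fun_prop : Measurable fun y : ℝ => |y| + 1).mul
    (((continuous_hD hc hδ).measurable.comp (f := fun p : ℝ × ℝ => 3 * |p.1| + 2 + |p.2|)
      (by fun_prop)).stronglyMeasurable.integral_prod_right' (ν := (gaussianReal 0 1))).measurable.sqrt

lemma integrable_phiD (hc : 0 < c) (hδ : 0 < δ) (hδ1 : δ < 1) (y r : ℝ) :
    Integrable (fun z => phiD c δ (y + r * z)) (gaussianReal 0 1) := by
  refine integrable_of_le_sq (measurable_shifted (measurable_phiD hc hδ) y r)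
    (3 * Real.sqrt (10 * c) * (y ^ 2 + 1)) (3 * Real.sqrt (10 * c) * r ^ 2) fun z => ?_
  rw [abs_of_nonneg (phiD_nonneg _ _ _)]
  refine (phiD_le hc hδ hδ1 _).trans ?_
  nlinarith [mul_le_mul_of_nonneg_left (abs_add_sq_le y r z) (Real.sqrt_nonneg (10 * c))]

/-- The envelope averaged over a Gaussian shift of variance `v`. -/
noncomputable def psiD (c δ v y : ℝ) : ℝ := ∫ z, phiD c δ (y + Real.sqrt v * z) ∂gaussianReal 0 1

lemma psiD_nonneg (c δ v y : ℝ) : 0 ≤ psiD c δ v y := integral_nonneg fun _ => phiD_nonneg _ _ _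

lemma measurable_psiD (hc : 0 < c) (hδ : 0 < δ) (v : ℝ) : Measurable (psiD c δ v) :=
  (((measurable_phiD hc hδ).comp (f := fun p : ℝ × ℝ => p.1 + Real.sqrt v * p.2)
    (by fun_prop)).stronglyMeasurable.integral_prod_right' (ν := (gaussianReal 0 1))).measurable

lemma einc_psiD (hc : 0 < c) (hδ : 0 < δ) (hδ1 : δ < 1) (v : ℝ) : EInc (psiD c δ v) :=
  (einc_phiD hc hδ hδ1).shift v fun y => integrable_phiD hc hδ hδ1 y _

lemma psiD_le (hc : 0 < c) (hδ : 0 < δ) (hδ1 : δ < 1) {v : ℝ} (hv : 0 ≤ v) (y : ℝ) :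
    psiD c δ v y ≤ 3 * Real.sqrt (10 * c) * (y ^ 2 + 1 + v) := by
  refine (integral_mono (integrable_phiD hc hδ hδ1 y _)
    ((integrable_const (3 * Real.sqrt (10 * c) * (y ^ 2 + 1))).add
      (integrable_sq_gauss.const_mul (3 * Real.sqrt (10 * c) * v))) fun z => ?_).trans ?_
  · refine (phiD_le hc hδ hδ1 _).trans ?_
    simp only [Pi.add_apply]
    have := mul_le_mul_of_nonneg_left (abs_add_sq_le y (Real.sqrt v) z) (Real.sqrt_nonneg (10 * c))
    rw [Real.sq_sqrt hv] at this
    linarith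
  · simp only [Pi.add_apply]
    rw [integral_add (integrable_const _) (integrable_sq_gauss.const_mul _), integral_const, probReal_univ,
      one_smul, integral_const_mul, integral_sq_gauss]
    linarith

lemma integrable_psiD (hc : 0 < c) (hδ : 0 < δ) (hδ1 : δ < 1) {v : ℝ} (hv : 0 ≤ v) (y r : ℝ) :
    Integrable (fun z => psiD c δ v (y + r * z)) (gaussianReal 0 1) := by
  refine integrable_of_le_sq (measurable_shifted (measurable_psiD hc hδ v) y r)
    (3 * Real.sqrt (10 * c) * (2 * y ^ 2 + 1 + v)) (6 * Real.sqrt (10 * c) * r ^ 2) fun z => ?_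
  rw [abs_of_nonneg (psiD_nonneg _ _ _ _)]
  refine (psiD_le hc hδ hδ1 hv _).trans ?_
  nlinarith [mul_nonneg (Real.sqrt_nonneg (10 * c)) (sq_nonneg (y - r * z))]

/-- Shifts add their variances. -/
lemma psiD_add (hc : 0 < c) (hδ : 0 < δ) (hδ1 : δ < 1) {v d : ℝ} (hv : 0 ≤ v) (hd : 0 ≤ d) (y : ℝ) :
    ∫ z, psiD c δ v (y + Real.sqrt d * z) ∂gaussianReal 0 1 = psiD c δ (d + v) y := by
  have h := (Low.gauss_merge (H := fun u => phiD c δ (y + u)) ((measurable_phiD hc hδ).comp (by fun_prop))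
    (show Real.sqrt d ^ 2 + Real.sqrt v ^ 2 = Real.sqrt (d + v) ^ 2 by
      rw [Real.sq_sqrt hd, Real.sq_sqrt hv, Real.sq_sqrt (add_nonneg hd hv)])
    (integrable_phiD hc hδ hδ1 y _)).2
  simpa only [psiD, add_assoc] using h

/-- One of two opposite shifts does not decrease the absolute value. -/
lemma phiD_le_psiD (hc : 0 < c) (hδ : 0 < δ) (hδ1 : δ < 1) (v y : ℝ) :
    phiD c δ y ≤ 2 * psiD c δ v y := by
  set r := Real.sqrt v
  have i1 := integrable_phiD hc hδ hδ1 y r
  have i2 : Integrable (fun z => phiD c δ (y + r * -z)) (gaussianReal 0 1) := by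
    simpa [mul_neg, neg_mul] using integrable_phiD hc hδ hδ1 y (-r)
  have e : ∫ z, phiD c δ (y + r * -z) ∂gaussianReal 0 1 = psiD c δ v y :=
    integral_gauss_neg fun z => phiD c δ (y + r * z)
  have h : ∫ _z, phiD c δ y ∂gaussianReal 0 1 ≤ ∫ z, (phiD c δ (y + r * z) + phiD c δ (y + r * -z)) ∂gaussianReal 0 1 := by
    refine integral_mono (integrable_const _) (i1.add i2) fun z => ?_
    show phiD c δ y ≤ phiD c δ (y + r * z) + phiD c δ (y + r * -z)
    have h2 : |y| ≤ |y + r * z| ∨ |y| ≤ |y + r * -z| := by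
      by_contra hh
      push Not at hh
      have h3 := abs_add_le (y + r * z) (y + r * -z)
      rw [show y + r * z + (y + r * -z) = 2 * y by ring, abs_mul, abs_two] at h3
      linarith
    rcases h2 with h2 | h2
    · linarith [einc_phiD hc hδ hδ1 _ _ h2, phiD_nonneg c δ (y + r * -z)]
    · linarith [einc_phiD hc hδ hδ1 _ _ h2, phiD_nonneg c δ (y + r * z)]
  rw [integral_add i1 i2, e] at h
  simp only [integral_const, probReal_univ, one_smul] at h
  simp only [psiD, r] at h ⊢
  linarith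

/-- The mean envelope vanishes with the regularisation. -/
theorem tendsto_phiD (hc : 0 < c) :
    Tendsto (fun δ => ∫ z, phiD c δ z ∂gaussianReal 0 1) (𝓝[>] 0) (𝓝 0) := by
  have hS : ∀ y, Tendsto (fun δ => ∫ z, hD c δ (3 * |y| + 2 + |z|) ∂gaussianReal 0 1) (𝓝[>] 0) (𝓝 0) := fun y => by
    have h := tendsto_integral_filter_of_dominated_convergence (μ := (gaussianReal 0 1)) (l := 𝓝[>] (0 : ℝ))
      (F := fun δ z => hD c δ (3 * |y| + 2 + |z|)) (f := fun _ => (0 : ℝ))
      (fun z => c * (3 * |y| + 2) ^ 2 + c * z ^ 2)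
      (eventually_mem_nhdsWithin.mono fun δ hδ =>
        ((continuous_hD hc hδ).comp (by fun_prop)).aestronglyMeasurable)
      ?_ ((integrable_const _).add (integrable_sq_gauss.const_mul c))
      (Eventually.of_forall fun z => (tendsto_hD _).mono_left nhdsWithin_le_nhds)
    · simpa using h
    · filter_upwards [Ioo_mem_nhdsGT (one_pos : (0 : ℝ) < 1)] with δ hδ
      refine Eventually.of_forall fun z => ?_
      rw [Real.norm_eq_abs, abs_of_nonneg (hD_nonneg hc hδ.1 _)]
      refine (hD_le hc hδ.1 hδ.2 _).trans ?_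
      nlinarith [mul_nonneg hc.le (sq_nonneg (3 * |y| + 2 - |z|)), sq_abs z]
  have h := tendsto_integral_filter_of_dominated_convergence (μ := (gaussianReal 0 1)) (l := 𝓝[>] (0 : ℝ))
    (F := fun δ z => phiD c δ z) (f := fun _ => (0 : ℝ))
    (fun z => 3 * Real.sqrt (10 * c) + 3 * Real.sqrt (10 * c) * z ^ 2)
    (eventually_mem_nhdsWithin.mono fun δ hδ => (measurable_phiD hc hδ).aestronglyMeasurable)
    ?_ ((integrable_const _).add (integrable_sq_gauss.const_mul _))
    (Eventually.of_forall fun z => by simpa [phiD] using ((hS z).sqrt).const_mul (|z| + 1))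
  · simpa using h
  · filter_upwards [Ioo_mem_nhdsGT (one_pos : (0 : ℝ) < 1)] with δ hδ
    refine Eventually.of_forall fun z => ?_
    rw [Real.norm_eq_abs, abs_of_nonneg (phiD_nonneg _ _ _)]
    refine (phiD_le hc hδ.1 hδ.2 _).trans ?_
    have := mul_le_mul_of_nonneg_left (abs_add_sq_le 0 1 z) (Real.sqrt_nonneg (10 * c))
    simp only [zero_add, one_mul] at this
    linarith

/-! ### Slopes against the quadratic ones -/

/-- The slope is within the envelope of the quadratic one. -/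
lemma slope_err (hc : 0 < c) (hδ : 0 < δ) (hδ1 : δ < 1) {ls : List (ℝ × ℝ)} (hl : Lv ls) {s : ℝ}
    (hs : 0 < s) (hs1 : s + (ls.map Prod.snd).sum ≤ 1) (y : ℝ) :
    |y * (rsbSlope (fD c δ) ls s y + negA c ls s * y)| ≤ Real.sqrt (2 * c) * phiD c δ y ∧
      (rsbSlope (fD c δ) ls s y + negA c ls s * y) ^ 2 ≤ 2 * c * Real.sqrt (2 * c) * phiD c δ y := by
  obtain ⟨-, -, -, hlo, hhi⟩ := pot_props hc hδ hδ1 hl hs.le
  have hS := slopeOK_all hc hδ hδ1 hl hs hs1
  obtain ⟨ha, hac⟩ := negA_bounds hc hl hs.le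
  set a := negA c ls s
  set v := s + (ls.map Prod.snd).sum
  set e := rsbSlope (fD c δ) ls s y + a * y with he
  set h := e / c with hh
  have hv0 : 0 ≤ v := add_nonneg hs.le (sum_d_nonneg hl)
  have hDb : |rsbSlope (fD c δ) ls s y| ≤ c * (|y| + 1) :=
    (hS.grow y).trans (mul_le_mul_of_nonneg_left (absBar_le hs1 y) hc.le)
  have hay : |a * y| ≤ c * |y| := by
    rw [abs_mul, abs_of_pos ha]; exact mul_le_mul_of_nonneg_right hac (abs_nonneg y)
  have heb : |e| ≤ c * (2 * |y| + 1) := (abs_add_le _ _).trans (by linarith)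
  have hhb : |h| ≤ 2 * |y| + 1 := by
    rw [hh, abs_div, abs_of_pos hc, div_le_iff₀ hc]; linarith
  set S := ∫ z, hD c δ (3 * |y| + 2 + |z|) ∂gaussianReal 0 1
  have hB : hBar c δ v (y + h) ≤ S := by
    refine integral_mono (integrable_hD hc hδ hδ1 _ _) (integrable_hD_abs hc hδ hδ1 _) fun z =>
      einc_hD hc hδ _ _ ?_
    have hr : Real.sqrt v ≤ 1 := Real.sqrt_le_one.2 hs1
    have h4 : |Real.sqrt v * z| ≤ |z| := by
      rw [abs_mul, abs_of_nonneg (Real.sqrt_nonneg v)]
      exact mul_le_of_le_one_left (abs_nonneg z) hr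
    rw [abs_of_nonneg (by positivity : (0 : ℝ) ≤ 3 * |y| + 2 + |z|)]
    linarith [abs_add_le (y + h) (Real.sqrt v * z), abs_add_le y h]
  have hsq : e ^ 2 ≤ 2 * c * S := by
    have h1 := hS.lower y h
    have h2 := hhi (y + h)
    have h3 := hlo y
    simp only [qPot] at h2 h3
    have e1 : e * h - c * h ^ 2 / 2 = e ^ 2 / (2 * c) := by rw [hh]; field_simp; ring
    have e2 : rsbSlope (fD c δ) ls s y = e - a * y := by rw [he]; ring
    rw [e2] at h1
    have h4 : e ^ 2 / (2 * c) ≤ hBar c δ v (y + h) := by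
      rw [← e1]
      nlinarith [mul_nonneg ha.le (sq_nonneg h)]
    rw [← div_le_iff₀' (by positivity)]
    exact h4.trans hB
  have hab : |e| ≤ Real.sqrt (2 * c) * Real.sqrt S := by
    rw [← Real.sqrt_mul (by positivity), ← Real.sqrt_sq_eq_abs]
    exact Real.sqrt_le_sqrt hsq
  constructor
  · rw [abs_mul]
    refine (mul_le_mul (le_add_of_nonneg_right zero_le_one) hab (abs_nonneg _) (by positivity)).trans
      (le_of_eq ?_)
    simp only [phiD, S]
    ring
  · rw [← sq_abs e, sq]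
    refine (mul_le_mul (heb.trans (by linarith [mul_nonneg hc.le zero_le_one]) :
      |e| ≤ 2 * c * (|y| + 1)) hab (abs_nonneg _) (by positivity)).trans (le_of_eq ?_)
    simp only [phiD, S]
    ring

/-- The squared slope tilted by one level: Stein's identity. -/
lemma second_moment (hc : 0 < c) {B v : ℝ} {φ D : ℝ → ℝ} (h : SlopeOK c B v φ D) (m : ℝ) {d : ℝ}
    (hd : 0 ≤ d) (y : ℝ) :
    ∫ z, Real.exp (m * φ (y + Real.sqrt d * z)) * (y + Real.sqrt d * z) ^ 2 ∂gaussianReal 0 1 =
      (y ^ 2 + d) * (∫ z, Real.exp (m * φ (y + Real.sqrt d * z)) ∂gaussianReal 0 1) +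
        m * d * (y * (∫ z, Real.exp (m * φ (y + Real.sqrt d * z)) * D (y + Real.sqrt d * z) ∂gaussianReal 0 1) +
          ∫ z, Real.exp (m * φ (y + Real.sqrt d * z)) *
            ((y + Real.sqrt d * z) * D (y + Real.sqrt d * z)) ∂gaussianReal 0 1) := by
  obtain ⟨K, hK⟩ := h.bddD
  set r := Real.sqrt d
  have hr : r ^ 2 = d := Real.sq_sqrt hd
  have hm := measurable_shifted h.meas y r
  have hiD : Integrable (fun z => D (y + r * z)) (gaussianReal 0 1) :=
    Integrable.of_bound (measurable_shifted h.measD y r).aestronglyMeasurable K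
      (Eventually.of_forall fun z => (Real.norm_eq_abs _).trans_le (hK _))
  have hiDz : Integrable (fun z => z * D (y + r * z)) (gaussianReal 0 1) := by
    refine integrable_of_le_sq (measurable_id.mul (measurable_shifted h.measD y r)) |K| |K| fun z => ?_
    rw [abs_mul]
    refine (mul_le_mul_of_nonneg_left ((hK _).trans (le_abs_self K)) (abs_nonneg z)).trans ?_
    nlinarith [mul_nonneg (abs_nonneg K) (sq_nonneg (|z| - 1)), sq_abs z, mul_nonneg (abs_nonneg K) (abs_nonneg z)]
  have wi := fun {F : ℝ → ℝ} (hF : Integrable F (gaussianReal 0 1)) =>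
    integrable_weight_mul hm (fun z => h.bdd _) m hF
  have i0 : Integrable (fun z => Real.exp (m * φ (y + r * z))) (gaussianReal 0 1) := (wgt_bdd hm (fun z => h.bdd _) m).int
  have i1 : Integrable (fun z => Real.exp (m * φ (y + r * z)) * z) (gaussianReal 0 1) := wi IsGaussian.integrable_id
  have i2 : Integrable (fun z => Real.exp (m * φ (y + r * z)) * (z * z)) (gaussianReal 0 1) :=
    wi (integrable_sq_gauss.congr (Eventually.of_forall fun z => sq z))
  have i3 := wi hiD
  have i4 := wi hiDz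
  have hw : ∀ z, HasDerivAt (fun z => Real.exp (m * φ (y + r * z)))
      (m * r * (Real.exp (m * φ (y + r * z)) * D (y + r * z))) z := fun z => by
    have h1 : HasDerivAt (fun z => y + r * z) r z := by
      simpa using ((hasDerivAt_id z).const_mul r).const_add y
    exact (((h.hasDerivAt hc _).comp z h1).const_mul m).exp.congr_deriv
      (by simp only [Function.comp_apply]; ring)
  have s1 := Low.stein_real hw i0 (i3.const_mul _) i1
  rw [integral_const_mul] at s1
  have hw2 : ∀ z, HasDerivAt (fun z => Real.exp (m * φ (y + r * z)) * z)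
      (Real.exp (m * φ (y + r * z)) + m * r * (Real.exp (m * φ (y + r * z)) * (z * D (y + r * z)))) z :=
    fun z => ((hw z).mul (hasDerivAt_id' z)).congr_deriv (by ring)
  have s2 := Low.stein_real hw2 i1 (i0.add (i4.const_mul _)) (by simpa [mul_assoc] using i2)
  rw [integral_add i0 (i4.const_mul _), integral_const_mul] at s2
  simp only [mul_assoc (Real.exp _)] at s2
  have ea : ∫ z, Real.exp (m * φ (y + r * z)) * (y + r * z) ^ 2 ∂gaussianReal 0 1 =
      y ^ 2 * (∫ z, Real.exp (m * φ (y + r * z)) ∂gaussianReal 0 1) +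
        2 * y * r * (∫ z, Real.exp (m * φ (y + r * z)) * z ∂gaussianReal 0 1) +
        d * ∫ z, Real.exp (m * φ (y + r * z)) * (z * z) ∂gaussianReal 0 1 := by
    rw [← integral_const_mul, ← integral_const_mul, ← integral_const_mul,
      ← integral_add (i0.const_mul _) (i1.const_mul _),
      ← integral_add ((i0.const_mul _).fun_add (i1.const_mul _)) (i2.const_mul _)]
    refine integral_congr_ae (Eventually.of_forall fun z => ?_)
    simp only [← hr]
    ring
  have eb : ∫ z, Real.exp (m * φ (y + r * z)) * ((y + r * z) * D (y + r * z)) ∂gaussianReal 0 1 =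
      y * (∫ z, Real.exp (m * φ (y + r * z)) * D (y + r * z) ∂gaussianReal 0 1) +
        r * ∫ z, Real.exp (m * φ (y + r * z)) * (z * D (y + r * z)) ∂gaussianReal 0 1 := by
    rw [← integral_const_mul, ← integral_const_mul, ← integral_add (i3.const_mul _) (i4.const_mul _)]
    exact integral_congr_ae (Eventually.of_forall fun z => by ring)
  rw [ea, eb, s1, s2, ← hr]
  ring

lemma negInc_succ (c : ℝ) (hc : 0 < c) : ∀ {ls : List (ℝ × ℝ)}, Lv ls → ∀ {s : ℝ}, 0 ≤ s →
    ∀ {j : ℕ}, j < ls.length → negInc c ls s j ≤ negInc c ls s (j + 1)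
  | [], _, _, _, _, hj => absurd hj (Nat.not_lt_zero _)
  | (m, d) :: ls, hl, s, hs, 0, _ => by
    have h1 := (negA_bounds hc hl hs).1
    have h2 := (negA_bounds hc hl.tail hs).1
    have h3 := hl.head.2.2
    simp only [negInc]
    rcases ls with _ | ⟨p, ls⟩ <;> simp only [add_zero] <;> positivity
  | (m, d) :: ls, hl, s, hs, j + 1, hj => by
    have := negInc_succ c hc hl.tail hs (by simpa using hj : j < ls.length)
    simp only [negInc]
    linarith

lemma measurable_rsbSq (hc : 0 < c) (hδ : 0 < δ) (hδ1 : δ < 1) : ∀ {ls : List (ℝ × ℝ)}, Lv ls →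
    ∀ {s : ℝ}, 0 < s → s + (ls.map Prod.snd).sum ≤ 1 → ∀ j, Measurable (rsbSq (fD c δ) ls s j)
  | ls, hl, s, hs, hs1, 0 => by
    have e : rsbSq (fD c δ) ls s 0 = fun y => rsbSlope (fD c δ) ls s y ^ 2 := by
      cases ls <;> rfl
    rw [e]
    exact (slopeOK_all hc hδ hδ1 hl hs hs1).measD.pow_const 2
  | [], _, _, _, _, _ + 1 => measurable_const
  | (m, d) :: ls, hl, s, hs, hs1, j + 1 => by
    simp only [List.map_cons, List.sum_cons] at hs1
    have h2 : s + (ls.map Prod.snd).sum ≤ 1 := by linarith [hl.head.2.2]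
    have hp : Measurable fun p : ℝ × ℝ => rsbPot (fD c δ) ls s (p.1 + Real.sqrt d * p.2) :=
      (slopeOK_all hc hδ hδ1 hl.tail hs h2).meas.comp (by fun_prop)
    have hq : Measurable fun p : ℝ × ℝ => rsbSq (fD c δ) ls s j (p.1 + Real.sqrt d * p.2) :=
      (measurable_rsbSq hc hδ hδ1 hl.tail hs h2 j).comp (by fun_prop)
    show Measurable fun y => _ / _
    exact ((hp.const_mul m).exp.mul hq).stronglyMeasurable.integral_prod_right'.measurable.div
      (hp.const_mul m).exp.stronglyMeasurable.integral_prod_right'.measurable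

/-- Total of exponent times increment. -/
def sumMD (ls : List (ℝ × ℝ)) : ℝ := (ls.map fun p => p.1 * p.2).sum

lemma sumMD_bounds : ∀ {ls : List (ℝ × ℝ)}, Lv ls → 0 ≤ sumMD ls ∧ sumMD ls ≤ (ls.map Prod.snd).sum
  | [], _ => by simp [sumMD]
  | (m, d) :: ls, h => by
    obtain ⟨h1, h2⟩ := sumMD_bounds h.tail
    obtain ⟨hm, hm1, hd⟩ := h.head
    simp only [sumMD, List.map_cons, List.sum_cons] at h1 h2 ⊢
    constructor <;> nlinarith

/-- The constant of the comparison of the squared slopes. -/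
noncomputable def sqConst (c : ℝ) : ℝ := (8 * c + 4 * c ^ 2) * Real.sqrt (2 * c)

/-- One level keeps the comparison of the squared slopes. -/
lemma sq_step (hc : 0 < c) (hδ : 0 < δ) (hδ1 : δ < 1) {m d : ℝ} {ls : List (ℝ × ℝ)}
    (hl : Lv ((m, d) :: ls)) {s : ℝ} (hs : 0 < s) (hs1 : s + (((m, d) :: ls).map Prod.snd).sum ≤ 1) (j : ℕ)
    (ih : ∀ y, |rsbSq (fD c δ) ls s j y - (negA c ls s ^ 2 * y ^ 2 + negInc c ls s j)| ≤
      sqConst c * (1 + sumMD ls) * psiD c δ (ls.map Prod.snd).sum y) (y : ℝ) :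
    |rsbSq (fD c δ) ((m, d) :: ls) s (j + 1) y -
        (negA c ((m, d) :: ls) s ^ 2 * y ^ 2 + negInc c ((m, d) :: ls) s (j + 1))| ≤
      sqConst c * (1 + sumMD ((m, d) :: ls)) * psiD c δ (((m, d) :: ls).map Prod.snd).sum y := by
  obtain ⟨hm, hm1, hd⟩ := hl.head
  simp only [List.map_cons, List.sum_cons] at hs1 ⊢
  have hd0 := sum_d_nonneg hl.tail
  have hs2 : s + (ls.map Prod.snd).sum ≤ 1 := by linarith
  obtain ⟨ha, hac⟩ := negA_bounds hc hl.tail hs.le
  have hS := slopeOK_all hc hδ hδ1 hl.tail hs hs2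
  have hSm := second_moment hc hS m hd y
  obtain ⟨KD, hKD⟩ := hS.bddD
  set v := (ls.map Prod.snd).sum
  set φ := rsbPot (fD c δ) ls s with hφ
  set D := rsbSlope (fD c δ) ls s with hD
  set a := negA c ls s with hadef
  set i := negInc c ls s j with hidef
  set r := Real.sqrt d with hrdef
  set C := sqConst c * (1 + sumMD ls) with hC
  have hC0 : 0 ≤ C := by
    rw [hC, sqConst]; have := (sumMD_bounds hl.tail).1; positivity
  set D0 := rsbSlope (fD c δ) ((m, d) :: ls) s y with hD0
  have hmy := measurable_shifted hS.meas y r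
  have hX := wgt_bdd hmy (fun z => hS.bdd _) m
  have wi := fun {F : ℝ → ℝ} (hF : Integrable F (gaussianReal 0 1)) =>
    integrable_weight_mul hmy (fun z => hS.bdd _) m hF
  set I := ∫ z, Real.exp (m * φ (y + r * z)) ∂gaussianReal 0 1 with hI
  have hI0 : 0 < I := hX.pos
  have hmain : ∀ {F : ℝ → ℝ} {G : ℝ → ℝ}, EInc G → Integrable (fun z => F (y + r * z)) (gaussianReal 0 1) →
      Integrable (fun z => G (y + r * z)) (gaussianReal 0 1) → (∀ x, |F x| ≤ G x) →
      |∫ z, Real.exp (m * φ (y + r * z)) * F (y + r * z) ∂gaussianReal 0 1| ≤ I * ∫ z, G (y + r * z) ∂gaussianReal 0 1 := by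
    intro F G hG hF hGi hle
    refine abs_integral_le_integral_abs.trans
      (le_trans (integral_mono (wi hF).abs (wi hGi) fun z => ?_) ?_)
    · rw [abs_mul, Real.abs_exp]
      exact mul_le_mul_of_nonneg_left (hle _) (Real.exp_pos _).le
    · exact cheb (hS.edec.exp_mul hm.le) hG (fun z => y + r * z) hX.int hGi (wi hGi)
  have isq : Integrable (fun z => (y + r * z) ^ 2) (gaussianReal 0 1) :=
    integrable_of_le_sq (by fun_prop) (2 * y ^ 2) (2 * r ^ 2) fun z => by
      rw [abs_of_nonneg (sq_nonneg _)]; nlinarith [sq_nonneg (y - r * z)]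
  have iT : Integrable (fun z => a ^ 2 * (y + r * z) ^ 2 + i) (gaussianReal 0 1) :=
    (isq.const_mul _).add (integrable_const _)
  have iψ := integrable_psiD hc hδ hδ1 hd0 y r
  have idiff : Integrable (fun z => rsbSq (fD c δ) ls s j (y + r * z) -
      (a ^ 2 * (y + r * z) ^ 2 + i)) (gaussianReal 0 1) :=
    (iψ.const_mul C).mono' ((measurable_shifted (measurable_rsbSq hc hδ hδ1 hl.tail hs hs2 j) y r).sub
      (by fun_prop)).aestronglyMeasurable (Eventually.of_forall fun z => (Real.norm_eq_abs _).trans_le (ih _))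
  -- the inner comparison
  have hA : |∫ z, Real.exp (m * φ (y + r * z)) *
      (rsbSq (fD c δ) ls s j (y + r * z) - (a ^ 2 * (y + r * z) ^ 2 + i)) ∂gaussianReal 0 1| ≤
      I * (C * psiD c δ (d + v) y) := by
    refine (hmain (F := fun x => rsbSq (fD c δ) ls s j x - (a ^ 2 * x ^ 2 + i))
      (G := fun x => C * psiD c δ v x)
      (fun x x' hx => mul_le_mul_of_nonneg_left (einc_psiD hc hδ hδ1 v x x' hx) hC0) idiff
      (iψ.const_mul C) ih).trans_eq ?_
    rw [integral_const_mul, psiD_add hc hδ hδ1 hd0 hd]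
  -- the second moment
  have hDe : ∀ x, |x * (D x + a * x)| ≤ Real.sqrt (2 * c) * phiD c δ x := fun x =>
    (slope_err hc hδ hδ1 hl.tail hs hs2 x).1
  have ixe : Integrable (fun z => (y + r * z) * (D (y + r * z) + a * (y + r * z))) (gaussianReal 0 1) :=
    ((integrable_phiD hc hδ hδ1 y r).const_mul _).mono'
      ((measurable_const_add y).comp (measurable_const_mul r) |>.mul
        ((measurable_shifted hS.measD y r).add (by fun_prop))).aestronglyMeasurable
      (Eventually.of_forall fun z => (Real.norm_eq_abs _).trans_le (hDe _))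
  have hB : |∫ z, Real.exp (m * φ (y + r * z)) * ((y + r * z) * (D (y + r * z) + a * (y + r * z))) ∂gaussianReal 0 1| ≤
      I * (Real.sqrt (2 * c) * (2 * psiD c δ (d + v) y)) := by
    refine (hmain (F := fun x => x * (D x + a * x)) (G := fun x => Real.sqrt (2 * c) * phiD c δ x)
      (fun x x' hx => mul_le_mul_of_nonneg_left (einc_phiD hc hδ hδ1 x x' hx) (Real.sqrt_nonneg _)) ixe
      ((integrable_phiD hc hδ hδ1 y r).const_mul _) hDe).trans ?_
    refine mul_le_mul_of_nonneg_left ?_ hI0.le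
    rw [integral_const_mul]
    refine mul_le_mul_of_nonneg_left ?_ (Real.sqrt_nonneg _)
    rw [← psiD_add hc hδ hδ1 hd0 hd y, ← integral_const_mul]
    exact integral_mono (integrable_phiD hc hδ hδ1 y r) (iψ.const_mul 2) fun z =>
      phiD_le_psiD hc hδ hδ1 v _
  have hE : |y * (D0 + negA c ((m, d) :: ls) s * y)| ≤ Real.sqrt (2 * c) * (2 * psiD c δ (d + v) y) :=
    (slope_err hc hδ hδ1 hl hs (by simpa using hs1) y).1.trans
      (mul_le_mul_of_nonneg_left (phiD_le_psiD hc hδ hδ1 _ y) (Real.sqrt_nonneg _))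
  have eD0 : ∫ z, Real.exp (m * φ (y + r * z)) * D (y + r * z) ∂gaussianReal 0 1 = D0 * I := by
    rw [hD0, show rsbSlope (fD c δ) ((m, d) :: ls) s y =
      (∫ z, Real.exp (m * φ (y + r * z)) * D (y + r * z) ∂gaussianReal 0 1) / I from rfl, div_mul_cancel₀ _ hI0.ne']
  set E1 := ∫ z, Real.exp (m * φ (y + r * z)) * ((y + r * z) * (D (y + r * z) + a * (y + r * z))) ∂gaussianReal 0 1 with hE1
  set V := ∫ z, Real.exp (m * φ (y + r * z)) * (y + r * z) ^ 2 ∂gaussianReal 0 1 with hV
  have iD : Integrable (fun z => (y + r * z) * D (y + r * z)) (gaussianReal 0 1) := by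
    have := ixe.sub (isq.const_mul a)
    refine this.congr (Eventually.of_forall fun z => ?_)
    show (y + r * z) * (D (y + r * z) + a * (y + r * z)) - a * (y + r * z) ^ 2 = _
    ring
  have eXD : ∫ z, Real.exp (m * φ (y + r * z)) * ((y + r * z) * D (y + r * z)) ∂gaussianReal 0 1 = E1 - a * V := by
    rw [hE1, hV, ← integral_const_mul, ← integral_sub (wi ixe) ((wi isq).const_mul a)]
    exact integral_congr_ae (Eventually.of_forall fun z => by ring)
  rw [eD0, eXD] at hSm
  have hq : rsbSq (fD c δ) ((m, d) :: ls) s (j + 1) y =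
      (∫ z, Real.exp (m * φ (y + r * z)) * rsbSq (fD c δ) ls s j (y + r * z) ∂gaussianReal 0 1) / I := rfl
  have esplit : ∫ z, Real.exp (m * φ (y + r * z)) * rsbSq (fD c δ) ls s j (y + r * z) ∂gaussianReal 0 1 =
      (∫ z, Real.exp (m * φ (y + r * z)) *
        (rsbSq (fD c δ) ls s j (y + r * z) - (a ^ 2 * (y + r * z) ^ 2 + i)) ∂gaussianReal 0 1) + (a ^ 2 * V + i * I) := by
    rw [hV, hI, ← integral_const_mul, ← integral_const_mul,
      ← integral_add ((wi isq).const_mul _) (hX.int.const_mul _),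
      ← integral_add (wi idiff) (((wi isq).const_mul _).fun_add (hX.int.const_mul _))]
    exact integral_congr_ae (Eventually.of_forall fun z => by ring)
  rw [hq, esplit, show negInc c ((m, d) :: ls) s (j + 1) =
    negA c ((m, d) :: ls) s * a * d + i from rfl]
  have hw : (0 : ℝ) < 1 + m * d * a := by positivity
  have hA0 : negA c ((m, d) :: ls) s = a / (1 + m * d * a) := rfl
  rw [hA0] at hE ⊢
  set P := ∫ z, Real.exp (m * φ (y + r * z)) *
    (rsbSq (fD c δ) ls s j (y + r * z) - (a ^ 2 * (y + r * z) ^ 2 + i)) ∂gaussianReal 0 1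
  set u := y * (D0 + a / (1 + m * d * a) * y) with hu
  have key : (P + (a ^ 2 * V + i * I)) / I -
      ((a / (1 + m * d * a)) ^ 2 * y ^ 2 + (a / (1 + m * d * a) * a * d + i)) =
      P / I + a ^ 2 * (m * d) / (1 + m * d * a) * (u + E1 / I) := by
    have hV2 : V * (1 + m * d * a) = (y ^ 2 + d) * I + m * d * (y * (D0 * I) + E1) := by
      linear_combination hSm
    have hV3 : V = ((y ^ 2 + d) * I + m * d * (y * (D0 * I) + E1)) / (1 + m * d * a) :=
      (eq_div_iff hw.ne').2 hV2
    rw [hV3, hu]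
    field_simp
    ring
  rw [key]
  have hk : 0 ≤ a ^ 2 * (m * d) / (1 + m * d * a) := by positivity
  have hk2 : a ^ 2 * (m * d) / (1 + m * d * a) ≤ c ^ 2 * (m * d) :=
    (div_le_self (by positivity) (le_add_of_nonneg_right (by positivity))).trans
      (mul_le_mul_of_nonneg_right (pow_le_pow_left₀ ha.le hac 2) (by positivity))
  have h1 : |P / I| ≤ C * psiD c δ (d + v) y := by
    rw [abs_div, abs_of_pos hI0, div_le_iff₀ hI0]; linarith
  have h2 : |u + E1 / I| ≤ 4 * Real.sqrt (2 * c) * psiD c δ (d + v) y := by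
    refine (abs_add_le _ _).trans ?_
    rw [abs_div, abs_of_pos hI0]
    have : |E1| / I ≤ Real.sqrt (2 * c) * (2 * psiD c δ (d + v) y) := by
      rw [div_le_iff₀ hI0]; linarith
    linarith
  refine (abs_add_le _ _).trans ?_
  rw [abs_mul, abs_of_nonneg hk]
  refine (add_le_add h1 (mul_le_mul hk2 h2 (abs_nonneg _) (by positivity))).trans ?_
  have h3 : 0 ≤ psiD c δ (d + v) y := psiD_nonneg _ _ _ _
  simp only [hC, sqConst, sumMD, List.map_cons, List.sum_cons]
  linarith [mul_nonneg (mul_nonneg (mul_nonneg hc.le (Real.sqrt_nonneg (2 * c))) (mul_nonneg hm.le hd)) h3]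

/-- The tilted squared slopes against the quadratic ones. -/
theorem sq_close (hc : 0 < c) (hδ : 0 < δ) (hδ1 : δ < 1) : ∀ {ls : List (ℝ × ℝ)}, Lv ls → ∀ {s : ℝ},
    0 < s → s + (ls.map Prod.snd).sum ≤ 1 → ∀ j ≤ ls.length, ∀ y,
      |rsbSq (fD c δ) ls s j y - (negA c ls s ^ 2 * y ^ 2 + negInc c ls s j)| ≤
        sqConst c * (1 + sumMD ls) * psiD c δ (ls.map Prod.snd).sum y
  | ls, hl, s, hs, hs1, 0, _, y => by
    obtain ⟨h1, h2⟩ := slope_err hc hδ hδ1 hl hs hs1 y
    obtain ⟨ha, hac⟩ := negA_bounds hc hl hs.le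
    have e : rsbSq (fD c δ) ls s 0 y = rsbSlope (fD c δ) ls s y ^ 2 := by cases ls <;> rfl
    have e0 : negInc c ls s 0 = 0 := by cases ls <;> rfl
    set D := rsbSlope (fD c δ) ls s y
    set a := negA c ls s
    rw [e, e0, add_zero]
    have h3 : |D ^ 2 - a ^ 2 * y ^ 2| ≤ (D + a * y) ^ 2 + 2 * a * |y * (D + a * y)| := by
      rw [show D ^ 2 - a ^ 2 * y ^ 2 = (D + a * y) ^ 2 - 2 * a * (y * (D + a * y)) by ring]
      refine (abs_sub _ _).trans (le_of_eq ?_)
      rw [abs_of_nonneg (sq_nonneg _), abs_mul, abs_of_nonneg (by positivity : (0 : ℝ) ≤ 2 * a)]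
    have h4 := mul_le_mul (mul_le_mul_of_nonneg_left hac (by norm_num : (0 : ℝ) ≤ 2)) h1 (abs_nonneg _)
      (by positivity)
    have h5 : 4 * c * Real.sqrt (2 * c) * phiD c δ y ≤
        8 * c * Real.sqrt (2 * c) * psiD c δ (ls.map Prod.snd).sum y := by
      have := mul_le_mul_of_nonneg_left (phiD_le_psiD hc hδ hδ1 (ls.map Prod.snd).sum y)
        (by positivity : (0 : ℝ) ≤ 4 * c * Real.sqrt (2 * c))
      linarith
    refine h3.trans ((add_le_add h2 h4).trans ?_)
    refine le_trans (le_of_eq (by ring)) (h5.trans ?_)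
    have h6 : 8 * c * Real.sqrt (2 * c) ≤ sqConst c * (1 + sumMD ls) := by
      have := (sumMD_bounds hl).1
      rw [sqConst]
      nlinarith [mul_nonneg (mul_nonneg (sq_nonneg c) (Real.sqrt_nonneg (2 * c))) this,
        mul_nonneg (mul_nonneg hc.le (Real.sqrt_nonneg (2 * c))) this,
        mul_nonneg (sq_nonneg c) (Real.sqrt_nonneg (2 * c))]
    exact mul_le_mul_of_nonneg_right h6 (psiD_nonneg _ _ _ _)
  | [], _, _, _, _, j + 1, hj, _ => absurd hj (Nat.not_succ_le_zero j)
  | (m, d) :: ls, hl, s, hs, hs1, j + 1, hj, y =>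
    sq_step hc hδ hδ1 hl hs hs1 j
      (sq_close hc hδ hδ1 hl.tail hs
        (by simp only [List.map_cons, List.sum_cons] at hs1; linarith [hl.head.2.2]) j (by simpa using hj)) y

/-- The conjugate overlaps against the closed form. -/
theorem overlap_close (hc : 0 < c) (hδ : 0 < δ) (hδ1 : δ < 1) {q0 : ℝ} {ls : List (ℝ × ℝ)}
    (h : RsbParam q0 ls) {j : ℕ} (hj : j ≤ ls.length) :
    |rsbOverlap (fD c δ) q0 ls j - negOverlap c q0 ls j| ≤
      2 * sqConst c * ∫ z, phiD c δ z ∂gaussianReal 0 1 := by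
  have hl := RsbParam.lv h
  have hs := rest_pos h
  have hs1 : rsbRest q0 ls + (ls.map Prod.snd).sum ≤ 1 := by rw [rsbRest]; linarith [h.1]
  set v := (ls.map Prod.snd).sum
  have hv : 0 ≤ v := sum_d_nonneg hl
  set r := Real.sqrt q0
  set a := negA c ls (rsbRest q0 ls)
  set i := negInc c ls (rsbRest q0 ls) j
  have hK : 0 ≤ sqConst c := by rw [sqConst]; positivity
  have hle : ∀ z, |rsbSq (fD c δ) ls (rsbRest q0 ls) j (r * z) - (a ^ 2 * (r * z) ^ 2 + i)| ≤
      2 * sqConst c * psiD c δ v (r * z) := fun z => by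
    refine (sq_close hc hδ hδ1 hl hs hs1 j hj _).trans
      (mul_le_mul_of_nonneg_right ?_ (psiD_nonneg _ _ _ _))
    rw [mul_comm 2]
    refine mul_le_mul_of_nonneg_left ?_ hK
    linarith [(sumMD_bounds hl).2]
  have iψ : Integrable (fun z => psiD c δ v (r * z)) (gaussianReal 0 1) := by
    simpa using integrable_psiD hc hδ hδ1 hv 0 r
  have iT : Integrable (fun z => a ^ 2 * (r * z) ^ 2 + i) (gaussianReal 0 1) := by
    simp only [mul_pow]
    exact ((integrable_sq_gauss.const_mul _).const_mul _).add (integrable_const _)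
  have id : Integrable (fun z => rsbSq (fD c δ) ls (rsbRest q0 ls) j (r * z) -
      (a ^ 2 * (r * z) ^ 2 + i)) (gaussianReal 0 1) :=
    (iψ.const_mul _).mono' (((measurable_rsbSq hc hδ hδ1 hl hs hs1 j).comp (by fun_prop)).sub
      (by fun_prop)).aestronglyMeasurable (Eventually.of_forall fun z => (Real.norm_eq_abs _).trans_le (hle z))
  have eN : ∫ z, (a ^ 2 * (r * z) ^ 2 + i) ∂gaussianReal 0 1 = negOverlap c q0 ls j := by
    simp only [mul_pow]
    rw [integral_add ((integrable_sq_gauss.const_mul _).const_mul _) (integrable_const _),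
      integral_const_mul, integral_const_mul, integral_sq_gauss]
    simp [negOverlap, a, i, r, Real.sq_sqrt h.1]
  have eO : rsbOverlap (fD c δ) q0 ls j =
      ∫ z, (rsbSq (fD c δ) ls (rsbRest q0 ls) j (r * z) - (a ^ 2 * (r * z) ^ 2 + i)) ∂gaussianReal 0 1 +
        negOverlap c q0 ls j := by
    rw [← eN, ← integral_add id iT]
    simp [rsbOverlap, r]
  rw [eO, add_sub_cancel_right]
  refine abs_integral_le_integral_abs.trans ((integral_mono id.abs (iψ.const_mul _) hle).trans ?_)
  rw [integral_const_mul]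
  refine mul_le_mul_of_nonneg_left ?_ (by positivity)
  have e2 := psiD_add hc hδ hδ1 hv h.1 0
  simp only [zero_add] at e2
  rw [e2, psiD]
  refine integral_mono (by simpa using integrable_phiD hc hδ hδ1 0 (Real.sqrt (q0 + v)))
    (by simpa using integrable_phiD hc hδ hδ1 0 1) fun z => einc_phiD hc hδ hδ1 _ _ ?_
  rw [zero_add, abs_mul, abs_of_nonneg (Real.sqrt_nonneg _)]
  exact mul_le_of_le_one_left (abs_nonneg z) (Real.sqrt_le_one.2 (by linarith [h.2.2.2]))

/-- The pairing term is bounded by twice the sup norm. -/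
lemma rsbPair_close : ∀ (ls : List (ℝ × ℝ)) {q μ ε : ℝ} {R R' : ℕ → ℝ}, 0 ≤ q →
    q + (ls.map Prod.snd).sum ≤ 1 → 0 ≤ μ → μ ≤ 1 → (μ :: ls.map Prod.fst).IsChain (· ≤ ·) → Lv ls →
    (∀ j ≤ ls.length, |R j - R' j| ≤ ε) →
    |rsbPair ls q R + μ * q * R 0 - (rsbPair ls q R' + μ * q * R' 0)| ≤ ε * (2 - μ)
  | [], q, μ, ε, R, R', hq, hq1, hμ, hμ1, _, _, h => by
    simp only [List.map_nil, List.sum_nil, add_zero] at hq1
    simp only [rsbPair]
    rw [show (1 - q) * R 0 + μ * q * R 0 - ((1 - q) * R' 0 + μ * q * R' 0) =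
      (1 - q + μ * q) * (R 0 - R' 0) by ring, abs_mul, abs_of_nonneg (by nlinarith)]
    have := h 0 le_rfl
    have h0 : 0 ≤ ε := (abs_nonneg _).trans this
    have h1 : 1 - q + μ * q ≤ 1 := by nlinarith
    have := mul_le_mul h1 this (abs_nonneg _) zero_le_one
    nlinarith [mul_nonneg h0 (by linarith : 0 ≤ 1 - μ)]
  | (m, d) :: ls, q, μ, ε, R, R', hq, hq1, hμ, hμ1, hch, hl, h => by
    simp only [List.map_cons, List.isChain_cons_cons] at hch
    obtain ⟨hm, hm1, hd⟩ := hl.head
    simp only [List.map_cons, List.sum_cons] at hq1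
    have ih := rsbPair_close ls (R := fun j => R (j + 1)) (R' := fun j => R' (j + 1)) (add_nonneg hq hd)
      (by linarith) hm.le hm1 hch.2 hl.tail fun j hj => h (j + 1) (by simpa using hj)
    have h0 := h 0 (Nat.zero_le _)
    have hq2 : q ≤ 1 := by linarith [sum_d_nonneg hl.tail]
    have h1 : |(μ - m) * q * (R 0 - R' 0)| ≤ (m - μ) * ε := by
      rw [abs_mul, abs_mul, abs_of_nonpos (by linarith [hch.1]), abs_of_nonneg hq, neg_sub]
      exact mul_le_mul (mul_le_of_le_one_right (by linarith [hch.1]) hq2) h0 (abs_nonneg _)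
        (by linarith [hch.1])
    simp only [rsbPair, zero_add] at ih ⊢
    refine le_trans (le_of_eq ?_) ((abs_add_le ((μ - m) * q * (R 0 - R' 0))
      (rsbPair ls (q + d) (fun j => R (j + 1)) + m * (q + d) * R 1 -
        (rsbPair ls (q + d) (fun j => R' (j + 1)) + m * (q + d) * R' 1))).trans
      ((add_le_add h1 ih).trans (le_of_eq (by ring))))
    congr 1
    ring

/-- The lower bound. -/
theorem negParisi_le_parisi (hc : 0 < c) (hδ : 0 < δ) (hδ1 : δ < 1) {α : ℝ} (hα : 0 ≤ α) {q0 : ℝ}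
    {ls : List (ℝ × ℝ)} (h : RsbParam q0 ls) :
    negParisi c α q0 ls ≤
      parisiIsing (fD c δ) α q0 ls + α * (4 * sqConst c * ∫ z, phiD c δ z ∂gaussianReal 0 1) := by
  have hl := RsbParam.lv h
  set ε := 2 * sqConst c * ∫ z, phiD c δ z ∂gaussianReal 0 1 with hε
  have hR := fun j (hj : j ≤ ls.length) => overlap_close hc hδ hδ1 h hj
  obtain ⟨hO0, hOs⟩ := Low.overlap_props (pot_fD hc hδ hδ1).meas (pot_fD hc hδ hδ1).bound h
  have hE := mul_le_mul_of_nonneg_left (energy_bounds hc hδ hδ1 h).1 hα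
  have hpair : |rsbPair ls q0 (rsbOverlap (fD c δ) q0 ls) - rsbPair ls q0 (negOverlap c q0 ls)| ≤ 2 * ε := by
    have := rsbPair_close ls (μ := 0) h.1 (le_of_lt h.2.2.2) le_rfl zero_le_one
      (List.isChain_cons.2 ⟨fun y hy => by
        obtain ⟨p, hp, rfl⟩ := List.mem_map.1 (List.mem_of_head? hy)
        exact (hl p hp).1.le, h.2.1⟩) hl hR
    simp only [zero_mul, add_zero, sub_zero] at this
    linarith
  have hS := spinRoot_close (ls := ls) h.2.1 (fun p hp => ⟨(hl p hp).1, (hl p hp).2.1⟩)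
    (R := fun j => α * negOverlap c q0 ls j) (R' := fun j => α * rsbOverlap (fD c δ) q0 ls j)
    (mul_nonneg hα hO0) (fun j hj => ⟨mul_le_mul_of_nonneg_left (by
        simp only [negOverlap]
        linarith [negInc_succ c hc hl (rest_pos h).le hj]) hα, mul_le_mul_of_nonneg_left (hOs j hj) hα⟩)
    (ε := α * ε) fun j hj => by
      rw [← mul_sub, abs_mul, abs_of_nonneg hα, abs_sub_comm]
      exact mul_le_mul_of_nonneg_left (hR j hj) hα
  simp only [spinRoot] at hS
  have := mul_le_mul_of_nonneg_left (abs_le.1 hpair).2 hα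
  simp only [negParisi, parisiIsing]
  linarith

end Vale.Agent.P166N
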