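import Vale.Agent.P166N.Formula
import Vale.Agent.P166W.Rotate

/-!
P166: the pressure of the orthogonally invariant couplings `J = a I - (x/N) ∑_{k ≤ αN} g_k g_kᵀ`
converges at every inverse temperature and every rate to an explicit variational formula of Parisi type.
-/

namespace Vale.Agent.P166N.NegativeJump

open MeasureTheory ProbabilityTheory Filter Matrix
open scoped Topology
open Vale.Agent.P157 (RsbParam logZ cubeMeasure cubeVec sgn integral_cube)
open Vale.Agent.P166N (negParisi)

/-- The coupling matrix of a shift and `M` Gaussian patterns of weight `-x`. -/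
noncomputable def coupling (a x : ℝ) (N M : ℕ) (g : Fin M → Fin N → ℝ) (i j : Fin N) : ℝ :=
  (if i = j then a else 0) - x * (∑ k, g k i * g k j) / N

/-- The pressure of the coupling matrix `J` at inverse temperature `β`. -/
noncomputable def pressure (β : ℝ) {N : ℕ} (J : Fin N → Fin N → ℝ) : ℝ :=
  Real.log ((∑ σ : Fin N → Bool, Real.exp (β / 2 *
    ∑ i, ∑ j, (if σ i then (1 : ℝ) else -1) * J i j * (if σ j then (1 : ℝ) else -1))) / 2 ^ N) / N

/-- Independent standard Gaussian patterns. -/
noncomputable def patterns (N M : ℕ) : Measure (Fin M → Fin N → ℝ) :=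
  Measure.pi fun _ => Measure.pi fun _ => gaussianReal 0 1

/-- The patterns as Euclidean vectors. -/
noncomputable def vecs {N M : ℕ} (g : Fin M → Fin N → ℝ) : Fin M → EuclideanSpace ℝ (Fin N) :=
  fun k => WithLp.toLp 2 (g k)

lemma measurePreserving_vecs (N M : ℕ) :
    MeasurePreserving (vecs (N := N) (M := M)) (patterns N M) (Vale.Agent.P166N.patPi N M) :=
  measurePreserving_pi (fun _ : Fin M => Measure.pi fun _ : Fin N => gaussianReal 0 1)
    (fun _ : Fin M => stdGaussian (EuclideanSpace ℝ (Fin N)))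
    fun _ => ⟨by fun_prop, map_pi_eq_stdGaussian⟩

lemma coupling_rotate (a x : ℝ) (N M : ℕ) (O : Matrix (Fin N) (Fin N) ℝ) (hO : Oᵀ * O = 1)
    (g : Fin M → Fin N → ℝ) :
    (fun i j => ∑ k, ∑ l, O i k * coupling a x N M g k l * O j l) =
      coupling a x N M fun b => O *ᵥ g b := by
  funext i j
  simp only [coupling, mul_sub, sub_mul, Finset.sum_sub_distrib, mul_ite, mul_zero, ite_mul, zero_mul,
    Finset.sum_ite_eq, Finset.mem_univ, if_true]
  congr 1
  · have hOO : O * Oᵀ = 1 := mul_eq_one_comm.1 hO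
    calc ∑ k, O i k * a * O j k = a * (O * Oᵀ) i j := by
          simp only [mul_apply, transpose_apply, Finset.mul_sum]
          exact Finset.sum_congr rfl fun k _ => by ring
      _ = _ := by rw [hOO, one_apply, mul_ite, mul_one, mul_zero]
  · simp only [mulVec, dotProduct, Finset.mul_sum, Finset.sum_mul, Finset.sum_div, mul_div_assoc',
      div_mul_eq_mul_div]
    refine (Finset.sum_congr rfl fun k _ => Finset.sum_comm).trans ?_
    rw [Finset.sum_comm]
    refine Finset.sum_congr rfl fun b _ => ?_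
    rw [Finset.sum_comm]
    exact Finset.sum_congr rfl fun l _ => Finset.sum_congr rfl fun k _ => by ring

lemma pressure_eq (β a x : ℝ) {N : ℕ} (hN : 0 < N) (M : ℕ) (g : Fin M → Fin N → ℝ) :
    pressure β (coupling a x N M g) = β * a / 2 + Vale.Agent.P166N.pQ (β * x) N M (vecs g) := by
  have hN0 : (N : ℝ) ≠ 0 := by exact_mod_cast hN.ne'
  have hs : Real.sqrt N * Real.sqrt N = N := Real.mul_self_sqrt (Nat.cast_nonneg N)
  set f := Vale.Agent.P166N.fQ (β * x)
  have hin : ∀ (k : Fin M) (σ : Fin N → Bool), inner ℝ (vecs g k) (cubeVec N σ) =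
      (∑ i, sgn (σ i) * g k i) / Real.sqrt N := fun k σ => by
    rw [cubeVec, real_inner_smul_right, div_eq_inv_mul]
    simp [vecs, PiLp.inner_apply, mul_comm]
  have hH : ∀ σ : Fin N → Bool, β / 2 * ∑ i, ∑ j, (if σ i then (1 : ℝ) else -1) *
      coupling a x N M g i j * (if σ j then (1 : ℝ) else -1) =
      β * a / 2 * N + ∑ k, f (inner ℝ (vecs g k) (cubeVec N σ)) := fun σ => by
    have hd : ∑ i, ∑ j, sgn (σ i) * (if i = j then a else 0) * sgn (σ j) = N * a := by
      have hi : ∀ i, ∑ j, sgn (σ i) * (if i = j then a else 0) * sgn (σ j) = a := fun i => by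
        rw [Finset.sum_eq_single i (fun j _ hj => by rw [if_neg hj.symm, mul_zero, zero_mul]) (by simp)]
        by_cases h : σ i <;> simp [sgn, h]
      simp only [hi, Finset.sum_const, Finset.card_univ, Fintype.card_fin, nsmul_eq_mul]
    have e : ∀ k, f (inner ℝ (vecs g k) (cubeVec N σ)) =
        -(β * x / 2 * ((∑ i, ∑ j, sgn (σ i) * (g k i * g k j) * sgn (σ j)) / N)) := fun k => by
      have e2 : (∑ i, sgn (σ i) * g k i) ^ 2 = ∑ i, ∑ j, sgn (σ i) * (g k i * g k j) * sgn (σ j) := by
        rw [pow_two, Finset.sum_mul_sum]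
        exact Finset.sum_congr rfl fun i _ => Finset.sum_congr rfl fun j _ => by ring
      rw [hin, ← e2]
      simp only [f, Vale.Agent.P166N.fQ, div_pow]
      rw [Real.sq_sqrt (Nat.cast_nonneg N)]
      ring
    simp only [← show ∀ b, sgn b = if b then (1 : ℝ) else -1 from fun _ => rfl, coupling, mul_sub,
      sub_mul, Finset.sum_sub_distrib, hd, e, Finset.sum_neg_distrib]
    rw [sub_eq_add_neg]
    congr 1
    · ring
    · congr 1
      simp only [Finset.mul_sum, Finset.sum_mul, Finset.sum_div]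
      rw [eq_comm, Finset.sum_comm]
      refine Finset.sum_congr rfl fun i _ => ?_
      rw [Finset.sum_comm]
      exact Finset.sum_congr rfl fun j _ => Finset.sum_congr rfl fun k _ => by ring
  simp only [pressure, Vale.Agent.P166N.pQ, logZ, one_mul, integral_cube, hH, Real.exp_add, ← Finset.mul_sum,
    mul_div_assoc]
  rw [Real.log_mul (Real.exp_ne_zero _) (by positivity), Real.log_exp, add_div]
  congr 1
  field_simp

lemma measurePreserving_mulVec (N : ℕ) (O : Matrix (Fin N) (Fin N) ℝ) (hO : Oᵀ * O = 1) :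
    MeasurePreserving (fun v : Fin N → ℝ => O *ᵥ v) (Measure.pi fun _ => gaussianReal 0 1)
      (Measure.pi fun _ => gaussianReal 0 1) :=
  ⟨Continuous.measurable (continuous_const.matrix_mulVec continuous_id),
    Vale.Agent.P166W.map_gauss_mulVec O hO⟩

lemma map_rotate (N M : ℕ) (O : Matrix (Fin N) (Fin N) ℝ) (hO : Oᵀ * O = 1) :
    MeasurePreserving (fun (g : Fin M → Fin N → ℝ) b => O *ᵥ g b) (patterns N M) (patterns N M) :=
  measurePreserving_pi (fun _ : Fin M => Measure.pi fun _ : Fin N => gaussianReal 0 1)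
    (fun _ : Fin M => Measure.pi fun _ : Fin N => gaussianReal 0 1)
    fun _ => measurePreserving_mulVec N O hO

lemma continuous_coupling (a x : ℝ) (N M : ℕ) : Continuous (coupling a x N M) :=
  continuous_pi fun i => continuous_pi fun j => continuous_const.sub
    ((continuous_const.mul (continuous_finsetSum _ fun k _ => by fun_prop)).div_const _)

/-- For every `β > 0`, `x > 0`, `α > 0` and real `a`, the orthogonally invariant couplings
`J_N = a I - (x/N) ∑_{k ≤ αN} g_k g_kᵀ` have pressure converging in mean, hence in probability, to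
`β a / 2 + inf negParisi`. -/
theorem result (β a x α : ℝ) (hβ : 0 < β) (hx : 0 < x) (hα : 0 < α) :
    (∀ (N : ℕ) (O : Matrix (Fin N) (Fin N) ℝ), Oᵀ * O = 1 →
      (patterns N ⌊α * N⌋₊).map
          (fun g i j => ∑ k, ∑ l, O i k * coupling a x N ⌊α * N⌋₊ g k l * O j l) =
        (patterns N ⌊α * N⌋₊).map (coupling a x N ⌊α * N⌋₊)) ∧
    ∃ L : ℝ, IsGLB {v | ∃ q0 ls, RsbParam q0 ls ∧ v = negParisi (β * x) α q0 ls} L ∧
      Tendsto (fun N : ℕ => ∫ g, pressure β (coupling a x N ⌊α * N⌋₊ g) ∂patterns N ⌊α * N⌋₊)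
        atTop (𝓝 (β * a / 2 + L)) ∧
      (∀ᶠ N : ℕ in atTop, Integrable
        (fun g => pressure β (coupling a x N ⌊α * N⌋₊ g)) (patterns N ⌊α * N⌋₊)) ∧
      Tendsto (fun N : ℕ => ∫ g, |pressure β (coupling a x N ⌊α * N⌋₊ g) - (β * a / 2 + L)|
        ∂patterns N ⌊α * N⌋₊) atTop (𝓝 0) := by
  constructor
  · intro N O hO
    rw [funext (coupling_rotate a x N ⌊α * N⌋₊ O hO)]
    conv_rhs => rw [← (map_rotate N ⌊α * N⌋₊ O hO).map_eq]
    exact (Measure.map_map (continuous_coupling a x N ⌊α * N⌋₊).measurable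
      (map_rotate N ⌊α * N⌋₊ O hO).measurable).symm
  · obtain ⟨L, hL, hmean, hdev⟩ := Vale.Agent.P166N.limit_formula (mul_pos hβ hx) hα
    have key : ∀ N : ℕ, 0 < N →
        Integrable (fun g => pressure β (coupling a x N ⌊α * N⌋₊ g)) (patterns N ⌊α * N⌋₊) ∧
        ∫ g, pressure β (coupling a x N ⌊α * N⌋₊ g) ∂patterns N ⌊α * N⌋₊ =
          β * a / 2 + Vale.Agent.P166N.meanQ (β * x) N ⌊α * N⌋₊ ∧
        ∫ g, |pressure β (coupling a x N ⌊α * N⌋₊ g) - (β * a / 2 + L)| ∂patterns N ⌊α * N⌋₊ =
          ∫ g, |Vale.Agent.P166N.pQ (β * x) N ⌊α * N⌋₊ g - L| ∂Vale.Agent.P166N.patPi N ⌊α * N⌋₊ := by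
      intro N hN
      set M := ⌊α * N⌋₊
      have hprob : IsProbabilityMeasure (patterns N M) :=
        inferInstanceAs (IsProbabilityMeasure (Measure.pi fun _ : Fin M =>
          Measure.pi fun _ : Fin N => gaussianReal 0 1))
      have hv := measurePreserving_vecs N M
      have hi := Vale.Agent.P166N.integrable_pQ (mul_pos hβ hx) hN M
      have hi2 : Integrable (fun g => Vale.Agent.P166N.pQ (β * x) N M (vecs g)) (patterns N M) :=
        hv.integrable_comp_of_integrable hi
      have hmap : ∀ F : (Fin M → EuclideanSpace ℝ (Fin N)) → ℝ,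
          AEStronglyMeasurable F (Vale.Agent.P166N.patPi N M) →
          ∫ g, F (vecs g) ∂patterns N M = ∫ g, F g ∂Vale.Agent.P166N.patPi N M := fun F hF => by
        rw [← hv.map_eq, integral_map hv.measurable.aemeasurable]
        rwa [hv.map_eq]
      simp only [pressure_eq β a x hN]
      refine ⟨(integrable_const _).add hi2, ?_, ?_⟩
      · rw [integral_add (integrable_const _) hi2, hmap _ hi.aestronglyMeasurable]
        simp [Vale.Agent.P166N.meanQ]
      · simp only [add_sub_add_left_eq_sub]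
        exact hmap (fun g => |Vale.Agent.P166N.pQ (β * x) N M g - L|)
          (hi.sub (integrable_const L)).abs.aestronglyMeasurable
    refine ⟨L, hL, ?_, ?_, ?_⟩
    · refine (hmean.const_add (β * a / 2)).congr' ?_
      filter_upwards [eventually_gt_atTop 0] with N hN using (key N hN).2.1.symm
    · filter_upwards [eventually_gt_atTop 0] with N hN using (key N hN).1
    · refine hdev.congr' ?_
      filter_upwards [eventually_gt_atTop 0] with N hN using (key N hN).2.2.symm

end Vale.Agent.P166N.NegativeJump
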