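import Vale.Agent.P166N.Gap

/-!
The pressure of the quadratic potential on the cube: its distance to the regularised pressures and its
concentration.
-/

namespace Vale.Agent.P166N

open MeasureTheory ProbabilityTheory Filter
open Vale.Agent.P157
open scoped RealInnerProductSpace Topology

/-- The law of `M` Gaussian patterns. -/
noncomputable def patPi (N M : ℕ) : Measure (Fin M → EuclideanSpace ℝ (Fin N)) :=
  Measure.pi fun _ => stdGaussian (EuclideanSpace ℝ (Fin N))

instance (N M : ℕ) : IsProbabilityMeasure (patPi N M) := by unfold patPi; infer_instance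

/-- The pressure of the quadratic potential at given patterns. -/
noncomputable def pQ (c : ℝ) (N M : ℕ) (g : Fin M → EuclideanSpace ℝ (Fin N)) : ℝ :=
  logZ (cubeMeasure N) (fQ c) (cubeVec N) (fun _ => 1) g / N

/-- Its mean. -/
noncomputable def meanQ (c : ℝ) (N M : ℕ) : ℝ := ∫ g, pQ c N M g ∂patPi N M

variable {c δ : ℝ} {N : ℕ}

lemma cubeF_eq_logZ (hc : 0 < c) (hδ : 0 < δ) (hδ1 : δ < 1) (M : ℕ) :
    cubeF (fD c δ) N M =
      ∫ g, logZ (cubeMeasure N) (fD c δ) (cubeVec N) (fun _ => 1) g ∂patPi N M :=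
  L_eq_integral (pot_fD hc hδ hδ1) (measurable_of_finite _) M _ Wt.one

lemma integrable_pQ (hc : 0 < c) (hN : 1 ≤ N) (M : ℕ) : Integrable (pQ c N M) (patPi N M) :=
  (integrable_logZ_fQ hc (measurable_of_finite _) (norm_cubeVec hN) Wt.one).div_const _

/-- The mean pressure lies within the mean gap below the regularised one. -/
theorem meanQ_sandwich (hc : 0 < c) (hδ : 0 < δ) (hδ1 : δ < 1) (hN : 1 ≤ N) (M : ℕ) :
    cubePressure (fD c δ) N M - M / N * errD c δ ≤ meanQ c N M ∧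
      meanQ c N M ≤ cubePressure (fD c δ) N M := by
  have hv := measurable_of_finite (cubeVec N)
  have hv1 := norm_cubeVec hN
  have iD := integrable_logZ_fD (μ := cubeMeasure N) (k := M) hc hδ hδ1 hv Wt.one
  have iQ := integrable_logZ_fQ (μ := cubeMeasure N) (k := M) hc hv hv1 Wt.one
  have hg := gap_le (μ := cubeMeasure N) hc hδ hδ1 hv hv1 M _ Wt.one
  rw [integral_sub iD iQ] at hg
  have hmono := integral_mono iQ iD fun g => logZ_le hc hδ hδ1 hv hv1 Wt.one g
  have hN' : (0 : ℝ) < N := by exact_mod_cast hN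
  rw [← cubeF_eq (pot_fD hc hδ hδ1), cubeF_eq_logZ hc hδ hδ1, meanQ]
  simp only [pQ, patPi] at *
  rw [integral_div, div_mul_eq_mul_div, ← sub_div, div_le_div_iff_of_pos_right hN',
    div_le_div_iff_of_pos_right hN']
  exact ⟨by linarith, hmono⟩

/-- Mean absolute deviation of the pressure. -/
theorem pQ_dev (hc : 0 < c) (hδ : 0 < δ) (hδ1 : δ < 1) (hN : 1 ≤ N) (M : ℕ) :
    ∫ g, |pQ c N M g - meanQ c N M| ∂patPi N M ≤
      (2 * (M / N) * Real.log δ ^ 2 + 1 / 2) / Real.sqrt N + 2 * (M / N) * errD c δ := by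
  set f := fD c δ
  have hf := pot_fD hc hδ hδ1
  have hv := measurable_of_finite (cubeVec N)
  have hv1 := norm_cubeVec hN
  set ZD := logZ (k := M) (cubeMeasure N) f (cubeVec N) fun _ => (1 : ℝ)
  set ZQ := logZ (k := M) (cubeMeasure N) (fQ c) (cubeVec N) fun _ => (1 : ℝ)
  have iD : Integrable ZD (patPi N M) := integrable_logZ_fD hc hδ hδ1 hv Wt.one
  have iQ : Integrable ZQ (patPi N M) := integrable_logZ_fQ hc hv hv1 Wt.one
  set mD := ∫ g, ZD g ∂patPi N M with hmD
  set mQ := ∫ g, ZQ g ∂patPi N M with hmQ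
  have hle : ∀ g, ZQ g ≤ ZD g := fun g => logZ_le hc hδ hδ1 hv hv1 Wt.one g
  have hgap : mD - mQ ≤ M * errD c δ := by
    rw [hmD, hmQ, ← integral_sub iD iQ]
    exact gap_le hc hδ hδ1 hv hv1 M _ Wt.one
  have hN' : (0 : ℝ) < N := by exact_mod_cast hN
  have ht : 0 < Real.sqrt N := Real.sqrt_pos.2 hN'
  have i2 : Integrable (fun g => (ZD g - mD) ^ 2) (patPi N M) :=
    Integrable.of_bound ((measurable_logZ hf hv measurable_const).sub_const _ |>.pow_const 2).aestronglyMeasurable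
      ((M * (-Real.log δ) + |mD|) ^ 2) (Eventually.of_forall fun g => by
        rw [Real.norm_eq_abs, abs_pow]
        refine pow_le_pow_left₀ (abs_nonneg _) ((abs_sub _ _).trans (add_le_add ?_ le_rfl)) 2
        have := abs_logZ_sub (μ := cubeMeasure N) hf hv Wt.one g
        simpa [logI] using this)
  have hvar : ∫ g, (ZD g - mD) ^ 2 ∂patPi N M ≤ 4 * Real.log δ ^ 2 * M := by
    rw [hmD, ← cubeF_eq_logZ hc hδ hδ1]
    have := variance_logZ (μ := cubeMeasure N) hf hv M _ Wt.one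
    simp only [neg_sq] at this
    exact this
  have hpt : ∀ g, |ZQ g - mQ| ≤
      ((ZD g - mD) ^ 2 / (2 * Real.sqrt N) + Real.sqrt N / 2) + ((ZD g - ZQ g) + (mD - mQ)) := fun g => by
    have hmm : mQ ≤ mD := integral_mono iQ iD hle
    have h1 : |ZQ g - mQ| ≤ |ZD g - mD| + ((ZD g - ZQ g) + (mD - mQ)) := by
      rw [abs_le]
      obtain ⟨a1, a2⟩ := abs_le.1 (le_refl |ZD g - mD|)
      constructor <;> linarith [hle g]
    refine h1.trans (add_le_add ?_ le_rfl)
    rw [div_add_div _ _ (by positivity) two_ne_zero, le_div_iff₀ (by positivity)]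
    nlinarith [sq_nonneg (|ZD g - mD| - Real.sqrt N), sq_abs (ZD g - mD)]
  have hi1 := (i2.div_const (2 * Real.sqrt N)).fun_add (integrable_const (Real.sqrt N / 2))
  have hi2 := (iD.sub' iQ).fun_add (integrable_const (μ := patPi N M) (mD - mQ))
  have h := integral_mono (μ := patPi N M) (iQ.sub (integrable_const mQ)).abs (hi1.fun_add hi2) hpt
  rw [integral_add hi1 hi2, integral_add (i2.div_const _) (integrable_const _),
    integral_add (iD.sub' iQ) (integrable_const _), integral_div, integral_sub iD iQ] at h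
  simp only [integral_const, probReal_univ, one_smul, ← hmD, ← hmQ, Pi.sub_apply] at h
  have e : ∫ g, |pQ c N M g - meanQ c N M| ∂patPi N M = (∫ g, |ZQ g - mQ| ∂patPi N M) / N := by
    rw [← integral_div]
    refine integral_congr_ae (Eventually.of_forall fun g => ?_)
    simp only [pQ, meanQ, integral_div, ← hmQ, ZQ]
    rw [← sub_div, abs_div, abs_of_pos hN']
  rw [e, div_le_iff₀ hN']
  refine h.trans ((add_le_add (add_le_add (div_le_div_of_nonneg_right hvar (by positivity)) le_rfl)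
    (add_le_add hgap hgap)).trans (le_of_eq ?_))
  obtain ⟨r, hr⟩ : ∃ r : ℝ, r = Real.sqrt N := ⟨_, rfl⟩
  have hr2 : r ^ 2 = (N : ℝ) := by rw [hr]; exact Real.sq_sqrt hN'.le
  rw [← hr] at ht ⊢
  rw [← hr2]
  field_simp
  ring

/-- The pressure concentrates in mean. -/
theorem pQ_concentration (hc : 0 < c) {α : ℝ} (hα : 0 ≤ α)
    (herr : Tendsto (errD c) (𝓝[>] 0) (𝓝 0)) :
    Tendsto (fun N : ℕ => ∫ g, |pQ c N ⌊α * N⌋₊ g - meanQ c N ⌊α * N⌋₊| ∂patPi N ⌊α * N⌋₊) atTop (𝓝 0) := by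
  rw [Metric.tendsto_nhds]
  intro η hη
  have h0 : Tendsto (fun δ => 2 * α * errD c δ) (𝓝[>] 0) (𝓝 0) := by simpa using herr.const_mul (2 * α)
  obtain ⟨δ, hδ, hδm⟩ := ((h0.eventually_lt_const (half_pos hη)).and (Ioo_mem_nhdsGT one_pos)).exists
  have h1 : Tendsto (fun N : ℕ => (2 * α * Real.log δ ^ 2 + 1 / 2) / Real.sqrt N) atTop (𝓝 0) :=
    tendsto_const_nhds.div_atTop (Real.tendsto_sqrt_atTop.comp tendsto_natCast_atTop_atTop)
  filter_upwards [h1.eventually_lt_const (half_pos hη), eventually_ge_atTop 1] with N hN hN1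
  rw [Real.dist_eq, sub_zero, abs_of_nonneg (integral_nonneg fun _ => abs_nonneg _)]
  have hM : (⌊α * N⌋₊ : ℝ) / N ≤ α := by
    rw [div_le_iff₀ (by exact_mod_cast hN1)]
    exact Nat.floor_le (mul_nonneg hα (Nat.cast_nonneg N))
  refine (pQ_dev hc hδm.1 hδm.2 hN1 _).trans_lt ?_
  have he := errD_nonneg (c := c) hc hδm.1
  have e1 : (2 * ((⌊α * N⌋₊ : ℝ) / N) * Real.log δ ^ 2 + 1 / 2) / Real.sqrt N ≤
      (2 * α * Real.log δ ^ 2 + 1 / 2) / Real.sqrt N := by gcongr
  have e2 : 2 * ((⌊α * N⌋₊ : ℝ) / N) * errD c δ ≤ 2 * α * errD c δ := by gcongr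
  linarith

end Vale.Agent.P166N
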