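import Vale.Agent.P157.Low.Pert
import Vale.Agent.P157.RSB.Fields
import Vale.Agent.P157.RSB.Bridge

/-!
Objects for the orthogonally invariant model with negative jumps: the Gaussian perceptron with
quadratic potential `-c s ^ 2 / 2`, its bounded regularisations, the closed form of Parisi's
functional at that potential, the mixture attached to an order parameter, and finite trees.
-/

namespace Vale.Agent.P166N

open MeasureTheory ProbabilityTheory
open Vale.Agent.P157

/-! ### The potential -/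

/-- The quadratic potential. -/
noncomputable def fQ (c s : ℝ) : ℝ := -(c * s ^ 2 / 2)

/-- The regularised weight. -/
noncomputable def wD (c δ s : ℝ) : ℝ := δ + (1 - δ) * Real.exp (fQ c s)

/-- The regularised potential. -/
noncomputable def fD (c δ s : ℝ) : ℝ := Real.log (wD c δ s)

/-- The gap between the regularised and the quadratic potential. -/
noncomputable def hD (c δ s : ℝ) : ℝ := Real.log (1 - δ + δ * Real.exp (c * s ^ 2 / 2))

/-- The mean gap. -/
noncomputable def errD (c δ : ℝ) : ℝ := ∫ z, hD c δ z ∂gaussianReal 0 1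

/-- The gap averaged over a Gaussian shift of variance `v`. -/
noncomputable def hBar (c δ v y : ℝ) : ℝ := ∫ z, hD c δ (y + Real.sqrt v * z) ∂gaussianReal 0 1

/-- Decreasing in the absolute value. -/
def EDec (g : ℝ → ℝ) : Prop := ∀ x y, |x| ≤ |y| → g y ≤ g x

/-- Increasing in the absolute value. -/
def EInc (g : ℝ → ℝ) : Prop := ∀ x y, |x| ≤ |y| → g x ≤ g y

/-- Envelope of the error of the slopes. -/
noncomputable def phiD (c δ y : ℝ) : ℝ :=
  (|y| + 1) * Real.sqrt (∫ z, hD c δ (3 * |y| + 2 + |z|) ∂gaussianReal 0 1)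

/-! ### Parisi's functional at the quadratic potential -/

/-- Curvature of the nested potential: `1 / negA = 1 / c + s + ∑ m d`. -/
noncomputable def negA (c : ℝ) : List (ℝ × ℝ) → ℝ → ℝ
  | [], s => c / (1 + c * s)
  | (m, d) :: ls, s => negA c ls s / (1 + m * d * negA c ls s)

/-- Constant term of the nested potential. -/
noncomputable def negB (c : ℝ) : List (ℝ × ℝ) → ℝ → ℝ
  | [], s => -(Real.log (1 + c * s) / 2)
  | (m, d) :: ls, s => negB c ls s - Real.log (1 + m * d * negA c ls s) / (2 * m)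

/-- The energy per pattern. -/
noncomputable def negEnergy (c q0 : ℝ) (ls : List (ℝ × ℝ)) : ℝ :=
  negB c ls (rsbRest q0 ls) - negA c ls (rsbRest q0 ls) * q0 / 2

/-- Increments of the conjugate overlaps above the outermost one. -/
noncomputable def negInc (c : ℝ) : List (ℝ × ℝ) → ℝ → ℕ → ℝ
  | _, _, 0 => 0
  | [], _, _ + 1 => 0
  | (m, d) :: ls, s, j + 1 => negA c ((m, d) :: ls) s * negA c ls s * d + negInc c ls s j

/-- The conjugate overlaps per pattern. -/
noncomputable def negOverlap (c q0 : ℝ) (ls : List (ℝ × ℝ)) (j : ℕ) : ℝ :=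
  negA c ls (rsbRest q0 ls) ^ 2 * q0 + negInc c ls (rsbRest q0 ls) j

/-- Parisi's functional of the model with negative jumps of size `c` at rate `α`. -/
noncomputable def negParisi (c α q0 : ℝ) (ls : List (ℝ × ℝ)) : ℝ :=
  α * negEnergy c q0 ls - α / 2 * rsbPair ls q0 (negOverlap c q0 ls) +
    ∫ x, rsbSpin ls (fun j => α * negOverlap c q0 ls j) (Real.sqrt (α * negOverlap c q0 ls 0) * x)
      ∂gaussianReal 0 1

/-! ### The mixture of an order parameter -/

/-- Integral from `t` to `1` of the distribution function with levels `ls` starting at `q`. -/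
noncomputable def zInt : List (ℝ × ℝ) → ℝ → ℝ → ℝ
  | [], q, t => 1 - max t q
  | (m, d) :: ls, q, t => m * (max t (q + d) - max t q) + zInt ls (q + d) t

/-- Projection on the unit interval. -/
noncomputable def proj (t : ℝ) : ℝ := max 0 (min 1 t)

/-- Second derivative of the mixture. -/
noncomputable def xi2 (c α q0 : ℝ) (ls : List (ℝ × ℝ)) (t : ℝ) : ℝ :=
  α / (1 / c + zInt ls q0 (proj t)) ^ 2

/-- First derivative of the mixture. -/
noncomputable def xi1 (c α q0 : ℝ) (ls : List (ℝ × ℝ)) (t : ℝ) : ℝ :=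
  ∫ s in (0 : ℝ)..t, xi2 c α q0 ls s

/-- The mixture. -/
noncomputable def xi (c α q0 : ℝ) (ls : List (ℝ × ℝ)) (R : ℝ) : ℝ :=
  ∫ s in (0 : ℝ)..1, xi2 c α q0 ls s * max (min |R| 1 - s) 0

/-- The conjugate of the mixture. -/
noncomputable def theta (c α q0 : ℝ) (ls : List (ℝ × ℝ)) (q : ℝ) : ℝ :=
  q * xi1 c α q0 ls q - xi c α q0 ls q

/-- The constant of the tangent at an order parameter. -/
noncomputable def gainC (c α q0 : ℝ) (ls : List (ℝ × ℝ)) : ℝ :=
  α * negEnergy c q0 ls - (∫ t in (0 : ℝ)..1, xi2 c α q0 ls t * zInt ls q0 t) / 2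

/-! ### Trees -/

/-- Leaves of a tree with `n` children at each of `k` levels. -/
def Leaf (n : ℕ) : ℕ → Type
  | 0 => Unit
  | k + 1 => Fin n × Leaf n k

/-- Nodes below the root. -/
def Node (n : ℕ) : ℕ → Type
  | 0 => Empty
  | k + 1 => Fin n × Option (Node n k)

instance instFintypeLeaf (n : ℕ) : ∀ k, Fintype (Leaf n k)
  | 0 => inferInstanceAs (Fintype Unit)
  | k + 1 => @instFintypeProd (Fin n) (Leaf n k) _ (instFintypeLeaf n k)

instance instFintypeNode (n : ℕ) : ∀ k, Fintype (Node n k)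
  | 0 => inferInstanceAs (Fintype Empty)
  | k + 1 =>
    letI := instFintypeNode n k
    inferInstanceAs (Fintype (Fin n × Option (Node n k)))

instance (n k : ℕ) : MeasurableSpace (Leaf n k) := ⊤

instance (n k : ℕ) : MeasurableSingletonClass (Leaf n k) := ⟨fun _ => trivial⟩

/-- Number of levels shared by two leaves. -/
def meet {n : ℕ} : ∀ k, Leaf n k → Leaf n k → ℕ
  | 0, _, _ => 0
  | k + 1, (a, α), (b, β) => if a = b then meet k α β + 1 else 0

/-- Coefficient of a node in the field of a leaf, for accumulated variances `R`. -/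
noncomputable def feat {n : ℕ} : ∀ k, (ℕ → ℝ) → Leaf n k → Node n k → ℝ
  | 0, _, _, _ => 0
  | _ + 1, R, (a, _), (b, none) => if a = b then Real.sqrt (R 1 - R 0) else 0
  | k + 1, R, (a, α), (b, some ν) => if a = b then feat k (fun j => R (j + 1)) α ν else 0

/-- Coefficient with the root included. -/
noncomputable def feat0 {n : ℕ} (k : ℕ) (R : ℕ → ℝ) (α : Leaf n k) : Option (Node n k) → ℝ
  | none => Real.sqrt (R 0)
  | some ν => feat k R α ν

/-- The field at a leaf with coefficients `ah`. -/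
noncomputable def leafField {L I : Type} [Fintype I] (N : ℕ) (ah : L → I → ℝ) (l : L)
    (g : EuclideanSpace ℝ (I × Fin N)) : EuclideanSpace ℝ (Fin N) :=
  WithLp.toLp 2 fun i => ∑ ν, ah l ν * g (ν, i)

/-- Expected logarithm of the sum of `exp G` over leaves with weights `ρ` in correlated fields. -/
noncomputable def leafVal {L I : Type} [Fintype L] [Fintype I] (N : ℕ) (ah : L → I → ℝ)
    (G : EuclideanSpace ℝ (Fin N) → ℝ) (ρ : L → ℝ) : ℝ :=
  ∫ g, Real.log (∑ l, ρ l * Real.exp (G (leafField N ah l g)))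
    ∂stdGaussian (EuclideanSpace ℝ (I × Fin N))

/-- The single-site energy of the spins in a field. -/
noncomputable def spinG (N : ℕ) (H : EuclideanSpace ℝ (Fin N)) : ℝ :=
  ∑ i, Real.log (Real.cosh (H i))

/-- The linear energy of the shifts. -/
noncomputable def linG (H : EuclideanSpace ℝ (Fin 1)) : ℝ := H 0

/-- The nested value which trees approximate. -/
noncomputable def rootVal (N : ℕ) (ls : List (ℝ × ℝ)) (R : ℕ → ℝ)
    (G : EuclideanSpace ℝ (Fin N) → ℝ) : ℝ :=
  ∫ h, RSB.casc (stdGaussian (EuclideanSpace ℝ (Fin N))) RSB.levM (RSB.sh 1) (RSB.withR ls R) G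
    (Real.sqrt (R 0) • h) ∂stdGaussian (EuclideanSpace ℝ (Fin N))

/-- An upper bound on the gain of one pattern, linear in the mixture evaluated at the overlap of
two replicas, for systems with small defects in the Ghirlanda-Guerra identities. -/
def GainBound (c δ α : ℝ) (Ξ : ℝ → ℝ) (C : ℝ) : Prop :=
  ∀ η, 0 < η → ∃ (P : ℕ) (δ' : ℝ), 0 < δ' ∧ ∀ (N : ℕ) (S : Low.Sys)
    (u : S.X → EuclideanSpace ℝ (Fin N)) (hu : Measurable u) (hu1 : ∀ a, ‖u a‖ = 1),
    (∀ a b, inner ℝ (u a) (u b) = inner ℝ (S.v a) (S.v b)) → ∀ s : ℝ, 0 < s →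
    ∀ x ∈ Low.box P, ∑ p, Low.ggErr S u hu hu1 s x p ≤ δ' →
      α * (S.perturb u hu hu1 s x).logGain (wD c δ) ≤
        C + (Ξ 1 - (S.perturb u hu hu1 s x).expect fun R : Low.Mat 2 => Ξ (R 0 1)) / 2 + η

/-- Exponents strictly increasing in `(0, 1)`. -/
def Strict (ls : List (ℝ × ℝ)) : Prop :=
  List.IsChain (· < ·) (ls.map Prod.fst) ∧ ∀ p ∈ ls, 0 < p.1 ∧ p.1 < 1

end Vale.Agent.P166N
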