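import Vale.Agent.P166N.Lower

/-!
Order parameters with strictly increasing exponents suffice for the upper bound: lowering the exponents
slightly raises the closed form by little.
-/

namespace Vale.Agent.P166N

open MeasureTheory ProbabilityTheory Filter
open Vale.Agent.P157
open scoped Topology

/-- The exponents lowered by powers of `t`. -/
def shrinkM (t : ℝ) : List (ℝ × ℝ) → List (ℝ × ℝ)
  | [] => []
  | (m, d) :: ls => (t ^ (ls.length + 1) * m, d) :: shrinkM t ls

variable {t : ℝ}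

lemma shrinkM_length : ∀ ls : List (ℝ × ℝ), (shrinkM t ls).length = ls.length
  | [] => rfl
  | _ :: ls => by simp [shrinkM, shrinkM_length ls]

lemma shrinkM_snd : ∀ ls : List (ℝ × ℝ), (shrinkM t ls).map Prod.snd = ls.map Prod.snd
  | [] => rfl
  | _ :: ls => by simp [shrinkM, shrinkM_snd ls]

lemma shrinkM_one : ∀ ls : List (ℝ × ℝ), shrinkM 1 ls = ls
  | [] => rfl
  | _ :: ls => by simp [shrinkM, shrinkM_one ls]

lemma shrinkM_rest (q0 : ℝ) (ls : List (ℝ × ℝ)) : rsbRest q0 (shrinkM t ls) = rsbRest q0 ls := by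
  rw [rsbRest, shrinkM_snd, rsbRest]

lemma shrinkM_mem (ht : 0 < t) (ht1 : t < 1) : ∀ {ls : List (ℝ × ℝ)}, Lv ls →
    ∀ p ∈ shrinkM t ls, 0 < p.1 ∧ p.1 < 1 ∧ 0 ≤ p.2
  | [], _, p, hp => absurd hp (by simp [shrinkM])
  | (m, d) :: ls, hl, p, hp => by
    rcases List.mem_cons.1 (show p ∈ (t ^ (ls.length + 1) * m, d) :: shrinkM t ls from hp) with rfl | hp
    · obtain ⟨hm, hm1, hd⟩ := hl.head
      refine ⟨by positivity, ?_, hd⟩
      exact (mul_le_of_le_one_right (pow_nonneg ht.le _) hm1).trans_lt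
        (pow_lt_one₀ ht.le ht1 (Nat.succ_ne_zero _))
    · exact shrinkM_mem ht ht1 hl.tail p hp

lemma shrinkM_chain (ht : 0 < t) (ht1 : t < 1) : ∀ {ls : List (ℝ × ℝ)}, Lv ls →
    (ls.map Prod.fst).IsChain (· ≤ ·) → ((shrinkM t ls).map Prod.fst).IsChain (· < ·)
  | [], _, _ => List.isChain_nil
  | [_], _, _ => List.isChain_singleton _
  | (m, d) :: (m', d') :: ls, hl, h => by
    simp only [List.map_cons, List.isChain_cons_cons] at h
    have ih := shrinkM_chain ht ht1 hl.tail (by simpa using h.2)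
    simp only [shrinkM, List.map_cons, List.isChain_cons_cons, List.length_cons] at ih ⊢
    refine ⟨?_, ih⟩
    have hm := hl.head.1
    calc t ^ (ls.length + 1 + 1) * m < t ^ (ls.length + 1) * m :=
          mul_lt_mul_of_pos_right (pow_lt_pow_right_of_lt_one₀ ht ht1 (Nat.lt_succ_self _)) hm
      _ ≤ t ^ (ls.length + 1) * m' := mul_le_mul_of_nonneg_left h.1 (pow_nonneg ht.le _)

lemma shrinkM_strict (ht : 0 < t) (ht1 : t < 1) {q0 : ℝ} {ls : List (ℝ × ℝ)} (h : RsbParam q0 ls) :
    RsbParam q0 (shrinkM t ls) ∧ Strict (shrinkM t ls) := by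
  have hmem := shrinkM_mem ht ht1 (RsbParam.lv h)
  have hch := shrinkM_chain ht ht1 (RsbParam.lv h) h.2.1
  refine ⟨⟨h.1, hch.imp fun _ _ => le_of_lt, fun p hp => ⟨(hmem p hp).1, (hmem p hp).2.1.le, (hmem p hp).2.2⟩,
    by rw [shrinkM_snd]; exact h.2.2.2⟩, hch, fun p hp => ⟨(hmem p hp).1, (hmem p hp).2.1⟩⟩

variable {c : ℝ}

lemma continuousAt_negA (hc : 0 < c) : ∀ {ls : List (ℝ × ℝ)}, Lv ls → ∀ {s : ℝ}, 0 ≤ s →
    ContinuousAt (fun t => negA c (shrinkM t ls) s) 1
  | [], _, s, _ => continuousAt_const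
  | (m, d) :: ls, hl, s, hs => by
    have ih := continuousAt_negA hc hl.tail hs
    obtain ⟨hm, -, hd⟩ := hl.head
    have ha := (negA_bounds hc hl.tail hs).1
    simp only [shrinkM, negA]
    refine ih.div (continuousAt_const.add (((continuousAt_id.pow _).mul continuousAt_const).mul
      continuousAt_const |>.mul ih)) ?_
    simp only [shrinkM_one, one_pow, one_mul]
    positivity

lemma continuousAt_negB (hc : 0 < c) : ∀ {ls : List (ℝ × ℝ)}, Lv ls → ∀ {s : ℝ}, 0 ≤ s →
    ContinuousAt (fun t => negB c (shrinkM t ls) s) 1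
  | [], _, s, _ => continuousAt_const
  | (m, d) :: ls, hl, s, hs => by
    have ih := continuousAt_negB hc hl.tail hs
    have ihA := continuousAt_negA hc hl.tail hs
    obtain ⟨hm, -, hd⟩ := hl.head
    have ha := (negA_bounds hc hl.tail hs).1
    simp only [shrinkM, negB]
    refine ih.sub ((ContinuousAt.log (continuousAt_const.add (((continuousAt_id.pow _).mul
      continuousAt_const).mul continuousAt_const |>.mul ihA)) ?_).div
        (continuousAt_const.mul ((continuousAt_id.pow _).mul continuousAt_const)) ?_)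
    · simp only [id_eq, shrinkM_one, one_pow, one_mul, Pi.add_apply, Pi.mul_apply, Pi.pow_apply]
      positivity
    · simp only [one_pow, one_mul]
      positivity

lemma continuousAt_negInc (hc : 0 < c) : ∀ {ls : List (ℝ × ℝ)}, Lv ls → ∀ {s : ℝ}, 0 ≤ s → ∀ j,
    ContinuousAt (fun t => negInc c (shrinkM t ls) s j) 1
  | ls, _, _, _, 0 => by
    cases ls <;> simp only [shrinkM, negInc] <;> exact continuousAt_const
  | [], _, _, _, j + 1 => continuousAt_const
  | (m, d) :: ls, hl, s, hs, j + 1 => by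
    have h1 := continuousAt_negA hc hl hs
    simp only [shrinkM, negInc] at h1 ⊢
    exact ((h1.mul (continuousAt_negA hc hl.tail hs)).mul continuousAt_const).add
      (continuousAt_negInc hc hl.tail hs j)

lemma continuousAt_rsbPair : ∀ (ls : List (ℝ × ℝ)) (q : ℝ) {R : ℝ → ℕ → ℝ},
    (∀ j, ContinuousAt (fun t => R t j) 1) → ContinuousAt (fun t => rsbPair (shrinkM t ls) q (R t)) 1
  | [], q, R, hR => continuousAt_const.mul (hR 0)
  | (m, d) :: ls, q, R, hR => by
    simp only [shrinkM, rsbPair]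
    exact (((continuousAt_id.pow _).mul continuousAt_const).mul
      ((continuousAt_const.mul (hR 1)).sub (continuousAt_const.mul (hR 0)))).add
        (continuousAt_rsbPair ls (q + d) (R := fun t j => R t (j + 1)) fun j => hR (j + 1))

lemma continuousAt_negOverlap (hc : 0 < c) {q0 : ℝ} {ls : List (ℝ × ℝ)} (h : RsbParam q0 ls) (j : ℕ) :
    ContinuousAt (fun t => negOverlap c q0 (shrinkM t ls) j) 1 := by
  have hs := (rest_pos h).le
  simp only [negOverlap, shrinkM_rest]
  exact (((continuousAt_negA hc (RsbParam.lv h) hs).pow 2).mul continuousAt_const).add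
    (continuousAt_negInc hc (RsbParam.lv h) hs j)

/-- Lower exponents lower the spin term. -/
lemma rsbSpin_shrink_le (ht : 0 < t) (ht1 : t < 1) : ∀ {ls : List (ℝ × ℝ)}, Lv ls → ∀ (R : ℕ → ℝ) (x : ℝ),
    rsbSpin (shrinkM t ls) R x ≤ rsbSpin ls R x
  | [], _, _, _ => le_rfl
  | (m, d) :: ls, hl, R, x => by
    obtain ⟨hm, -, -⟩ := hl.head
    have ih := rsbSpin_shrink_le ht ht1 hl.tail fun j => R (j + 1)
    obtain ⟨hl1, -⟩ := Low.rsbSpin_props ls (fun j => R (j + 1)) fun p hp => ⟨(hl.tail p hp).1, (hl.tail p hp).2.1⟩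
    obtain ⟨hl2, -⟩ := Low.rsbSpin_props (shrinkM t ls) (fun j => R (j + 1))
      fun p hp => ⟨(shrinkM_mem ht ht1 hl.tail p hp).1, (shrinkM_mem ht ht1 hl.tail p hp).2.1.le⟩
    have hm' : 0 < t ^ (ls.length + 1) * m := by positivity
    simp only [shrinkM, rsbSpin_cons]
    refine (RSB.lexp_mono (wgt_lip hl2 _ x _) (wgt_lip hl1 _ x _) hm' fun z => ih _).trans ?_
    exact lexp_mono_exponent hm' (mul_le_of_le_one_left hm.le (pow_le_one₀ ht.le ht1.le))
      (wgt_lip hl1 _ x _) (wgt_lip hl1 _ x _)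

/-- Some strictly increasing order parameter is within `η` of any one from above. -/
theorem exists_strict (hc : 0 < c) {α : ℝ} (hα : 0 ≤ α) {q0 : ℝ} {ls : List (ℝ × ℝ)} (h : RsbParam q0 ls)
    {η : ℝ} (hη : 0 < η) : ∃ ls', RsbParam q0 ls' ∧ Strict ls' ∧
      negParisi c α q0 ls' ≤ negParisi c α q0 ls + η := by
  have hl := RsbParam.lv h
  have hs := (rest_pos h).le
  set E := fun t => α * negEnergy c q0 (shrinkM t ls) -
    α / 2 * rsbPair (shrinkM t ls) q0 (negOverlap c q0 (shrinkM t ls)) +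
      α * ∑ j ∈ Finset.range (ls.length + 1), |negOverlap c q0 (shrinkM t ls) j - negOverlap c q0 ls j| with hE
  have hcont : ContinuousAt E 1 := by
    have hA : ContinuousAt (fun t => negEnergy c q0 (shrinkM t ls)) 1 := by
      simp only [negEnergy, shrinkM_rest]
      exact (continuousAt_negB hc hl hs).sub
        (((continuousAt_negA hc hl hs).mul continuousAt_const).div_const 2)
    exact ((continuousAt_const.mul hA).sub (continuousAt_const.mul (continuousAt_rsbPair ls q0
      fun j => continuousAt_negOverlap hc h j))).add (continuousAt_const.mul (tendsto_finsetSum _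
        fun j _ => ((continuousAt_negOverlap hc h j).sub continuousAt_const).abs))
  have h1 : E 1 = α * negEnergy c q0 ls - α / 2 * rsbPair ls q0 (negOverlap c q0 ls) := by
    simp [hE, shrinkM_one]
  obtain ⟨t, hE', ht, ht1⟩ := ((hcont.tendsto.eventually_lt_const (lt_add_of_pos_right (E 1) hη)).filter_mono
    nhdsWithin_le_nhds |>.and (Ioo_mem_nhdsLT (zero_lt_one : (0 : ℝ) < 1))).exists
  obtain ⟨hp, hst⟩ := shrinkM_strict ht ht1 h
  refine ⟨_, hp, hst, ?_⟩
  set ε := ∑ j ∈ Finset.range (ls.length + 1), |negOverlap c q0 (shrinkM t ls) j - negOverlap c q0 ls j|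
  have hmon : ∀ {ls' : List (ℝ × ℝ)}, RsbParam q0 ls' → (∀ j < ls'.length,
      α * negOverlap c q0 ls' j ≤ α * negOverlap c q0 ls' (j + 1)) ∧ 0 ≤ α * negOverlap c q0 ls' 0 :=
    fun {ls'} h' => ⟨fun j hj => mul_le_mul_of_nonneg_left (by
        simp only [negOverlap]
        linarith [negInc_succ c hc (RsbParam.lv h') (rest_pos h').le hj]) hα,
      mul_nonneg hα (by
        have : negInc c ls' (rsbRest q0 ls') 0 = 0 := by cases ls' <;> rfl
        rw [negOverlap, this, add_zero]
        exact mul_nonneg (sq_nonneg _) h.1)⟩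
  have hb : ∀ p ∈ shrinkM t ls, 0 < p.1 ∧ p.1 ≤ 1 := fun p hp' => ⟨(hp.2.2.1 p hp').1, (hp.2.2.1 p hp').2.1⟩
  have hsp := spinRoot_close (ls := shrinkM t ls) hp.2.1 hb
    (R := fun j => α * negOverlap c q0 (shrinkM t ls) j) (R' := fun j => α * negOverlap c q0 ls j)
    (hmon h).2 (fun j hj => ⟨(hmon hp).1 j hj, (hmon h).1 j (by rwa [shrinkM_length] at hj)⟩)
    (ε := α * ε) fun j hj => by
      rw [← mul_sub, abs_mul, abs_of_nonneg hα]
      rw [shrinkM_length] at hj
      exact mul_le_mul_of_nonneg_left (Finset.single_le_sum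
        (f := fun j => |negOverlap c q0 (shrinkM t ls) j - negOverlap c q0 ls j|)
        (fun j _ => abs_nonneg _) (Finset.mem_range_succ_iff.2 hj)) hα
  simp only [spinRoot] at hsp
  have hmo : ∫ x, rsbSpin (shrinkM t ls) (fun j => α * negOverlap c q0 ls j)
      (Real.sqrt (α * negOverlap c q0 ls 0) * x) ∂gaussianReal 0 1 ≤
      ∫ x, rsbSpin ls (fun j => α * negOverlap c q0 ls j)
        (Real.sqrt (α * negOverlap c q0 ls 0) * x) ∂gaussianReal 0 1 := by
    obtain ⟨hl1, -⟩ := Low.rsbSpin_props (shrinkM t ls) (fun j => α * negOverlap c q0 ls j) hb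
    obtain ⟨hl2, -⟩ := Low.rsbSpin_props ls (fun j => α * negOverlap c q0 ls j)
      fun p hp' => ⟨(hl p hp').1, (hl p hp').2.1⟩
    exact integral_mono (by simpa using Low.lip_integrable hl1 0 _) (by simpa using Low.lip_integrable hl2 0 _)
      fun x => rsbSpin_shrink_le ht ht1 hl _ _
  rw [h1] at hE'
  simp only [hE, negParisi] at hE' ⊢
  linarith

end Vale.Agent.P166N
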