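import Vale.Agent.P166N.Mixture
import Vale.Agent.P157.Low.Parisi

/-!
The tangent of the energy at an order parameter, and the levels of the mixture: its derivative gives
the conjugate overlaps and its pairing the correction term of Parisi's functional.
-/

namespace Vale.Agent.P166N

open MeasureTheory Set
open Vale.Agent.P157

variable {c α q0 : ℝ} {ls : List (ℝ × ℝ)}

/-- The overlap of a level. -/
def lvl : List (ℝ × ℝ) → ℝ → ℕ → ℝ
  | _, q, 0 => q
  | [], q, _ + 1 => q
  | (_, d) :: ls, q, j + 1 => lvl ls (q + d) j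

lemma lvl_last : ∀ (ls : List (ℝ × ℝ)) (q : ℝ), lvl ls q ls.length = q + (ls.map Prod.snd).sum
  | [], q => by simp [lvl]
  | (m, d) :: ls, q => by simp [lvl, lvl_last ls, add_assoc]

lemma lvl_mem : ∀ {ls : List (ℝ × ℝ)}, Lv ls → ∀ (q : ℝ) (j : ℕ),
    q ≤ lvl ls q j ∧ lvl ls q j ≤ q + (ls.map Prod.snd).sum
  | [], _, q, j => by cases j <;> simp [lvl]
  | (m, d) :: ls, h, q, 0 => by
    have hs : 0 ≤ (ls.map Prod.snd).sum := List.sum_nonneg fun _ hx => by
      obtain ⟨p, hp, rfl⟩ := List.mem_map.1 hx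
      exact (h.tail p hp).2.2
    simp only [lvl, List.map_cons, List.sum_cons]
    exact ⟨le_rfl, by linarith [h.head.2.2]⟩
  | (m, d) :: ls, h, q, j + 1 => by
    obtain ⟨h1, h2⟩ := lvl_mem h.tail (q + d) j
    simp only [lvl, List.map_cons, List.sum_cons]
    exact ⟨by linarith [h.head.2.2], by linarith⟩

/-- The weighted increments of a function along the levels. -/
noncomputable def lvlSum (G : ℝ → ℝ) : List (ℝ × ℝ) → ℝ → ℝ
  | [], _ => 0
  | (m, d) :: ls, q => m * (G (q + d) - G q) + lvlSum G ls (q + d)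

lemma lvlSum_eq (G : ℝ → ℝ) : ∀ (ls : List (ℝ × ℝ)) (q : ℝ),
    lvlSum G ls q = ∑ i : Fin ls.length, (ls.get i).1 * (G (lvl ls q (i + 1)) - G (lvl ls q i))
  | [], q => by simp [lvlSum]
  | (m, d) :: ls, q => by
    simp only [lvlSum, lvlSum_eq G ls, List.length_cons, Fin.sum_univ_succ]
    simp [lvl]

/-- The tail agrees with the mixture above the first level. -/
def Agree (c α q0 : ℝ) (ls0 ls : List (ℝ × ℝ)) (q : ℝ) : Prop :=
  ∀ t ∈ Icc q 1, xi2 c α q0 ls0 t = α / (1 / c + zInt ls q t) ^ 2

variable {ls0 : List (ℝ × ℝ)}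

lemma Agree.tail {m d q : ℝ} (h : Agree c α q0 ls0 ((m, d) :: ls) q) (hd : 0 ≤ d) :
    Agree c α q0 ls0 ls (q + d) := fun t ht => by
  rw [h t ⟨by linarith [ht.1], ht.2⟩, zInt_cons_above hd ht.1]

/-- The derivative of the mixture increases by the increment of the conjugate overlaps. -/
lemma xi1_step (hc : 0 < c) (h0 : RsbParam q0 ls0) {m d q : ℝ} (hl : Lv ((m, d) :: ls))
    (hq : q + (((m, d) :: ls).map Prod.snd).sum ≤ 1) (ha : Agree c α q0 ls0 ((m, d) :: ls) q) :
    let s := 1 - q - (((m, d) :: ls).map Prod.snd).sum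
    xi1 c α q0 ls0 (q + d) - xi1 c α q0 ls0 q = α * (negA c ((m, d) :: ls) s * negA c ls s * d) := by
  intro s
  obtain ⟨hm, -, hd⟩ := hl.head
  have hsd := (lvl_mem hl.tail 0 0).2
  simp only [lvl, zero_add] at hsd
  simp only [List.map_cons, List.sum_cons] at hq
  have hf := continuous_xi2 (α := α) hc h0
  have hs : s = 1 - (q + d) - (ls.map Prod.snd).sum := by
    simp only [s, List.map_cons, List.sum_cons]; ring
  have hs0 : 0 ≤ s := by rw [hs]; linarith
  have hA := (negA_bounds hc hl.tail hs0).1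
  simp only [xi1]
  rw [intervalIntegral.integral_interval_sub_left (hf.intervalIntegrable _ _) (hf.intervalIntegrable _ _)]
  have e : ∫ t in q..q + d, xi2 c α q0 ls0 t =
      ∫ t in q..q + d, α * (1 / (1 / negA c ls s + m * (q + d - t)) ^ 2) :=
    intervalIntegral.integral_congr fun t ht => by
      rw [uIcc_of_le (by linarith)] at ht
      show xi2 c α q0 ls0 t = _
      rw [ha t ⟨ht.1, by linarith [ht.2]⟩, zInt_cons_on hl ht.1 ht.2, mul_one_div]
      congr 2
      rw [inv_negA hc hl.tail hs0, hs]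
      ring
  rw [e, intervalIntegral.integral_const_mul, integral_inv_sq_affine (by linarith) (one_div_pos.2 hA) hm]
  congr 1
  simp only [negA]
  generalize negA c ls s = a at hA
  have hne : 0 < 1 + m * d * a := by positivity
  rw [show 1 / a + m * (q + d - q) = (1 + m * d * a) / a by field_simp; ring]
  field_simp
  ring

/-- The derivative of the mixture at the levels. -/
lemma xi1_levels (hc : 0 < c) (h0 : RsbParam q0 ls0) : ∀ {ls : List (ℝ × ℝ)}, Lv ls → ∀ {q : ℝ},
    q + (ls.map Prod.snd).sum ≤ 1 → Agree c α q0 ls0 ls q → ∀ j, j ≤ ls.length →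
    xi1 c α q0 ls0 (lvl ls q j) =
      xi1 c α q0 ls0 q + α * negInc c ls (1 - q - (ls.map Prod.snd).sum) j
  | [], _, q, _, _, j, hj => by simp [Nat.le_zero.1 hj, lvl, negInc]
  | (m, d) :: ls, hl, q, hq, ha, 0, _ => by simp [lvl, negInc]
  | (m, d) :: ls, hl, q, hq, ha, j + 1, hj => by
    have hq' : q + d + (ls.map Prod.snd).sum ≤ 1 := by
      simp only [List.map_cons, List.sum_cons] at hq; linarith
    have h1 := xi1_levels hc h0 hl.tail hq' (ha.tail hl.head.2.2) j (by simpa using hj)
    have h2 := xi1_step hc h0 hl hq ha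
    simp only [lvl, negInc, List.map_cons, List.sum_cons] at h2 ⊢
    rw [h1, show 1 - (q + d) - (ls.map Prod.snd).sum = 1 - q - (d + (ls.map Prod.snd).sum) by ring]
    linear_combination h2

lemma integral_top (hc : 0 < c) (h0 : RsbParam q0 ls0) {q : ℝ} (hq0 : 0 ≤ q) (hq1 : q ≤ 1) :
    ∫ t in q..1, xi2 c α q0 ls0 t * (1 - max t q) =
      xi c α q0 ls0 1 - xi c α q0 ls0 q - (1 - q) * xi1 c α q0 ls0 q := by
  have hf := continuous_xi2 (α := α) hc h0
  have hi : ∀ a b : ℝ, IntervalIntegrable (fun t => xi2 c α q0 ls0 t * (1 - max t q)) volume a b :=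
    fun a b => (by fun_prop : Continuous fun t => xi2 c α q0 ls0 t * (1 - max t q)).intervalIntegrable a b
  rw [← integral_xi2_point hc h0 hq0 hq1, ← intervalIntegral.integral_add_adjacent_intervals (hi 0 q) (hi q 1)]
  have e : ∫ t in (0 : ℝ)..q, xi2 c α q0 ls0 t * (1 - max t q) =
      ∫ t in (0 : ℝ)..q, xi2 c α q0 ls0 t * (1 - q) :=
    intervalIntegral.integral_congr fun t ht => by
      rw [uIcc_of_le hq0] at ht
      simp only [max_eq_right ht.2]
  rw [e, intervalIntegral.integral_mul_const, xi1]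
  ring

/-- The pairing of the mixture with an integrated distribution function, level by level. -/
lemma pairing_levels (hc : 0 < c) (h0 : RsbParam q0 ls0) : ∀ {ls : List (ℝ × ℝ)}, Lv ls → ∀ {q : ℝ},
    0 ≤ q → q + (ls.map Prod.snd).sum ≤ 1 → Agree c α q0 ls0 ls q → ∀ R : ℕ → ℝ,
    (∀ j, j ≤ ls.length → α * R j = xi1 c α q0 ls0 (lvl ls q j)) →
    (∫ t in q..1, xi2 c α q0 ls0 t * zInt ls q t) + lvlSum (theta c α q0 ls0) ls q -
        (xi c α q0 ls0 1 - xi c α q0 ls0 (q + (ls.map Prod.snd).sum) -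
          (1 - (q + (ls.map Prod.snd).sum)) * xi1 c α q0 ls0 (q + (ls.map Prod.snd).sum)) =
      α * rsbPair ls q R -
        (1 - q - (ls.map Prod.snd).sum + (ls.map fun p => p.1 * p.2).sum) * xi1 c α q0 ls0 q
  | [], _, q, hq0, hq, _, R, hR => by
    simp only [List.map_nil, List.sum_nil, add_zero] at hq
    have h1 := hR 0 le_rfl
    simp only [lvl] at h1
    simp only [zInt, lvlSum, rsbPair, List.map_nil, List.sum_nil, add_zero, sub_zero]
    rw [integral_top hc h0 hq0 hq]
    linear_combination (-(1 - q)) * h1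
  | (m, d) :: ls, hl, q, hq0, hq, ha, R, hR => by
    obtain ⟨hm, -, hd⟩ := hl.head
    have hsd := (lvl_mem hl.tail 0 0).2
    simp only [lvl, zero_add] at hsd
    simp only [List.map_cons, List.sum_cons] at hq ⊢
    have hf := continuous_xi2 (α := α) hc h0
    have ih := pairing_levels hc h0 hl.tail (add_nonneg hq0 hd) (by linarith : q + d + (ls.map Prod.snd).sum ≤ 1)
      (ha.tail hd) (fun j => R (j + 1)) fun j hj => by simpa [lvl] using hR (j + 1) (by simpa using hj)
    have hR0 := hR 0 (Nat.zero_le _)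
    have hR1 := hR 1 (by simp)
    simp only [lvl] at hR0 hR1
    set Z := 1 - (q + d) - (ls.map Prod.snd).sum + (ls.map fun p => p.1 * p.2).sum with hZ
    have hci : ∀ (a b : ℝ) (l : List (ℝ × ℝ)) (r : ℝ), IntervalIntegrable
        (fun t => xi2 c α q0 ls0 t * zInt l r t) volume a b := fun a b l r =>
      (hf.mul (continuous_zInt l r)).intervalIntegrable a b
    have e2 : ∫ t in q + d..1, xi2 c α q0 ls0 t * zInt ((m, d) :: ls) q t =
        ∫ t in q + d..1, xi2 c α q0 ls0 t * zInt ls (q + d) t :=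
      intervalIntegral.integral_congr fun t ht => by
        rw [uIcc_of_le (by linarith)] at ht
        simp only [zInt_cons_above hd ht.1]
    have i1 : ∀ a b : ℝ, IntervalIntegrable (fun t => xi2 c α q0 ls0 t * (q + d - t)) volume a b :=
      fun a b => (by fun_prop : Continuous fun t => xi2 c α q0 ls0 t * (q + d - t)).intervalIntegrable a b
    have e1 : ∫ t in q..q + d, xi2 c α q0 ls0 t * zInt ((m, d) :: ls) q t =
        Z * (xi1 c α q0 ls0 (q + d) - xi1 c α q0 ls0 q) +
          m * (xi c α q0 ls0 (q + d) - xi c α q0 ls0 q - d * xi1 c α q0 ls0 q) := by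
      rw [intervalIntegral.integral_congr
        (g := fun t => Z * xi2 c α q0 ls0 t + m * (xi2 c α q0 ls0 t * (q + d - t))) fun t ht => by
          rw [uIcc_of_le (by linarith)] at ht
          simp only [zInt_cons_on hl ht.1 ht.2, hZ]
          ring]
      rw [intervalIntegral.integral_add ((hf.intervalIntegrable _ _).const_mul Z) ((i1 _ _).const_mul m),
        intervalIntegral.integral_const_mul, intervalIntegral.integral_const_mul,
        ← intervalIntegral.integral_interval_sub_left (hf.intervalIntegrable 0 (q + d)) (hf.intervalIntegrable 0 q),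
        ← intervalIntegral.integral_interval_sub_left (i1 0 (q + d)) (i1 0 q)]
      have e3 : ∫ t in (0 : ℝ)..q, xi2 c α q0 ls0 t * (q + d - t) =
          (∫ t in (0 : ℝ)..q, xi2 c α q0 ls0 t * (q - t)) + (∫ t in (0 : ℝ)..q, xi2 c α q0 ls0 t) * d := by
        rw [← intervalIntegral.integral_mul_const, ← intervalIntegral.integral_add
          ((by fun_prop : Continuous fun t => xi2 c α q0 ls0 t * (q - t)).intervalIntegrable _ _)
          ((hf.intervalIntegrable _ _).mul_const d)]
        exact intervalIntegral.integral_congr fun t _ => by ring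
      rw [e3, ← xi_of_mem hc h0 (add_nonneg hq0 hd) (by linarith : q + d ≤ 1),
        ← xi_of_mem hc h0 hq0 (by linarith : q ≤ 1)]
      simp only [xi1]
      ring
    rw [← intervalIntegral.integral_add_adjacent_intervals (hci q (q + d) _ _) (hci (q + d) 1 _ _), e1, e2]
    rw [show q + (d + (ls.map Prod.snd).sum) = q + d + (ls.map Prod.snd).sum by ring]
    simp only [lvlSum, rsbPair, theta] at ih ⊢
    linear_combination ih - m * (q + d) * hR1 + m * q * hR0

/-- The derivative of the mixture at the levels is the rate times the conjugate overlaps. -/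
theorem xi1_eq_overlap (hc : 0 < c) (h : RsbParam q0 ls) {j : ℕ} (hj : j ≤ ls.length) :
    xi1 c α q0 ls (lvl ls q0 j) = α * negOverlap c q0 ls j := by
  have hl := RsbParam.lv h
  have hag : Agree c α q0 ls ls q0 := fun t ht => xi2_eq (h.1.trans ht.1) ht.2
  rw [xi1_levels hc h hl h.2.2.2.le hag j hj, negOverlap]
  have hsd := (lvl_mem hl 0 0).2
  simp only [lvl, zero_add] at hsd
  have hq1 : q0 ≤ 1 := by linarith [h.2.2.2]
  have e : xi1 c α q0 ls q0 = α * (negA c ls (rsbRest q0 ls) ^ 2 * q0) := by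
    have hs := (rest_pos h).le
    rw [xi1, intervalIntegral.integral_congr (g := fun _ => α * negA c ls (rsbRest q0 ls) ^ 2) fun t ht => by
      rw [uIcc_of_le h.1] at ht
      show xi2 c α q0 ls t = _
      rw [xi2_eq ht.1 (ht.2.trans hq1), zInt_below hl ht.2,
        show 1 / c + (1 - q0 - (ls.map Prod.snd).sum + (ls.map fun p => p.1 * p.2).sum) =
          1 / negA c ls (rsbRest q0 ls) by rw [inv_negA hc hl hs, rsbRest]; ring,
        one_div, inv_pow, div_inv_eq_mul]]
    simp only [intervalIntegral.integral_const, smul_eq_mul, sub_zero]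
    ring
  rw [e, rsbRest]
  ring

/-- The correction term of Parisi's functional from the tangent. -/
theorem gainC_algebra (hc : 0 < c) (h : RsbParam q0 ls) :
    gainC c α q0 ls + (xi c α q0 ls 1 - xi1 c α q0 ls (q0 + (ls.map Prod.snd).sum) +
        theta c α q0 ls (q0 + (ls.map Prod.snd).sum)) / 2 - lvlSum (theta c α q0 ls) ls q0 / 2 =
      α * negEnergy c q0 ls - α / 2 * rsbPair ls q0 (negOverlap c q0 ls) := by
  have hl := RsbParam.lv h
  have hag : Agree c α q0 ls ls q0 := fun t ht => xi2_eq (h.1.trans ht.1) ht.2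
  have key := pairing_levels hc h hl h.1 h.2.2.2.le hag (negOverlap c q0 ls)
    fun j hj => (xi1_eq_overlap hc h hj).symm
  have hsd := (lvl_mem hl 0 0).2
  simp only [lvl, zero_add] at hsd
  have hq1 : q0 ≤ 1 := by linarith [h.2.2.2]
  have hci : ∀ a b : ℝ, IntervalIntegrable (fun t => xi2 c α q0 ls t * zInt ls q0 t) volume a b :=
    fun a b => ((continuous_xi2 hc h).mul (continuous_zInt ls q0)).intervalIntegrable a b
  have e : ∫ t in (0 : ℝ)..q0, xi2 c α q0 ls t * zInt ls q0 t =
      (1 - q0 - (ls.map Prod.snd).sum + (ls.map fun p => p.1 * p.2).sum) * xi1 c α q0 ls q0 := by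
    rw [xi1, ← intervalIntegral.integral_const_mul]
    refine intervalIntegral.integral_congr fun t ht => ?_
    rw [uIcc_of_le h.1] at ht
    simp only [zInt_below hl ht.2]
    ring
  rw [gainC, ← intervalIntegral.integral_add_adjacent_intervals (hci 0 q0) (hci q0 1), e, theta]
  linear_combination (-(1 : ℝ) / 2) * key

/-- The energy lies below its tangent at an order parameter. -/
theorem energy_le_tangent (hc : 0 < c) (hα : 0 ≤ α) (h : RsbParam q0 ls) {q1 : ℝ}
    {ls1 : List (ℝ × ℝ)} (h1 : RsbParam q1 ls1) :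
    α * negEnergy c q1 ls1 ≤
      gainC c α q0 ls + (∫ t in (0 : ℝ)..1, xi2 c α q0 ls t * zInt ls1 q1 t) / 2 := by
  have hpos : ∀ {q : ℝ} {l : List (ℝ × ℝ)}, RsbParam q l → ∀ t ∈ Icc (0 : ℝ) 1,
      0 < 1 / c + zInt l q t := fun {q l} hl t ht =>
    add_pos_of_pos_of_nonneg (one_div_pos.2 hc) (zInt_nonneg (RsbParam.lv hl) hl.2.2.2.le ht.2)
  have hcont : ∀ {q : ℝ} {l : List (ℝ × ℝ)}, RsbParam q l →
      IntervalIntegrable (fun t => 1 / (1 / c + zInt l q t)) volume 0 1 := fun {q l} hl => by
    refine (continuousOn_const.div (continuous_const.add (continuous_zInt l q)).continuousOn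
      fun t ht => ?_).intervalIntegrable
    rw [uIcc_of_le zero_le_one] at ht
    exact (hpos hl t ht).ne'
  have hf := continuous_xi2 (α := α) hc h
  have hi : ∀ (l : List (ℝ × ℝ)) (q : ℝ),
      IntervalIntegrable (fun t => xi2 c α q0 ls t * zInt l q t) volume 0 1 := fun l q =>
    (hf.mul (continuous_zInt l q)).intervalIntegrable _ _
  have key : ∀ t ∈ Icc (0 : ℝ) 1, α * (1 / (1 / c + zInt ls q0 t)) -
      α * (1 / (1 / c + zInt ls1 q1 t)) ≤
      xi2 c α q0 ls t * zInt ls1 q1 t - xi2 c α q0 ls t * zInt ls q0 t := fun t ht => by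
    have u0 := hpos h t ht
    have u1 := hpos h1 t ht
    rw [xi2_eq ht.1 ht.2, ← mul_sub, ← mul_sub, div_mul_eq_mul_div,
      show α * (zInt ls1 q1 t - zInt ls q0 t) / (1 / c + zInt ls q0 t) ^ 2 =
        α * ((zInt ls1 q1 t - zInt ls q0 t) / (1 / c + zInt ls q0 t) ^ 2) by ring]
    refine mul_le_mul_of_nonneg_left ?_ hα
    generalize hw : 1 / c + zInt ls q0 t = u at u0
    generalize hw1 : 1 / c + zInt ls1 q1 t = v at u1
    have e : zInt ls1 q1 t - zInt ls q0 t = v - u := by rw [← hw, ← hw1]; ring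
    rw [e, one_div, one_div, inv_sub_inv u0.ne' u1.ne', div_le_div_iff₀ (mul_pos u0 u1) (pow_pos u0 2)]
    nlinarith [mul_nonneg u0.le (sq_nonneg (v - u))]
  have hint := intervalIntegral.integral_mono_on zero_le_one
    (((hcont h).const_mul α).sub ((hcont h1).const_mul α)) ((hi ls1 q1).sub (hi ls q0)) key
  rw [intervalIntegral.integral_sub ((hcont h).const_mul α) ((hcont h1).const_mul α),
    intervalIntegral.integral_sub (hi ls1 q1) (hi ls q0), intervalIntegral.integral_const_mul,
    intervalIntegral.integral_const_mul] at hint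
  simp only [gainC, negEnergy_eq_integral hc h, negEnergy_eq_integral hc h1]
  linarith

/-- The integrated distribution function of levels as an average over the levels. -/
lemma zInt_levels : ∀ (r : ℕ) (m q : Fin (r + 1) → ℝ) (t : ℝ),
    ∑ j : Fin (r + 1), ((if h : (j : ℕ) + 1 ≤ r then m ⟨(j : ℕ) + 1, by omega⟩ else 1) - m j) *
        (1 - max t (q j)) =
      zInt (Low.levels m q) (q 0) t - m 0 * (1 - max t (q 0))
  | 0, m, q, t => by
    simp [Low.levels, zInt]
    ring
  | r + 1, m, q, t => by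
    have ih := zInt_levels r (fun i => m i.succ) (fun i => q i.succ) t
    have el : Low.levels m q = (m (Fin.succ 0), Low.incr q (Fin.succ 0)) ::
        Low.levels (fun i => m i.succ) (fun i => q i.succ) := by
      rw [Low.levels, List.ofFn_succ]
      simp only [Low.levels, Low.incr_succ, Fin.succ_castSucc]
    rw [Fin.sum_univ_succ, el]
    simp only [zInt, Low.incr_succ, Fin.castSucc_zero, add_sub_cancel, Fin.val_zero, Fin.val_succ,
      zero_add, Nat.add_le_add_iff_right, Nat.le_add_left, dite_true]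
    rw [show (⟨1, by omega⟩ : Fin (r + 1 + 1)) = Fin.succ 0 from Fin.ext (by simp)]
    simp only [Fin.succ_mk] at ih
    rw [ih]
    ring

end Vale.Agent.P166N
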