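import Vale.Agent.P166N.PotBounds
import Vale.Agent.P166N.MixtureLevels
import Vale.Agent.P157.Low.Cavity

/-!
The gain of one pattern in a system with the Ghirlanda-Guerra identities is at most linear in the
mixture of any order parameter, by the concavity of the R-transform.
-/

namespace Vale.Agent.P166N

open MeasureTheory ProbabilityTheory Filter
open Vale.Agent.P157
open scoped Topology

variable {c δ α : ℝ}

lemma bd_gauss {k : ℝ} (hk : 0 < k) : ∀ (n : ℕ) (p : Polynomial ℝ),
    Low.BD n fun s => p.eval s * Real.exp (-(k * s ^ 2 / 2))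
  | n, p => by
    obtain ⟨C, hC0, hC⟩ := Low.abs_eval_le p
    have hb : ∀ s, |p.eval s * Real.exp (-(k * s ^ 2 / 2))| ≤ C * Real.exp (1 / (2 * k)) := fun s => by
      rw [abs_mul, Real.abs_exp]
      refine (mul_le_mul_of_nonneg_right (hC s) (Real.exp_pos _).le).trans ?_
      rw [mul_assoc, ← Real.exp_add]
      refine mul_le_mul_of_nonneg_left (Real.exp_le_exp.2 ?_) hC0
      rw [le_div_iff₀ (by positivity)]
      have e : (k * |s| - 1) ^ 2 = k ^ 2 * s ^ 2 - 2 * k * |s| + 1 := by rw [← sq_abs s]; ring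
      nlinarith [sq_nonneg (k * |s| - 1)]
    cases n with
    | zero => exact ⟨by fun_prop, _, hb⟩
    | succ n =>
      have hd : ∀ s, HasDerivAt (fun s => p.eval s * Real.exp (-(k * s ^ 2 / 2)))
          ((p.derivative - Polynomial.C k * Polynomial.X * p).eval s * Real.exp (-(k * s ^ 2 / 2))) s :=
        fun s => by
          refine ((p.hasDerivAt s).mul ((((hasDerivAt_pow 2 s).const_mul k).div_const 2).neg.exp)).congr_deriv ?_
          simp only [Polynomial.eval_sub, Polynomial.eval_mul, Polynomial.eval_C, Polynomial.eval_X,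
            Nat.cast_ofNat]
          simp
          ring
      refine ⟨fun s => (hd s).differentiableAt, ⟨_, hb⟩, ?_⟩
      rw [funext fun s => (hd s).deriv]
      exact bd_gauss hk n _

lemma weight_wD (hc : 0 < c) (hδ : 0 < δ) (hδ1 : δ < 1) : Low.Weight 1 (wD c δ) := by
  have h : Low.BD 5 (wD c δ) := by
    have h1 := (Low.BD.const (n := 5) δ).add ((Low.BD.const (n := 5) (1 - δ)).mul (bd_gauss hc 5 1))
    show Low.BD 5 fun s => δ + (1 - δ) * Real.exp (fQ c s)
    simpa [fQ] using h1
  have hs : Low.Smf (wD c δ) := Low.BD.smf h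
  obtain ⟨C, hC⟩ := hs.bdd
  refine ⟨⟨hs.smooth.of_le (by norm_num), C, fun k hk x => hC k (by omega) x⟩, one_pos, 1 - δ,
    by linarith, fun y => ?_⟩
  obtain ⟨h1, h2, -⟩ := wD_bounds hc hδ hδ1 y
  rw [div_one, abs_of_nonneg (by linarith)]
  linarith

/-- The log-average of the regularised weight in an array is below the tangent. -/
theorem logArr_le_tangent (hc : 0 < c) (hδ : 0 < δ) (hδ1 : δ < 1) (hα : 0 < α) {q0 : ℝ}
    {ls : List (ℝ × ℝ)} (h : RsbParam q0 ls) (A : Low.Arr) :
    α * Low.logArr A 1 (wD c δ) ≤ gainC c α q0 ls + α * errD c δ +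
      (xi c α q0 ls 1 - ∫ R, xi c α q0 ls (R 0 1) ∂A.law 2) / 2 := by
  have hW := weight_wD hc hδ hδ1
  set D : ∀ K, Low.Discr A (K + 2) := fun K => (A.exists_discr (Nat.le_add_left 2 K)).some
  have hxc := continuous_xi (α := α) hc h
  obtain ⟨B, hB⟩ := xi_bdd (α := α) hc h
  have h1 := (Low.tendsto_logVal D hW).const_mul α
  have h2 := Low.tendsto_discr D (H := fun R : Low.Mat 2 => xi c α q0 ls (R 0 1)) (hxc.comp (by fun_prop))
    fun R => hB _
  refine le_of_tendsto_of_tendsto h1
    (((tendsto_const_nhds (x := xi c α q0 ls 1)).sub h2).div_const 2 |>.const_add _)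
    (Eventually.of_forall fun K => ?_)
  set E := D K
  have hl : Low.LevelParam E.C.cdf E.q := E.levelParam (by omega)
  have hp := hl.rsbParam
  have hval : E.C.logVal (Low.incr E.q) 1 (Low.heat (wD c δ) E.rest) =
      rsbEnergy (fD c δ) (E.q 0) (Low.levels E.C.cdf E.q) := by
    rw [Low.Casc.logVal_eq _ E.incr_nonneg (hW.heat E.rest), Low.potUp_root hl.ne hl.zero,
      Low.incr_zero, rsbEnergy, hl.rsbRest_eq, Low.levels_eq]
    refine integral_congr_ae (Eventually.of_forall fun z => ?_)
    have htop : (fun y => Real.log (Low.heat (wD c δ) E.rest y)) =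
        rsbPot (fD c δ) [] (1 - E.q (Fin.last E.r)) := by
      rw [← Low.rsbPot_nil]
      funext y
      simp only [Low.topW, Low.Discr.rest]
      rw [show (fun x => Real.exp (fD c δ x)) = wD c δ from funext (exp_fD hc hδ hδ1)]
    simp only [htop]
    exact (Low.rsbPot_eq _ _).symm
  have hen := (energy_bounds hc hδ hδ1 hp).2
  have htan := energy_le_tangent hc hα.le h hp
  have hlin : ∫ t in (0 : ℝ)..1, xi2 c α q0 ls t * zInt (Low.levels E.C.cdf E.q) (E.q 0) t =
      xi c α q0 ls 1 - ∑ B, E.C.P 2 B * xi c α q0 ls (E.q (B 0 1)) := by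
    have hone : ∑ j : Fin (E.r + 1), (Low.mNext E.C.cdf j - E.C.cdf j) = 1 := by
      have := E.C.sum_pair fun _ => (1 : ℝ)
      simpa [E.C.total] using this.symm
    have hz : ∀ t, zInt (Low.levels E.C.cdf E.q) (E.q 0) t =
        ∑ j : Fin (E.r + 1), (Low.mNext E.C.cdf j - E.C.cdf j) * (1 - max t (E.q j)) := fun t => by
      have := zInt_levels E.r E.C.cdf E.q t
      rw [hl.zero, zero_mul, sub_zero] at this
      exact this.symm
    simp only [hz, Finset.mul_sum, mul_left_comm (xi2 c α q0 ls _)]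
    have hcx := continuous_xi2 (α := α) hc h
    rw [intervalIntegral.integral_finsetSum fun j _ =>
      (by fun_prop : Continuous fun t => (Low.mNext E.C.cdf j - E.C.cdf j) *
        (xi2 c α q0 ls t * (1 - max t (E.q j)))).intervalIntegrable _ _]
    simp only [intervalIntegral.integral_const_mul]
    rw [Finset.sum_congr rfl fun j _ => by
      rw [integral_xi2_point hc h (hl.rangeq j).1 (hl.rangeq j).2.le, mul_sub]]
    rw [Finset.sum_sub_distrib, ← Finset.sum_mul, hone, one_mul,
      E.C.sum_pair fun j => xi c α q0 ls (E.q j)]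
  simp only [Low.qmat, show ((0 : Fin 2) = 1) = False from eq_false (by decide), if_false]
  rw [hval]
  have := mul_le_mul_of_nonneg_left hen hα.le
  linarith

/-- The gain bound of every order parameter. -/
theorem gainBound_of_param (hc : 0 < c) (hδ : 0 < δ) (hδ1 : δ < 1) (hα : 0 < α) {q0 : ℝ}
    {ls : List (ℝ × ℝ)} (h : RsbParam q0 ls) :
    GainBound c δ α (xi c α q0 ls) (gainC c α q0 ls + α * errD c δ) := by
  intro η hη
  by_contra hcon
  push Not at hcon
  have hex := fun j : ℕ => hcon j (1 / ((j : ℝ) + 1)) (by positivity)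
  choose Ns Ss us hus hus1 hgram ss hss xs hxs herr hbad using hex
  set T : ℕ → Low.Sys := fun j => (Ss j).perturb (us j) (hus j) (hus1 j) (ss j) (xs j)
  obtain ⟨φ, hφ, A, hA⟩ := Low.exists_conv T (fun p n l Φ hΦ hΦb => by
    obtain ⟨D, hD⟩ := hΦb
    refine squeeze_zero_norm' ?_
      (by simpa using (tendsto_one_div_add_atTop_nhds_zero_nat (𝕜 := ℝ)).const_mul |D|)
    filter_upwards [eventually_gt_atTop p] with j hj
    rw [Real.norm_eq_abs]
    refine (Low.gg_defect_le (Ss j) (us j) (hus j) (hus1 j) (hgram j) (hss j) (hxs j) ⟨p, hj⟩ l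
      hΦ.measurable (fun R => (hD R).trans (le_abs_self D))).trans ?_
    refine mul_le_mul_of_nonneg_left ?_ (abs_nonneg D)
    exact (Finset.single_le_sum (fun q _ => Low.ggErr_nonneg (Ss j) (us j) (hus j) (hus1 j) (hss j).le (xs j) q)
      (Finset.mem_univ (⟨p, hj⟩ : Fin j))).trans (by simpa [one_div] using herr j))
  obtain ⟨B, hB⟩ := xi_bdd (α := α) hc h
  have hg := (hA.logGain (weight_wD hc hδ hδ1)).const_mul α
  have he := hA 2 (fun R : Low.Mat 2 => xi c α q0 ls (R 0 1))
    ((continuous_xi hc h).comp (by fun_prop)) ⟨B, fun R => hB _⟩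
  have hlim := le_of_tendsto_of_tendsto ((((tendsto_const_nhds (x := xi c α q0 ls 1)).sub he).div_const 2
    |>.const_add (gainC c α q0 ls + α * errD c δ)).add_const η) hg
    (Eventually.of_forall fun j => (hbad (φ j)).le)
  linarith [logArr_le_tangent hc hδ hδ1 hα h A]

end Vale.Agent.P166N
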