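import Vale.Agent.P166N.InterpEnds
import Vale.Agent.P157.Model
import Vale.Agent.P157.Low.GG

/-!
The interpolation between the perceptron and trees of fields, and the comparison of two families
of fields with close covariances.
-/

namespace Vale.Agent.P166N

open MeasureTheory ProbabilityTheory Filter
open Vale.Agent.P157
open scoped Topology RealInnerProductSpace

section generic

variable {L : Type} [MeasurableSpace L] [MeasurableSingletonClass L] [Fintype L]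

/-- Weights as a probability law. -/
lemma exists_leafLaw {ρ : L → ℝ} (hρ : ∀ l, 0 < ρ l) (hρ1 : ∑ l, ρ l = 1) :
    ∃ μ : Measure L, IsProbabilityMeasure μ ∧ ∀ F : L → ℝ, ∫ l, F l ∂μ = ∑ l, ρ l * F l := by
  have hs : ∑ l, ENNReal.ofReal (ρ l) = 1 := by
    rw [← ENNReal.ofReal_sum_of_nonneg fun l _ => (hρ l).le, hρ1, ENNReal.ofReal_one]
  refine ⟨(PMF.ofFintype _ hs).toMeasure, inferInstance, fun F => ?_⟩
  rw [PMF.integral_eq_sum]
  refine Finset.sum_congr rfl fun l _ => ?_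
  rw [PMF.ofFintype_apply, ENNReal.toReal_ofReal (hρ l).le, smul_eq_mul]

/-- One side of the comparison of two families of fields. -/
lemma leafVal_close_aux {I I' : Type} [Fintype I] [Fintype I'] (μL : Measure L)
    [IsProbabilityMeasure μL] {ρ : L → ℝ} (hμ : ∀ F : L → ℝ, ∫ l, F l ∂μL = ∑ l, ρ l * F l)
    (ah : L → I → ℝ) (ah' : L → I' → ℝ) {ε : ℝ}
    (h : ∀ l l', |∑ i, ah l i * ah l' i - ∑ i, ah' l i * ah' l' i| ≤ ε) :
    leafVal 1 ah' (spinG 1) ρ - leafVal 1 ah (spinG 1) ρ ≤ ε := by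
  set A := joinA (spinA 0 ah) (spinA 0 ah')
  set μX := (cubeMeasure (0 + 1)).prod μL
  set Φ : ℝ → ℝ := fun t => Low.elz μX (ifld A (1 - t) t) fun _ => 1
  set l0 := ∑ y, ‖A y‖ with hl0
  set K := 2 * expK (EuclideanSpace ℝ ((I × Fin (0 + 1)) ⊕ (I' × Fin (0 + 1)))) * l0 ^ 3
  have hA : ∀ y, ‖A y‖ ≤ l0 := norm_le_sum A
  have hs : ∀ a b : Conf 0 L, |∑ i, sgn (a.1 i) * sgn (b.1 i)| ≤ 1 := fun a b => by
    have e : ∑ i, sgn (a.1 i) * sgn (b.1 i) = sgn (a.1 0) * sgn (b.1 0) := Fin.sum_univ_one _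
    rw [e]
    cases a.1 0 <;> cases b.1 0 <;> simp [sgn]
  have hov : ∀ a b : Conf 0 L, |ovL A a b - ovR A a b| ≤ ε := fun a b => by
    rw [(ovL_join _ _ a b).1, (ovL_join _ _ a b).2, sum_spinA, sum_spinA, ← mul_sub, abs_mul]
    exact (mul_le_of_le_one_left (abs_nonneg _) (hs a b)).trans (h a.2 b.2)
  have e1 : Φ 1 = leafVal 1 ah' (spinG 1) ρ := by
    simp only [Φ, sub_self]
    exact (elz_join_right μL _ _ Wt.one).trans (elz_spinA μL hμ ah')
  have e0 : Φ 0 = leafVal 1 ah (spinG 1) ρ := by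
    simp only [Φ, sub_zero]
    exact (elz_join_left μL _ _ Wt.one).trans (elz_spinA μL hμ ah)
  rw [← e1, ← e0]
  refine le_of_forall_steps (m₀ := ⌈4 * l0 ^ 2⌉₊ + 1) (K := K) fun m hm => ?_
  have hl0n : 0 ≤ l0 := Finset.sum_nonneg fun y _ => norm_nonneg _
  have hm1 : (1 : ℝ) ≤ m := by exact_mod_cast (by omega : 1 ≤ m)
  have hm4 : 4 * l0 ^ 2 ≤ m := (Nat.le_ceil _).trans (by exact_mod_cast (by omega : ⌈4 * l0 ^ 2⌉₊ ≤ m))
  set p : ℝ := 1 / m with hp
  have hp0 : 0 ≤ p := by positivity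
  have hsq : Real.sqrt p * l0 ≤ 1 / 2 := by
    have h1 : (Real.sqrt p * l0) ^ 2 ≤ (1 / 2) ^ 2 := by
      rw [mul_pow, Real.sq_sqrt hp0, hp, one_div_mul_eq_div, div_le_iff₀ (by linarith)]
      linarith
    exact (pow_le_pow_iff_left₀ (by positivity) (by norm_num) two_ne_zero).1 h1
  have hstep : ∀ j ∈ Finset.range m, Φ (((j + 1 : ℕ) : ℝ) / m) - Φ ((j : ℝ) / m) ≤
      p * ε + K * (p * Real.sqrt p) := fun j hj => by
    have hj' : ((j : ℝ) + 1) ≤ m := by exact_mod_cast Finset.mem_range.1 hj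
    have ht : ((j + 1 : ℕ) : ℝ) / m = (j : ℝ) / m + p := by rw [hp]; push_cast; ring
    have htp : (j : ℝ) / m + p ≤ 1 := by
      rw [hp, ← add_div, div_le_one (by linarith)]; exact hj'
    rw [ht]
    refine (gauss_step (μ := μX) (A := A) (w := fun _ => 1) Wt.one (d := ε) (fun y => ?_)
      (Θ := fun _ _ => ε) (fun a b => (le_abs_self _).trans (hov a b)) hA (by positivity) hp0 htp
      hsq).trans (le_of_eq ?_)
    · linarith [(abs_le.1 (hov y y)).1]
    · have hwt : ∀ g, Wt fun y : Conf 0 L => (1 : ℝ) * Real.exp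
          ⟪g, Low.cmul (scale2 (I × Fin (0 + 1)) (I' × Fin (0 + 1))
            (1 - ((j : ℝ) / m + p)) ((j : ℝ) / m)) (A y)⟫ := fun g =>
        wt_of_finite fun y => mul_pos one_pos (Real.exp_pos _)
      have e : ∀ g, pairAvg μX (fun _ => 1) (scale2 (I × Fin (0 + 1)) (I' × Fin (0 + 1))
          (1 - ((j : ℝ) / m + p)) ((j : ℝ) / m)) A (fun _ _ => ε) g = ε := fun g => by
        have := isProbabilityMeasure_gibbs (μ := μX) (hwt g)
        simp only [pairAvg, integral_const, probReal_univ, one_smul]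
      simp only [e, integral_const, probReal_univ, one_smul, K, mul_pow]
      rw [pow_succ (Real.sqrt p) 2, Real.sq_sqrt hp0]
      ring
  have htel := Finset.sum_range_sub (fun j : ℕ => Φ ((j : ℝ) / m)) m
  have h1 := Finset.sum_le_sum hstep
  rw [htel, Finset.sum_const, Finset.card_range, nsmul_eq_mul, div_self (by linarith),
    Nat.cast_zero, zero_div] at h1
  have e : (m : ℝ) * (p * ε + K * (p * Real.sqrt p)) = ε + K / Real.sqrt m := by
    rw [hp, Real.sqrt_div zero_le_one, Real.sqrt_one]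
    field_simp
  linarith

/-- The constant of one step. -/
noncomputable def stepK (N : ℕ) (B α l0 : ℝ) (κ : Type) [Fintype κ] : ℝ :=
  2 * expK (EuclideanSpace ℝ κ) * l0 ^ 3 + (α * N) ^ 2 * B + α * N * l0 ^ 2 / 2

variable {f : ℝ → ℝ} {B : ℝ} {n P : ℕ} {κ κ' : Type} [Fintype κ] [Fintype κ']
  {A : Conf n L → EuclideanSpace ℝ (κ ⊕ κ')}

/-- The expectation is linear. -/
lemma iSys_expect_const_mul (hf : Pot f B) (μL : Measure L) [IsProbabilityMeasure μL]
    (U : Conf n L → EuclideanSpace ℝ (κ ⊕ κ')) (lam : ℝ) (x : Fin P → ℝ) (c : ℝ) (Φ : ℝ → ℝ) :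
    ((iSys hf μL U lam 0 x).expect fun R : Low.Mat 2 => c * Φ (R 0 1)) =
      c * (iSys hf μL U lam 0 x).expect fun R : Low.Mat 2 => Φ (R 0 1) := by
  rw [iSys_expect hf μL U lam x (fun r => c * Φ r), iSys_expect hf μL U lam x Φ, ← integral_const_mul]
  exact integral_congr_ae (Eventually.of_forall fun z => integral_const_mul _ _)

/-- One step of the interpolation. -/
lemma interp_step (hf : Pot f B) (hf0 : ∀ s, f s ≤ 0) (μL : Measure L) [IsProbabilityMeasure μL]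
    (x : Fin P → ℝ) {l0 dd α : ℝ} {Ξ : ℝ → ℝ} (hα : 0 ≤ α) (hA : ∀ y, ‖A y‖ ≤ l0)
    (hd : ∀ y, ovR A y y - ovL A y y ≤ ((n : ℝ) + 1) * dd)
    (hΞ : ∀ a b, ovL A a b - ovR A a b ≤ ((n : ℝ) + 1) * Ξ ⟪cub a, cub b⟫)
    {t p : ℝ} (ht : 0 ≤ t) (hp : 0 ≤ p) (htp : t + p ≤ 1) (hsmall : Real.sqrt p * l0 ≤ 1 / 2) :
    (iSys hf μL (ifld A (1 - (t + p)) (t + p)) (α * ((n : ℝ) + 1) * (t + p)) 0 x).free -
        (iSys hf μL (ifld A (1 - t) t) (α * ((n : ℝ) + 1) * t) 0 x).free ≤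
      p * ((n : ℝ) + 1) *
        (α * (iSys hf μL (ifld A (1 - (t + p)) t) (α * ((n : ℝ) + 1) * t) 0 x).logGain (Low.expW f) +
          (dd + (iSys hf μL (ifld A (1 - (t + p)) t) (α * ((n : ℝ) + 1) * t) 0 x).expect
            fun R : Low.Mat 2 => Ξ (R 0 1)) / 2) +
        p * Real.sqrt p * stepK (n + 1) B α l0 (κ ⊕ κ') := by
  set N : ℝ := (n : ℝ) + 1 with hN
  have hN0 : 0 ≤ N := by positivity
  set lam := α * N * t
  set μ := α * N * p
  have hl : 0 ≤ lam := by positivity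
  have hμ : 0 ≤ μ := by positivity
  rw [show α * N * (t + p) = lam + μ by ring]
  have h1 := iSys_free_add_le hf μL (ifld A (1 - (t + p)) (t + p)) x hf0 hl hμ
  obtain ⟨g0, g0'⟩ := iSys_free_grow hf μL lam 0 x hA (by linarith : 0 ≤ 1 - (t + p)) ht hp
  obtain ⟨g1, g1'⟩ := iSys_free_grow hf μL lam 1 x hA (by linarith : 0 ≤ 1 - (t + p)) ht hp
  have h2 := iSys_gauss_step hf μL lam x hA hd (Φ := fun r => N * Ξ r) hΞ ht hp htp hsmall
  rw [iSys_expect_const_mul] at h2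
  rw [iSys_logGain]
  set G := (iSys hf μL (ifld A (1 - (t + p)) t) lam 1 x).free -
    (iSys hf μL (ifld A (1 - (t + p)) t) lam 0 x).free with hG
  have hG0 : G ≤ 0 := by
    have := iSys_free_antitone hf μL (ifld A (1 - (t + p)) t) lam x hf0 zero_le_one
    simp only at this
    linarith
  have hGB : -B ≤ G := (abs_le.1 (abs_iSys_gain_le hf μL (ifld A (1 - (t + p)) t) lam x)).1
  set G' := (iSys hf μL (ifld A (1 - (t + p)) (t + p)) lam 1 x).free -
    (iSys hf μL (ifld A (1 - (t + p)) (t + p)) lam 0 x).free with hG'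
  set q := 1 - Real.exp (-μ) with hq
  have hq0 : 0 ≤ q := by
    have := Real.exp_le_one_iff.2 (by linarith : -μ ≤ 0)
    linarith
  have hq1 : q ≤ μ := by linarith [Real.add_one_le_exp (-μ)]
  have hq2 : μ - μ ^ 2 ≤ q := by
    have h3 : Real.exp (-μ) * (μ + 1) ≤ 1 := by
      refine (mul_le_mul_of_nonneg_left (Real.add_one_le_exp μ) (Real.exp_pos _).le).trans_eq ?_
      rw [← Real.exp_add, neg_add_cancel, Real.exp_zero]
    nlinarith [mul_nonneg hμ hμ, mul_nonneg (mul_nonneg hμ hμ) hμ, Real.exp_pos (-μ)]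
  have hGG : G' ≤ G + (Real.sqrt p * l0) ^ 2 / 2 := by linarith
  have h4 : q * G' ≤ μ * G + μ ^ 2 * B + μ * ((Real.sqrt p * l0) ^ 2 / 2) := by
    have a1 := mul_le_mul_of_nonneg_left hGG hq0
    have a2 := mul_le_mul_of_nonpos_right hq2 hG0
    have a3 := mul_le_mul_of_nonneg_right hq1 (by positivity : (0 : ℝ) ≤ (Real.sqrt p * l0) ^ 2 / 2)
    have a4 := mul_le_mul_of_nonneg_left hGB (sq_nonneg μ)
    nlinarith
  set K := expK (EuclideanSpace ℝ (κ ⊕ κ'))
  set E2 := (iSys hf μL (ifld A (1 - (t + p)) t) lam 0 x).expect fun R : Low.Mat 2 => Ξ (R 0 1)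
  have hsp : Real.sqrt p ^ 2 = p := Real.sq_sqrt hp
  have h5 : 2 * K * (Real.sqrt p * l0) ^ 3 + μ ^ 2 * B + μ * ((Real.sqrt p * l0) ^ 2 / 2) ≤
      p * Real.sqrt p * stepK (n + 1) B α l0 (κ ⊕ κ') := by
    have hps : p ≤ Real.sqrt p := Real.le_sqrt_of_sq_le (by nlinarith)
    have e3 : (Real.sqrt p * l0) ^ 3 = p * Real.sqrt p * l0 ^ 3 := by
      rw [mul_pow, pow_succ (Real.sqrt p) 2, hsp]
    have hpp : p ^ 2 ≤ p * Real.sqrt p := by
      rw [sq]; exact mul_le_mul_of_nonneg_left hps hp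
    have c1 := mul_le_mul_of_nonneg_right hpp (by have := hf.nonneg; positivity : 0 ≤ (α * N) ^ 2 * B)
    have c2 := mul_le_mul_of_nonneg_right hpp (by positivity : 0 ≤ α * N * l0 ^ 2 / 2)
    simp only [stepK, μ, e3, mul_pow (Real.sqrt p), hsp]
    push_cast
    rw [← hN]
    linarith
  have h6 : p / 2 * (N * dd + N * E2) + μ * G = p * N * (α * G + (dd + E2) / 2) := by
    simp only [μ]; ring
  linarith

end generic

section setting

variable {c δ : ℝ}

lemma wD_range (hc : 0 ≤ c) (hδ1 : δ ≤ 1) (s : ℝ) : δ ≤ wD c δ s ∧ wD c δ s ≤ 1 := by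
  have h1 : Real.exp (fQ c s) ≤ 1 := Real.exp_le_one_iff.2 (by
    unfold fQ
    have := mul_nonneg hc (sq_nonneg s)
    linarith)
  have h2 := Real.exp_pos (fQ c s)
  unfold wD
  constructor
  · nlinarith
  · nlinarith

lemma pot_fD_props (hc : 0 ≤ c) (hδ : 0 < δ) (hδ1 : δ ≤ 1) :
    Pot (fD c δ) (-Real.log δ) ∧ (∀ s, fD c δ s ≤ 0) ∧ Low.expW (fD c δ) = wD c δ := by
  have hb := wD_range hc hδ1
  refine ⟨⟨?_, fun s => ?_⟩, fun s => Real.log_nonpos (hδ.le.trans (hb s).1) (hb s).2, funext fun s =>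
    Real.exp_log (hδ.trans_le (hb s).1)⟩
  · unfold fD wD fQ; fun_prop
  · have h1 := Real.log_le_log hδ (hb s).1
    have h2 : fD c δ s ≤ 0 := Real.log_nonpos (hδ.le.trans (hb s).1) (hb s).2
    rw [abs_le]
    simp only [fD] at h1 h2 ⊢
    exact ⟨by linarith, by linarith [Real.log_nonpos hδ.le hδ1]⟩

lemma one_le_strength (n : ℕ) : 1 ≤ Low.strength n :=
  Real.one_le_rpow (by linarith [Nat.cast_nonneg (α := ℝ) n]) (by norm_num)

lemma sqrt_add_strength_div_le {n : ℕ} {V k : ℝ} (hk : 0 ≤ k)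
    (hV : V ≤ k * Real.sqrt ((n : ℝ) + 1)) :
    Real.sqrt (V + Low.strength n) / Low.strength n ≤
      Real.sqrt (k + 1) * ((n : ℝ) + 1) ^ (-(3 / 20) : ℝ) := by
  set N := (n : ℝ) + 1 with hN
  have hN1 : 1 ≤ N := by linarith [Nat.cast_nonneg (α := ℝ) n]
  have hN0 : 0 < N := by linarith
  have hsN : Low.strength n ≤ Real.sqrt N := by
    rw [Real.sqrt_eq_rpow]
    exact Real.rpow_le_rpow_of_exponent_le hN1 (by norm_num)
  have h1 : Real.sqrt (V + Low.strength n) ≤ Real.sqrt (k + 1) * N ^ (1 / 4 : ℝ) := by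
    refine (Real.sqrt_le_sqrt (show V + Low.strength n ≤ (k + 1) * Real.sqrt N by linarith)).trans_eq ?_
    rw [Real.sqrt_mul (by linarith)]
    congr 1
    rw [Real.sqrt_eq_rpow, Real.sqrt_eq_rpow, ← Real.rpow_mul hN0.le]
    norm_num
  rw [div_le_iff₀ (by linarith [one_le_strength n])]
  refine h1.trans_eq ?_
  rw [mul_assoc, Low.strength, ← hN, ← Real.rpow_add hN0]
  norm_num

end setting

section average

variable {L : Type} [MeasurableSpace L] [MeasurableSingletonClass L] [Fintype L] {n P : ℕ}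
  {κ κ' : Type} [Fintype κ] [Fintype κ'] {c δ α : ℝ} {B : ℝ}
  {A : Conf n L → EuclideanSpace ℝ (κ ⊕ κ')}

/-- The defect of the identities in the middle of one step. -/
noncomputable def midErr {f : ℝ → ℝ} (hf : Pot f B) (μL : Measure L) [IsProbabilityMeasure μL]
    (A : Conf n L → EuclideanSpace ℝ (κ ⊕ κ')) (α : ℝ) (t p : ℝ) (x : Fin P → ℝ) : ℝ :=
  ∑ q, Low.ggErr (interSys hf μL (ifld A (1 - (t + p)) t) (α * ((n : ℝ) + 1) * t) 0)
    (cub : Conf n L → Low.Sp (n + 1)) (measurable_of_finite (cub : Conf n L → Low.Sp (n + 1)))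
    norm_cub (Low.strength n) x q

lemma midErr_nonneg {f : ℝ → ℝ} (hf : Pot f B) (μL : Measure L) [IsProbabilityMeasure μL]
    (t p : ℝ) (x : Fin P → ℝ) : 0 ≤ midErr hf μL A α t p x :=
  Finset.sum_nonneg fun _ _ => div_nonneg
    (integral_nonneg fun _ => integral_nonneg fun _ => abs_nonneg _)
    (by linarith [one_le_strength n])

/-- The gain and the overlap term of one step under the bound on the gain. -/
lemma mid_gain_le (hf : Pot (fD c δ) B) (hf0 : ∀ s, fD c δ s ≤ 0)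
    (hW : Low.expW (fD c δ) = wD c δ) (hα : 0 ≤ α) (μL : Measure L) [IsProbabilityMeasure μL]
    {Ξ : ℝ → ℝ} {C D η δ' : ℝ} (hD : ∀ r, |Ξ r| ≤ D) (hη : 0 ≤ η) (hδ' : 0 < δ')
    (hg : ∀ (N : ℕ) (S : Low.Sys) (u : S.X → EuclideanSpace ℝ (Fin N)) (hu : Measurable u)
      (hu1 : ∀ a, ‖u a‖ = 1), (∀ a b, inner ℝ (u a) (u b) = inner ℝ (S.v a) (S.v b)) →
      ∀ s : ℝ, 0 < s → ∀ x ∈ Low.box P, ∑ p, Low.ggErr S u hu hu1 s x p ≤ δ' →
        α * (S.perturb u hu hu1 s x).logGain (wD c δ) ≤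
          C + (Ξ 1 - (S.perturb u hu hu1 s x).expect fun R : Low.Mat 2 => Ξ (R 0 1)) / 2 + η)
    (t p : ℝ) {x : Fin P → ℝ} (hx : x ∈ Low.box P) :
    α * (iSys hf μL (ifld A (1 - (t + p)) t) (α * ((n : ℝ) + 1) * t) 0 x).logGain (Low.expW (fD c δ)) +
        ((iSys hf μL (ifld A (1 - (t + p)) t) (α * ((n : ℝ) + 1) * t) 0 x).expect
          fun R : Low.Mat 2 => Ξ (R 0 1)) / 2 ≤
      C + Ξ 1 / 2 + η + (|C| + |Ξ 1| / 2 + D / 2) / δ' * midErr hf μL A α t p x := by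
  set U := ifld A (1 - (t + p)) t
  set lam := α * ((n : ℝ) + 1) * t
  set T := iSys hf μL U lam 0 x
  set E2 := T.expect fun R : Low.Mat 2 => Ξ (R 0 1)
  have hE2 : |E2| ≤ D := abs_expect_le hf μL U lam x hD
  have hD0 : 0 ≤ D := (abs_nonneg _).trans hE2
  have hE0 := midErr_nonneg (A := A) (α := α) hf μL t p x
  have hM : 0 ≤ (|C| + |Ξ 1| / 2 + D / 2) / δ' := by positivity
  by_cases hE : midErr hf μL A α t p x ≤ δ'
  · have h : α * T.logGain (wD c δ) ≤ C + (Ξ 1 - E2) / 2 + η :=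
      hg (n + 1) (interSys hf μL U lam 0) cub
        (measurable_of_finite (cub : Conf n L → Low.Sp (n + 1))) norm_cub (fun a b => rfl)
        (Low.strength n) (by linarith [one_le_strength n]) x hx hE
    rw [hW]
    have := mul_nonneg hM hE0
    linarith
  · have h1 : T.logGain (Low.expW (fD c δ)) ≤ 0 := by
      rw [iSys_logGain]
      have := iSys_free_antitone hf μL U lam x hf0 zero_le_one
      simp only at this
      linarith
    have h2 : |C| + |Ξ 1| / 2 + D / 2 ≤ (|C| + |Ξ 1| / 2 + D / 2) / δ' * midErr hf μL A α t p x := by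
      refine le_trans (le_of_eq ?_) (mul_le_mul_of_nonneg_left (le_of_not_ge hE) hM)
      field_simp
    have h3 := mul_nonpos_of_nonneg_of_nonpos hα h1
    linarith [(abs_le.1 hE2).2, neg_abs_le C, neg_abs_le (Ξ 1)]

/-- The defects are small on average over the coefficients. -/
lemma integral_midErr_le {f : ℝ → ℝ} (hf : Pot f B) (μL : Measure L) [IsProbabilityMeasure μL]
    {l0 V C₀ : ℝ}
    (hC₀ : ∀ (N : ℕ) (S : Low.Sys) (u : S.X → EuclideanSpace ℝ (Fin N)) (hu : Measurable u)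
      (hu1 : ∀ a, ‖u a‖ = 1) (s V : ℝ), 1 ≤ s → 1 ≤ V →
      (∀ F : S.X → ℝ, Measurable F → (∃ b, ∀ a, |F a| ≤ b) →
        Integrable (fun ω => logI S.ref (fun a => S.w ω a * Real.exp (F a))) S.law ∧
        ∫ ω, |logI S.ref (fun a => S.w ω a * Real.exp (F a)) -
          ∫ ω', logI S.ref (fun a => S.w ω' a * Real.exp (F a)) ∂S.law| ∂S.law ≤ V) →
      ∀ p : Fin P, IntegrableOn (fun x => Low.ggErr S u hu hu1 s x p) (Low.box P) ∧
        ∫ x in Low.box P, Low.ggErr S u hu hu1 s x p ≤ C₀ * Real.sqrt (V + s) / s)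
    (hα : 0 ≤ α) (hA : ∀ y, ‖A y‖ ≤ l0) (hV1 : 1 ≤ V)
    (hV : 6 * (B + 1) * (Real.sqrt (α * ((n : ℝ) + 1)) + 1) + (3 * l0 + 2) ≤ V)
    {t p : ℝ} (ht : 0 ≤ t) (hp : 0 ≤ p) (htp : t + p ≤ 1) :
    IntegrableOn (fun x : Fin P → ℝ => midErr hf μL A α t p x) (Low.box P) ∧
      ∫ x in Low.box P, midErr hf μL A α t p x ≤
        P * (|C₀| * (Real.sqrt (V + Low.strength n) / Low.strength n)) := by
  set U := ifld A (1 - (t + p)) t with hUdef
  set lam := α * ((n : ℝ) + 1) * t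
  have hU : ∀ y, ‖U y‖ ≤ l0 := fun y => by
    have := norm_scale2_le (A := A) (u := 1 - (t + p)) (v := t) (m := 1) (by linarith) ht
      (by linarith) (by linarith) y (hA y)
    simpa [hUdef, ifld] using this
  have hlam : Real.sqrt lam ≤ Real.sqrt (α * ((n : ℝ) + 1)) :=
    Real.sqrt_le_sqrt (mul_le_of_le_one_right (by positivity) (by linarith))
  have hB := hf.nonneg
  have hq := fun q => hC₀ (n + 1) (interSys hf μL U lam 0) cub
    (measurable_of_finite (cub : Conf n L → Low.Sp (n + 1))) norm_cub (Low.strength n) V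
    (one_le_strength n) hV1 (fun F _ _ => by
      obtain ⟨a1, a2⟩ := interSys_fluct hf μL U hU (lam := lam) (by positivity) F
      refine ⟨a1, a2.trans ?_⟩
      have := mul_le_mul_of_nonneg_left (add_le_add hlam (le_refl (1 : ℝ)))
        (by positivity : (0 : ℝ) ≤ 6 * (B + 1))
      linarith) q
  refine ⟨integrable_finsetSum _ fun q _ => (hq q).1, ?_⟩
  simp only [midErr]
  rw [integral_finsetSum _ fun q _ => (hq q).1]
  refine (Finset.sum_le_sum fun q _ => (hq q).2.trans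
    (?_ : _ ≤ |C₀| * (Real.sqrt (V + Low.strength n) / Low.strength n))).trans_eq (by simp)
  rw [mul_div_assoc]
  exact mul_le_mul_of_nonneg_right (le_abs_self C₀)
    (div_nonneg (Real.sqrt_nonneg _) (by linarith [one_le_strength n]))

/-- The interpolation at a fixed number of spins and steps. -/
lemma interp_chain {f : ℝ → ℝ} (hf : Pot f B) (hf0 : ∀ s, f s ≤ 0) (μL : Measure L)
    [IsProbabilityMeasure μL] (hα : 0 ≤ α) {Ξ : ℝ → ℝ} {l0 dd Ct M : ℝ} (hA : ∀ y, ‖A y‖ ≤ l0)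
    (hd : ∀ y, ovR A y y - ovL A y y ≤ ((n : ℝ) + 1) * dd)
    (hΞ : ∀ a b, ovL A a b - ovR A a b ≤ ((n : ℝ) + 1) * Ξ ⟪cub a, cub b⟫)
    {x : Fin P → ℝ}
    (hgain : ∀ t p, α * (iSys hf μL (ifld A (1 - (t + p)) t) (α * ((n : ℝ) + 1) * t) 0 x).logGain
        (Low.expW f) + (dd + (iSys hf μL (ifld A (1 - (t + p)) t) (α * ((n : ℝ) + 1) * t) 0 x).expect
          fun R : Low.Mat 2 => Ξ (R 0 1)) / 2 ≤ Ct + M * midErr hf μL A α t p x)
    {m : ℕ} (hm : 0 < m) (hsq : Real.sqrt (1 / m) * l0 ≤ 1 / 2) :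
    (iSys hf μL (ifld A 0 1) (α * ((n : ℝ) + 1)) 0 x).free - (iSys hf μL (ifld A 1 0) 0 0 x).free ≤
      ((n : ℝ) + 1) * Ct + stepK (n + 1) B α l0 (κ ⊕ κ') / Real.sqrt m +
        ((n : ℝ) + 1) * M * ((1 / m) * ∑ j ∈ Finset.range m, midErr hf μL A α ((j : ℝ) / m) (1 / m) x) := by
  set N : ℝ := (n : ℝ) + 1
  set p : ℝ := 1 / m with hp
  set K := stepK (n + 1) B α l0 (κ ⊕ κ')
  have hm0 : (m : ℝ) ≠ 0 := by exact_mod_cast hm.ne'
  have hp0 : 0 ≤ p := by positivity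
  set Φ : ℕ → ℝ := fun j => (iSys hf μL (ifld A (1 - (j : ℝ) / m) ((j : ℝ) / m))
    (α * N * ((j : ℝ) / m)) 0 x).free with hΦ
  have hstep : ∀ j ∈ Finset.range m, Φ (j + 1) - Φ j ≤
      p * N * (Ct + M * midErr hf μL A α ((j : ℝ) / m) p x) + p * Real.sqrt p * K := fun j hj => by
    have hj' : ((j : ℝ) + 1) ≤ m := by exact_mod_cast Finset.mem_range.1 hj
    have ht : ((j + 1 : ℕ) : ℝ) / m = (j : ℝ) / m + p := by rw [hp]; push_cast; ring
    have htp : (j : ℝ) / m + p ≤ 1 := by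
      rw [hp, ← add_div, div_le_one (by positivity)]; exact hj'
    simp only [hΦ, ht]
    exact (interp_step hf hf0 μL x hα hA hd hΞ (t := (j : ℝ) / m) (by positivity) hp0 htp hsq).trans
      (add_le_add (mul_le_mul_of_nonneg_left (hgain _ _) (by positivity)) le_rfl)
  have htel := Finset.sum_range_sub Φ m
  have h1 := Finset.sum_le_sum hstep
  rw [htel] at h1
  have e1 : Φ m = (iSys hf μL (ifld A 0 1) (α * N) 0 x).free := by
    simp only [hΦ, div_self hm0, sub_self, mul_one]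
  have e0 : Φ 0 = (iSys hf μL (ifld A 1 0) 0 0 x).free := by
    simp only [hΦ, Nat.cast_zero, zero_div, sub_zero, mul_zero]
  have e : ∑ j ∈ Finset.range m, (p * N * (Ct + M * midErr hf μL A α ((j : ℝ) / m) p x) +
      p * Real.sqrt p * K) = N * Ct + K / Real.sqrt m +
      N * M * (p * ∑ j ∈ Finset.range m, midErr hf μL A α ((j : ℝ) / m) p x) := by
    simp only [mul_add, Finset.sum_add_distrib, Finset.sum_const, Finset.card_range, nsmul_eq_mul,
      ← Finset.mul_sum]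
    rw [hp, Real.sqrt_div zero_le_one, Real.sqrt_one]
    field_simp
    ring
  linarith

end average

theorem leafVal_close {L I I' : Type} [Fintype L] [Fintype I] [Fintype I'] (ρ : L → ℝ)
    (hρ : ∀ l, 0 < ρ l) (hρ1 : ∑ l, ρ l = 1) (ah : L → I → ℝ) (ah' : L → I' → ℝ) {ε : ℝ}
    (h : ∀ l l', |∑ i, ah l i * ah l' i - ∑ i, ah' l i * ah' l' i| ≤ ε) :
    |leafVal 1 ah (spinG 1) ρ - leafVal 1 ah' (spinG 1) ρ| ≤ ε := by
  letI : MeasurableSpace L := ⊤
  haveI : MeasurableSingletonClass L := ⟨fun _ => trivial⟩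
  obtain ⟨μL, hμp, hμ⟩ := exists_leafLaw hρ hρ1
  rw [abs_le]
  constructor
  · linarith [leafVal_close_aux μL hμ ah ah' h]
  · exact leafVal_close_aux μL hμ ah' ah fun l l' => by rw [abs_sub_comm]; exact h l l'

theorem interp_upper {c δ α : ℝ} (hc : 0 < c) (hδ : 0 < δ) (hδ1 : δ < 1) (hα : 0 < α)
    {Ξ : ℝ → ℝ} {C : ℝ} (hΞ : Continuous Ξ) (hΞb : ∃ D, ∀ R, |Ξ R| ≤ D)
    (hgain : GainBound c δ α Ξ C) {dh dy η : ℝ} (hη : 0 < η) :
    ∀ᶠ N : ℕ in atTop, ∀ (L I I' : Type) [Fintype L] [Fintype I] [Fintype I']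
      (ρ : L → ℝ) (ah : L → I → ℝ) (ay : L → I' → ℝ),
      (∀ l, 0 < ρ l) → ∑ l, ρ l = 1 →
      (∀ l, ∑ i, ah l i ^ 2 = dh) → (∀ l, ∑ i, ay l i ^ 2 = dy) →
      (∀ l l' R, |R| ≤ 1 → (∑ i, ah l i * ah l' i) * R - ∑ i, ay l i * ay l' i ≤ Ξ R) →
      poiE (α * N) (cubeF (fD c δ) N) + leafVal 1 (fun l i => Real.sqrt N * ay l i) linG ρ ≤
        leafVal N ah (spinG N) ρ + N * (C + (Ξ 1 - dh + dy) / 2 + η) := by
  have _ := hΞ
  obtain ⟨D, hD⟩ := hΞb
  obtain ⟨hf, hf0, hW⟩ := pot_fD_props hc.le hδ hδ1.le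
  set B := -Real.log δ
  obtain ⟨P, δ', hδ', hg⟩ := hgain (η / 4) (by linarith)
  obtain ⟨C₀, hC₀⟩ := Low.integral_ggErr_le P
  have hD0 : 0 ≤ D := (abs_nonneg _).trans (hD 0)
  set M := (|C| + |Ξ 1| / 2 + D / 2) / δ'
  have hM : 0 ≤ M := by positivity
  set d := |dh| + |dy|
  set Kv := 6 * (B + 1) * (Real.sqrt α + 1) + (3 * Real.sqrt d + 2)
  have hB := hf.nonneg
  have hKv1 : 1 ≤ Kv := by
    have : 0 ≤ 6 * (B + 1) * (Real.sqrt α + 1) := by positivity
    linarith [Real.sqrt_nonneg d]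
  have hsmall : Tendsto (fun n : ℕ => M * (P : ℝ) * |C₀| * Real.sqrt (Kv + 1) *
      ((n : ℝ) + 1) ^ (-(3 / 20) : ℝ) + 2 * (P : ℝ) ^ 2 * ((n : ℝ) + 1) ^ (-(1 / 5) : ℝ))
      atTop (𝓝 0) := by
    simpa using ((Low.tendsto_rpow_succ (a := -(3 / 20)) (by norm_num)).const_mul
      (M * (P : ℝ) * |C₀| * Real.sqrt (Kv + 1))).add
      ((Low.tendsto_rpow_succ (a := -(1 / 5)) (by norm_num)).const_mul (2 * (P : ℝ) ^ 2))
  obtain ⟨n₀, hn₀⟩ := eventually_atTop.1 (hsmall.eventually (gt_mem_nhds (by linarith : 0 < η / 2)))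
  refine eventually_atTop.2 ⟨n₀ + 1, fun N hN => ?_⟩
  obtain ⟨n, rfl⟩ : ∃ n, N = n + 1 := ⟨N - 1, by omega⟩
  intro L I I' _ _ _ ρ ah ay hρ hρ1 hah hay hov
  letI : MeasurableSpace L := ⊤
  haveI : MeasurableSingletonClass L := ⟨fun _ => trivial⟩
  obtain ⟨μL, hμp, hμ⟩ := exists_leafLaw hρ hρ1
  have hn := hn₀ n (by omega)
  set Nr : ℝ := (n : ℝ) + 1 with hNr
  have hcast : ((n + 1 : ℕ) : ℝ) = Nr := by push_cast; rfl
  have hN1 : 1 ≤ Nr := by linarith [Nat.cast_nonneg (α := ℝ) n]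
  rw [hcast]
  set ay' : L → I' → ℝ := fun l i => Real.sqrt Nr * ay l i
  set A := joinA (spinA n ah) (linA n ay') with hAdef
  have hyy : ∀ l l', ∑ i, ay' l i * ay' l' i = Nr * ∑ i, ay l i * ay l' i := fun l l' => by
    rw [Finset.mul_sum]
    exact Finset.sum_congr rfl fun i _ => by
      simp only [ay']
      linear_combination ay l i * ay l' i * Real.mul_self_sqrt (by linarith : 0 ≤ Nr)
  have hsp : ∀ a b : Conf n L, ∑ i, sgn (a.1 i) * sgn (b.1 i) = Nr * ⟪cub a, cub b⟫ := fun a b => by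
    rw [show (⟪cub a, cub b⟫ : ℝ) = _ from inner_cubeVec (n + 1) a.1 b.1, hcast]
    field_simp
  have hovL : ∀ a b, ovL A a b = Nr * (⟪cub a, cub b⟫ * ∑ i, ah a.2 i * ah b.2 i) := fun a b => by
    rw [(ovL_join _ _ a b).1, sum_spinA, hsp]; ring
  have hovR : ∀ a b, ovR A a b = Nr * ∑ i, ay a.2 i * ay b.2 i := fun a b => by
    rw [(ovL_join _ _ a b).2, sum_linA, hyy]
  have hdiag : ∀ y, ovL A y y = Nr * dh ∧ ovR A y y = Nr * dy := fun y => by
    have h1 : (⟪cub y, cub y⟫ : ℝ) = 1 := by rw [real_inner_self_eq_norm_sq, norm_cub, one_pow]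
    constructor
    · rw [hovL, h1, one_mul, ← hah y.2]; simp [sq]
    · rw [hovR, ← hay y.2]; simp [sq]
  have hd : ∀ y, ovR A y y - ovL A y y ≤ Nr * (dy - dh) := fun y => by
    rw [(hdiag y).1, (hdiag y).2, mul_sub]
  have hΞA : ∀ a b, ovL A a b - ovR A a b ≤ Nr * Ξ ⟪cub a, cub b⟫ := fun a b => by
    rw [hovL, hovR, ← mul_sub]
    refine mul_le_mul_of_nonneg_left ?_ (by linarith)
    have hR : |(⟪cub a, cub b⟫ : ℝ)| ≤ 1 :=
      (abs_real_inner_le_norm _ _).trans (by rw [norm_cub, norm_cub, one_mul])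
    have := hov a.2 b.2 _ hR
    linarith
  set l0 := Real.sqrt (Nr * d)
  have hA : ∀ y, ‖A y‖ ≤ l0 := fun y => by
    refine Real.le_sqrt_of_sq_le ?_
    rw [norm_sq_eq, (hdiag y).1, (hdiag y).2, ← mul_add]
    exact mul_le_mul_of_nonneg_left (add_le_add (le_abs_self dh) (le_abs_self dy)) (by linarith)
  set K := stepK (n + 1) B α l0 ((I × Fin (n + 1)) ⊕ (I' × Fin 1))
  set V := 6 * (B + 1) * (Real.sqrt (α * Nr) + 1) + (3 * l0 + 2)
  have hV1 : 1 ≤ V := by
    have : 0 ≤ 6 * (B + 1) * (Real.sqrt (α * Nr) + 1) := by positivity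
    linarith [Real.sqrt_nonneg (Nr * d)]
  have hVK : V ≤ Kv * Real.sqrt Nr := by
    have h1 : 1 ≤ Real.sqrt Nr := Real.one_le_sqrt.2 hN1
    have e1 : Real.sqrt (α * Nr) = Real.sqrt α * Real.sqrt Nr := Real.sqrt_mul hα.le _
    have e2 : l0 = Real.sqrt d * Real.sqrt Nr := by
      rw [← Real.sqrt_mul (by positivity), mul_comm]
    simp only [V, Kv, e1, e2]
    nlinarith [mul_le_mul_of_nonneg_left h1 (by positivity : (0 : ℝ) ≤ 6 * (B + 1) + 2)]
  set lhs := poiE (α * Nr) (cubeF (fD c δ) (n + 1)) + leafVal 1 ay' linG ρ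
  set rhs := leafVal (n + 1) ah (spinG (n + 1)) ρ
  set Ct := C + (Ξ 1 - dh + dy) / 2 + η / 4
  set bd := 2 * (P : ℝ) ^ 2 * Low.strength n ^ 2
  set GG := |C₀| * (Real.sqrt (V + Low.strength n) / Low.strength n)
  suffices h : lhs - rhs ≤ bd + Nr * Ct + Nr * M * (P * GG) by
    have h1 : Real.sqrt (V + Low.strength n) / Low.strength n ≤
        Real.sqrt (Kv + 1) * Nr ^ (-(3 / 20) : ℝ) := sqrt_add_strength_div_le (by linarith) hVK
    have h2 : Low.strength n ^ 2 = Nr * Nr ^ (-(1 / 5) : ℝ) := by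
      rw [← Low.strength_sq_div, mul_div_cancel₀ _ (by linarith : Nr ≠ 0)]
    have h3 : Nr * M * (P * GG) ≤
        Nr * (M * (P : ℝ) * |C₀| * Real.sqrt (Kv + 1) * Nr ^ (-(3 / 20) : ℝ)) := by
      have := mul_le_mul_of_nonneg_left h1 (by positivity : 0 ≤ Nr * M * P * |C₀|)
      simp only [GG]
      linarith
    have h4 := mul_le_mul_of_nonneg_left hn.le (by linarith : 0 ≤ Nr)
    simp only [bd, Ct, h2] at h
    show lhs ≤ rhs + _
    nlinarith
  refine le_of_forall_steps (m₀ := ⌈4 * l0 ^ 2⌉₊ + 1) (K := K) fun m hm => ?_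
  have hm1 : (1 : ℝ) ≤ m := by exact_mod_cast (by omega : 1 ≤ m)
  have hm4 : 4 * l0 ^ 2 ≤ m := (Nat.le_ceil _).trans (by exact_mod_cast (by omega : ⌈4 * l0 ^ 2⌉₊ ≤ m))
  set p : ℝ := 1 / m with hp
  have hp0 : 0 ≤ p := by positivity
  have hsq : Real.sqrt p * l0 ≤ 1 / 2 := by
    have h1 : (Real.sqrt p * l0) ^ 2 ≤ (1 / 2) ^ 2 := by
      rw [mul_pow, Real.sq_sqrt hp0, hp, one_div_mul_eq_div, div_le_iff₀ (by linarith)]
      linarith
    exact (pow_le_pow_iff_left₀ (mul_nonneg (Real.sqrt_nonneg _) (Real.sqrt_nonneg _)) (by norm_num)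
      two_ne_zero).1 h1
  set E : ℕ → (Fin P → ℝ) → ℝ := fun j x => midErr hf μL A α ((j : ℝ) / m) p x
  have hpt : ∀ x ∈ Low.box P, lhs - rhs ≤ bd + Nr * Ct + K / Real.sqrt m +
      Nr * M * (p * ∑ j ∈ Finset.range m, E j x) := fun x hx => by
    have hc := interp_chain (x := x) (Ct := Ct) (M := M) (dd := dy - dh) hf hf0 μL hα.le hA hd hΞA
      (fun t p => by
        have := mid_gain_le (A := A) hf hf0 hW hα.le μL hD (by linarith : 0 ≤ η / 4) hδ' hg t p hx
        simp only [Ct, M]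
        linarith) (by omega) hsq
    have hend : lhs ≤ (iSys hf μL (ifld A 0 1) (α * Nr) 0 x).free :=
      iSys_end hf μL hμ _ ay' (by positivity) x
    have hstart : (iSys hf μL (ifld A 1 0) 0 0 x).free ≤ rhs + bd := by
      refine (iSys_start hf hf0 μL _ _ x).trans (add_le_add (le_of_eq ?_) ?_)
      · exact (elz_join_left μL _ _ Wt.one).trans (elz_spinA μL hμ ah)
      · have hsum : ∑ q, |x q| ≤ (P : ℝ) * 2 := by
          refine (Finset.sum_le_sum (g := fun _ : Fin P => (2 : ℝ)) fun q _ => ?_).trans_eq (by simp)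
          obtain ⟨a1, a2⟩ := hx q (Set.mem_univ q)
          rw [abs_of_nonneg (by linarith)]
          exact a2
        have := pow_le_pow_left₀ (mul_nonneg (by linarith [one_le_strength n])
          (Finset.sum_nonneg fun q _ => abs_nonneg _))
          (mul_le_mul_of_nonneg_left hsum (by linarith [one_le_strength n] : 0 ≤ Low.strength n)) 2
        simp only [bd]
        linarith
    simp only [E]
    linarith
  have hbox := (Low.isCompact_box P).measure_lt_top (μ := volume)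
  have hEi : ∀ j ∈ Finset.range m, IntegrableOn (E j) (Low.box P) ∧
      ∫ x in Low.box P, E j x ≤ P * GG := fun j hj => by
    have hj' : ((j : ℝ) + 1) ≤ m := by exact_mod_cast Finset.mem_range.1 hj
    exact integral_midErr_le hf μL hC₀ hα.le hA hV1 le_rfl (by positivity) hp0
      (by rw [hp, ← add_div, div_le_one (by linarith)]; exact hj')
  have hsumi : IntegrableOn (fun x => p * ∑ j ∈ Finset.range m, E j x) (Low.box P) :=
    (integrable_finsetSum _ fun j hj => (hEi j hj).1).const_mul p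
  have hint : ∫ x in Low.box P, p * ∑ j ∈ Finset.range m, E j x ≤ P * GG := by
    rw [integral_const_mul, integral_finsetSum _ fun j hj => (hEi j hj).1]
    refine (mul_le_mul_of_nonneg_left (Finset.sum_le_sum fun j hj => (hEi j hj).2) hp0).trans_eq ?_
    rw [Finset.sum_const, Finset.card_range, nsmul_eq_mul, hp]
    field_simp
  have hR : IntegrableOn (fun x => bd + Nr * Ct + K / Real.sqrt m +
      Nr * M * (p * ∑ j ∈ Finset.range m, E j x)) (Low.box P) :=
    (integrableOn_const hbox.ne).add (hsumi.const_mul _)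
  have h := setIntegral_mono_on (integrableOn_const hbox.ne) hR (Low.isCompact_box P).measurableSet hpt
  have hci : IntegrableOn (fun _ : Fin P → ℝ => bd + Nr * Ct + K / Real.sqrt m) (Low.box P) :=
    integrableOn_const hbox.ne
  rw [setIntegral_const, Low.measureReal_box, one_smul, integral_add hci.integrable
    (hsumi.const_mul _), setIntegral_const, Low.measureReal_box, one_smul, integral_const_mul] at h
  have := mul_le_mul_of_nonneg_left hint (by positivity : 0 ≤ Nr * M)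
  linarith

end Vale.Agent.P166N
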