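import Vale.Agent.P166N.MixtureLevels
import Vale.Agent.P166N.Lower
import Vale.Agent.P166N.Gain
import Vale.Agent.P166N.TreeRoot
import Vale.Agent.P166N.Interp

/-!
The closed form is an upper bound for every strictly increasing order parameter.
-/

namespace Vale.Agent.P166N

open MeasureTheory ProbabilityTheory Filter Set
open Vale.Agent.P157
open scoped Topology

variable {c α q0 : ℝ} {ls : List (ℝ × ℝ)}

lemma theta_eq (hc : 0 < c) (h : RsbParam q0 ls) {q : ℝ} (h0 : 0 ≤ q) (h1 : q ≤ 1) :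
    theta c α q0 ls q = ∫ s in (0 : ℝ)..q, xi2 c α q0 ls s * s := by
  have hf := continuous_xi2 (α := α) hc h
  rw [theta, xi_of_mem hc h h0 h1, xi1, ← intervalIntegral.integral_const_mul,
    ← intervalIntegral.integral_sub ((hf.intervalIntegrable _ _).const_mul q)
      ((by fun_prop : Continuous fun s => xi2 c α q0 ls s * (q - s)).intervalIntegrable _ _)]
  exact intervalIntegral.integral_congr fun s _ => by ring

lemma theta_mono (hc : 0 < c) (hα : 0 ≤ α) (h : RsbParam q0 ls) {q q' : ℝ} (h0 : 0 ≤ q) (hq : q ≤ q')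
    (h1 : q' ≤ 1) : theta c α q0 ls q ≤ theta c α q0 ls q' := by
  have hf := continuous_xi2 (α := α) hc h
  have hi : ∀ a b : ℝ, IntervalIntegrable (fun s => xi2 c α q0 ls s * s) volume a b := fun a b =>
    (by fun_prop : Continuous fun s => xi2 c α q0 ls s * s).intervalIntegrable a b
  rw [theta_eq hc h h0 (hq.trans h1), theta_eq hc h (h0.trans hq) h1,
    ← intervalIntegral.integral_add_adjacent_intervals (hi 0 q) (hi q q')]
  exact le_add_of_nonneg_right (intervalIntegral.integral_nonneg hq fun s hs =>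
    mul_nonneg (xi2_nonneg hα s) (h0.trans hs.1))

lemma theta_nonneg (hc : 0 < c) (hα : 0 ≤ α) (h : RsbParam q0 ls) {q : ℝ} (h0 : 0 ≤ q) (h1 : q ≤ 1) :
    0 ≤ theta c α q0 ls q := by
  rw [theta_eq hc h h0 h1]
  exact intervalIntegral.integral_nonneg h0 fun s hs => mul_nonneg (xi2_nonneg hα s) hs.1

lemma lvl_succ : ∀ {ls : List (ℝ × ℝ)}, Lv ls → ∀ (q : ℝ) (j : ℕ), lvl ls q j ≤ lvl ls q (j + 1)
  | [], _, q, j => by cases j <;> simp [lvl]
  | (m, d) :: ls, h, q, 0 => by
    simp only [lvl]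
    linarith [h.head.2.2, (lvl_mem h.tail (q + d) 0).1]
  | (m, d) :: ls, h, q, j + 1 => lvl_succ h.tail (q + d) j

lemma feat_scale {n : ℕ} {a : ℝ} (ha : 0 ≤ a) : ∀ {k : ℕ} (R : ℕ → ℝ) (l : Leaf n k) (ν : Node n k),
    feat k (fun j => a * R j) l ν = Real.sqrt a * feat k R l ν
  | 0, _, _, ν => ν.elim
  | k + 1, R, (i, l), (b, none) => by
    simp only [feat]
    split_ifs <;> simp [← mul_sub, Real.sqrt_mul ha]
  | k + 1, R, (i, l), (b, some ν) => by
    simp only [feat]
    split_ifs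
    · exact feat_scale ha (fun j => R (j + 1)) l ν
    · simp

lemma feat0_scale {n k : ℕ} {a : ℝ} (ha : 0 ≤ a) (R : ℕ → ℝ) :
    (fun (l : Leaf n k) ν => Real.sqrt a * feat0 k R l ν) = feat0 k fun j => a * R j := by
  funext l ν
  cases ν with
  | none => simp [feat0, Real.sqrt_mul ha]
  | some ν => simp [feat0, feat_scale ha]

/-- The Poissonised regularised pressure is at most the closed form plus the mean gap. -/
theorem poi_upper (hc : 0 < c) {δ : ℝ} (hδ : 0 < δ) (hδ1 : δ < 1) (hα : 0 < α) (h : RsbParam q0 ls)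
    (hst : Strict ls) {η : ℝ} (hη : 0 < η) :
    ∀ᶠ N : ℕ in atTop, poiE (α * N) (cubeF (fD c δ) N) / N ≤
      negParisi c α q0 ls + α * errD c δ + η := by
  have hl := RsbParam.lv h
  set k := ls.length with hk
  set q := lvl ls q0 with hq
  set Rh : ℕ → ℝ := fun j => α * negOverlap c q0 ls j with hRh
  set Ry : ℕ → ℝ := fun j => theta c α q0 ls (q j) with hRy
  have hmem : ∀ j, 0 ≤ q j ∧ q j ≤ 1 := fun j => by
    obtain ⟨h1, h2⟩ := lvl_mem hl q0 j
    exact ⟨h.1.trans h1, h2.trans h.2.2.2.le⟩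
  have hmh : ∀ j < k, Rh j ≤ Rh (j + 1) := fun j hj => mul_le_mul_of_nonneg_left (by
    simp only [negOverlap]
    linarith [negInc_succ c hc hl (rest_pos h).le hj]) hα.le
  have hh0 : 0 ≤ Rh 0 := mul_nonneg hα.le (by
    have : negInc c ls (rsbRest q0 ls) 0 = 0 := by cases ls <;> rfl
    rw [negOverlap, this, add_zero]
    exact mul_nonneg (sq_nonneg _) h.1)
  have hmy : ∀ j < k, Ry j ≤ Ry (j + 1) := fun j _ =>
    theta_mono hc hα.le h (hmem j).1 (lvl_succ hl q0 j) (hmem (j + 1)).2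
  have hy0 : 0 ≤ Ry 0 := theta_nonneg hc hα.le h (hmem 0).1 (hmem 0).2
  have hev := interp_upper hc hδ hδ1 hα (continuous_xi hc h) (xi_bdd hc h)
    (gainBound_of_param hc hδ hδ1 hα h) (dh := Rh k) (dy := Ry k) (half_pos hη)
  filter_upwards [hev, eventually_ge_atTop 1] with N hN hN1
  have hN0 : (0 : ℝ) < N := by exact_mod_cast hN1
  obtain ⟨KN, hKN⟩ := lip_spinG N
  obtain ⟨n, ρ, hρ, hρ1, hT⟩ := tree_realise hst (N := N) (N' := 1) (R := Rh) (R' := fun j => N * Ry j)
    hKN lip_linG (show 0 < (N : ℝ) * (η / 2) by positivity)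
  have hI := hN (Leaf n k) (Option (Node n k)) (Option (Node n k)) ρ (feat0 k Rh) (feat0 k Ry) hρ hρ1
    (fun l => by simp only [sq, feat0_inner hh0 hmh, meet_self])
    (fun l => by simp only [sq, feat0_inner hy0 hmy, meet_self])
    (fun l l' R hR => by
      rw [feat0_inner hh0 hmh, feat0_inner hy0 hmy]
      simp only [hRh, hRy, hq, ← xi1_eq_overlap hc h (meet_le l l')]
      exact xi_convex hc hα.le h (hmem _).1 (hmem _).2 hR)
  rw [feat0_scale (Nat.cast_nonneg N)] at hI
  rw [rootVal_spinG hst, rootVal_linG hst fun j hj => mul_le_mul_of_nonneg_left (hmy j hj) hN0.le] at hT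
  have halg := gainC_algebra (α := α) hc h
  rw [← lvl_last, lvlSum_eq] at halg
  have hkey : xi1 c α q0 ls (q k) = Rh k := xi1_eq_overlap hc h le_rfl
  have esum : (∑ i : Fin ls.length, (ls.get i).1 * ((N : ℝ) * Ry (i + 1) - N * Ry i)) =
      N * ∑ i : Fin ls.length, (ls.get i).1 * (Ry (i + 1) - Ry i) := by
    rw [Finset.mul_sum]
    exact Finset.sum_congr rfl fun i _ => by ring
  rw [esum] at hT
  simp only [hRy, hq, hk] at hT hI hkey
  rw [div_le_iff₀ hN0, negParisi]
  rw [← hkey] at hI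
  have halgN := congrArg (fun u => (N : ℝ) * u) halg
  simp only [hRh] at hT hI
  linarith

end Vale.Agent.P166N
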