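import Vale.Agent.P166N.Conc
import Vale.Agent.P166N.Perturb
import Vale.Agent.P166N.Upper
import Vale.Agent.P157.Low.Main

/-!
The limit of the pressure of the quadratic potential `-c s ^ 2 / 2` is the infimum of the closed form.
-/

namespace Vale.Agent.P166N

open MeasureTheory ProbabilityTheory Filter
open Vale.Agent.P157
open scoped Topology

variable {c δ α : ℝ}

/-- The Poisson average is near the value at the mean. -/
lemma poi_near {F : ℕ → ℝ} {C : ℝ} (hC : 0 ≤ C) (h0 : F 0 = 0)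
    (hlip : ∀ k l : ℕ, |F k - F l| ≤ C * |(k : ℝ) - l|) (hα : 0 ≤ α) {N : ℕ} (hN : 1 ≤ N) :
    |poiE (α * N) F - F ⌊α * N⌋₊| ≤ C * ((1 + α * N) / (2 * Real.sqrt N) + Real.sqrt N / 2) := by
  have hl : 0 ≤ α * N := mul_nonneg hα (Nat.cast_nonneg _)
  have hsq : 0 < Real.sqrt N := Real.sqrt_pos.2 (by exact_mod_cast hN)
  have hg : ∀ k, |F k| ≤ C * ((k : ℝ) + 1) := fun k => by
    have := hlip k 0
    rw [h0, sub_zero, Nat.cast_zero, sub_zero, Nat.abs_cast] at this
    nlinarith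
  refine le_of_tendsto ((tendsto_binE_div hl hg).sub_const _).abs ?_
  filter_upwards [eventually_ge_atTop (⌈α * N⌉₊ + 1)] with M hM
  have hle : α * N ≤ M := (Nat.le_ceil _).trans (by exact_mod_cast (by omega : ⌈α * N⌉₊ ≤ M))
  have hM0 : (0 : ℝ) < M := by exact_mod_cast (by omega : 0 < M)
  have h0' : 0 ≤ α * N / M := div_nonneg hl hM0.le
  have h1 : α * N / M ≤ 1 := (div_le_one hM0).2 hle
  have hb : |binE M (α * N / M) F - F ⌊α * N⌋₊| ≤
      C * binE M (α * N / M) (fun k => |(k : ℝ) - (⌊α * N⌋₊ : ℝ)|) := by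
    rw [show binE M (α * N / M) F - F ⌊α * N⌋₊ = binE M (α * N / M) (fun k => F k - F ⌊α * N⌋₊) by
      rw [binE_sub, binE_const], abs_le]
    constructor
    · rw [← neg_mul, ← binE_const_mul]
      exact binE_mono h0' h1 M fun k _ => by
        have := (abs_le.1 (hlip k ⌊α * N⌋₊)).1
        linarith
    · rw [← binE_const_mul]
      exact binE_mono h0' h1 M fun k _ => (abs_le.1 (hlip k ⌊α * N⌋₊)).2
  refine hb.trans (mul_le_mul_of_nonneg_left ?_ hC)
  refine (binE_abs_le h0' h1 M _ hsq).trans ?_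
  rw [show (M : ℝ) * (α * N / M) = α * N by field_simp]
  refine add_le_add (div_le_div_of_nonneg_right ?_ (by positivity)) le_rfl
  have f1 := Nat.floor_le hl
  have f2 := Nat.lt_floor_add_one (α * (N : ℝ))
  nlinarith

/-- The regularised pressure at `⌊αN⌋` patterns is at most the closed form plus the mean gap. -/
theorem cube_upper (hc : 0 < c) (hδ : 0 < δ) (hδ1 : δ < 1) (hα : 0 < α) {q0 : ℝ} {ls : List (ℝ × ℝ)}
    (h : RsbParam q0 ls) {η : ℝ} (hη : 0 < η) :
    ∀ᶠ N : ℕ in atTop, cubePressure (fD c δ) N ⌊α * N⌋₊ ≤ negParisi c α q0 ls + α * errD c δ + η := by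
  obtain ⟨ls', h', hst, hle⟩ := exists_strict hc hα.le h (η := η / 3) (by positivity)
  have hpu := poi_upper hc hδ hδ1 hα h' hst (η := η / 3) (by positivity)
  set C := 1 + -Real.log δ with hC
  have hC0 : 0 ≤ C := by linarith [Real.log_neg hδ hδ1]
  have hlim : Tendsto (fun N : ℕ => C * (1 + α) / Real.sqrt N) atTop (𝓝 0) :=
    tendsto_const_nhds.div_atTop (Real.tendsto_sqrt_atTop.comp tendsto_natCast_atTop_atTop)
  filter_upwards [hpu, hlim.eventually_lt_const (show (0 : ℝ) < η / 3 by positivity), eventually_ge_atTop 1]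
    with N h1 h2 hN
  have hf := pot_fD hc hδ hδ1
  have hlip : ∀ k l : ℕ, |cubeF (fD c δ) N k - cubeF (fD c δ) N l| ≤ C * |(k : ℝ) - l| := fun k l =>
    L_lipschitz hf (measurable_of_finite _) Wt.one k l
  have h0 : cubeF (fD c δ) N 0 = 0 := by simp [cubeF, L, iter, logI]
  have hn := (abs_le.1 (poi_near hC0 h0 hlip hα.le hN)).1
  have hN0 : (0 : ℝ) < N := by exact_mod_cast hN
  have hN1 : (1 : ℝ) ≤ N := by exact_mod_cast hN
  rw [← cubeF_eq hf, div_le_iff₀ hN0]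
  rw [div_le_iff₀ hN0] at h1
  obtain ⟨r, hr⟩ : ∃ r : ℝ, r = Real.sqrt N := ⟨_, rfl⟩
  have hr0 : 0 < r := hr ▸ Real.sqrt_pos.2 hN0
  have hr2 : r * r = N := by rw [hr]; exact Real.mul_self_sqrt hN0.le
  rw [← hr] at hn h2
  rw [div_lt_iff₀ hr0] at h2
  have e : C * ((1 + α * N) / (2 * r) + r / 2) ≤ η / 3 * N := by
    have e1 : (1 + α * N) / (2 * r) + r / 2 ≤ (1 + α) * r := by
      rw [div_add_div _ _ (by positivity) two_ne_zero, div_le_iff₀ (by positivity)]
      nlinarith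
    have := mul_le_mul_of_nonneg_left h2.le hr0.le
    nlinarith [mul_le_mul_of_nonneg_left e1 hC0]
  nlinarith [mul_le_mul_of_nonneg_right hle hN0.le]

/-- The mean pressure is asymptotically at most the closed form at every order parameter. -/
theorem mean_upper (hc : 0 < c) (hα : 0 < α) {q0 : ℝ} {ls : List (ℝ × ℝ)} (h : RsbParam q0 ls) {η : ℝ}
    (hη : 0 < η) : ∀ᶠ N : ℕ in atTop, meanQ c N ⌊α * N⌋₊ ≤ negParisi c α q0 ls + η := by
  have h0 : Tendsto (fun δ => α * errD c δ) (𝓝[>] 0) (𝓝 0) := by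
    simpa using (tendsto_errD hc).const_mul α
  obtain ⟨δ, hδ, hm⟩ := ((h0.eventually_lt_const (half_pos hη)).and (Ioo_mem_nhdsGT one_pos)).exists
  filter_upwards [cube_upper hc hm.1 hm.2 hα h (half_pos hη), eventually_ge_atTop 1] with N h1 hN
  linarith [(meanQ_sandwich hc hm.1 hm.2 hN ⌊α * N⌋₊).2]

/-- The closed form is bounded below. -/
theorem negParisi_bddBelow (hc : 0 < c) (hα : 0 < α) :
    BddBelow {v | ∃ q0 ls, RsbParam q0 ls ∧ v = negParisi c α q0 ls} := by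
  set B := -Real.log (1 / 2)
  have hhalf : (0 : ℝ) < 1 / 2 ∧ (1 / 2 : ℝ) < 1 := by norm_num
  refine ⟨-((1 + B) * (α + 1)) - α * errD c (1 / 2) - 1, ?_⟩
  rintro _ ⟨q0, ls, h, rfl⟩
  obtain ⟨N, hN, h1⟩ := ((eventually_ge_atTop 1).and (mean_upper hc hα h one_pos)).exists
  have hf := pot_fD hc hhalf.1 hhalf.2
  have hs := (meanQ_sandwich hc hhalf.1 hhalf.2 hN ⌊α * N⌋₊).1
  rw [← cubeF_eq hf] at hs
  have hL := (abs_le.1 (abs_L_one (μ := cubeMeasure N) hf (measurable_of_finite (cubeVec N)) ⌊α * N⌋₊)).1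
  have hN0 : (0 : ℝ) < N := by exact_mod_cast hN
  have hN1 : (1 : ℝ) ≤ N := by exact_mod_cast hN
  have hM : (⌊α * N⌋₊ : ℝ) ≤ α * N := Nat.floor_le (by positivity)
  have hB : 0 ≤ 1 + B := by have := hf.nonneg; linarith
  have e1 : -((1 + B) * (α + 1)) ≤ cubeF (fD c (1 / 2)) N ⌊α * N⌋₊ / N := by
    rw [le_div_iff₀ hN0]
    have := mul_le_mul_of_nonneg_left (show (⌊α * N⌋₊ : ℝ) + 1 ≤ (α + 1) * N by linarith) hB
    simp only [cubeF, B] at *
    linarith
  have e2 : (⌊α * N⌋₊ : ℝ) / N * errD c (1 / 2) ≤ α * errD c (1 / 2) :=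
    mul_le_mul_of_nonneg_right ((div_le_iff₀ hN0).2 hM) (errD_nonneg hc hhalf.1)
  linarith

/-- The mean pressure is asymptotically at least the infimum of the closed form. -/
theorem mean_lower (hc : 0 < c) (hα : 0 < α) {l : ℝ}
    (hl : ∀ q0 ls, RsbParam q0 ls → l ≤ negParisi c α q0 ls) {η : ℝ} (hη : 0 < η) :
    ∀ᶠ N : ℕ in atTop, l - η ≤ meanQ c N ⌊α * N⌋₊ := by
  have h0 : Tendsto (fun δ => α * errD c δ + α * (4 * sqConst c * ∫ z, phiD c δ z ∂gaussianReal 0 1))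
      (𝓝[>] 0) (𝓝 0) := by
    simpa using ((tendsto_errD hc).const_mul α).add (((tendsto_phiD hc).const_mul (4 * sqConst c)).const_mul α)
  obtain ⟨δ, hδ, hm⟩ := ((h0.eventually_lt_const (half_pos hη)).and (Ioo_mem_nhdsGT one_pos)).exists
  set e := α * (4 * sqConst c * ∫ z, phiD c δ z ∂gaussianReal 0 1)
  have hp := Low.parisi_lower (pot_fD hc hm.1 hm.2).meas ⟨_, (pot_fD hc hm.1 hm.2).bound⟩ hα (c := l - e)
    (fun q0 ls h => by linarith [hl q0 ls h, negParisi_le_parisi hc hm.1 hm.2 hα.le h]) (half_pos hη)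
  filter_upwards [hp, eventually_ge_atTop 1] with N h1 hN
  have hN0 : (0 : ℝ) < N := by exact_mod_cast hN
  have hM : (⌊α * N⌋₊ : ℝ) / N ≤ α := (div_le_iff₀ hN0).2 (Nat.floor_le (by positivity))
  have := mul_le_mul_of_nonneg_right hM (errD_nonneg hc hm.1)
  linarith [(meanQ_sandwich hc hm.1 hm.2 hN ⌊α * N⌋₊).1]

/-- The pressure converges in mean to the infimum of the closed form. -/
theorem limit_formula (hc : 0 < c) (hα : 0 < α) :
    ∃ L, IsGLB {v | ∃ q0 ls, RsbParam q0 ls ∧ v = negParisi c α q0 ls} L ∧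
      Tendsto (fun N : ℕ => meanQ c N ⌊α * N⌋₊) atTop (𝓝 L) ∧
      Tendsto (fun N : ℕ => ∫ g, |pQ c N ⌊α * N⌋₊ g - L| ∂patPi N ⌊α * N⌋₊) atTop (𝓝 0) := by
  set S := {v | ∃ q0 ls, RsbParam q0 ls ∧ v = negParisi c α q0 ls}
  have hne : S.Nonempty := ⟨_, 0, [], ⟨le_rfl, List.isChain_nil, by simp, by simp⟩, rfl⟩
  have hglb := isGLB_csInf hne (negParisi_bddBelow hc hα)
  have hmean : Tendsto (fun N : ℕ => meanQ c N ⌊α * N⌋₊) atTop (𝓝 (sInf S)) := by
    refine tendsto_order.2 ⟨fun a ha => ?_, fun b hb => ?_⟩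
    · filter_upwards [mean_lower hc hα (fun q0 ls h => hglb.1 ⟨q0, ls, h, rfl⟩)
        (η := (sInf S - a) / 2) (by linarith)] with N hN
      linarith
    · obtain ⟨v, ⟨q0, ls, h, rfl⟩, hv⟩ := exists_lt_of_csInf_lt hne hb
      filter_upwards [mean_upper hc hα h (η := (b - negParisi c α q0 ls) / 2) (by linarith)] with N hN
      linarith
  refine ⟨sInf S, hglb, hmean, squeeze_zero' (Eventually.of_forall fun N => integral_nonneg fun _ => abs_nonneg _)
    ((eventually_ge_atTop 1).mono fun N hN => ?_)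
    (g := fun N : ℕ => (∫ g, |pQ c N ⌊α * N⌋₊ g - meanQ c N ⌊α * N⌋₊| ∂patPi N ⌊α * N⌋₊) +
      |meanQ c N ⌊α * N⌋₊ - sInf S|) ?_⟩
  · have hi := integrable_pQ hc hN ⌊α * N⌋₊
    refine (integral_mono (hi.sub (integrable_const _)).abs
      ((hi.sub (integrable_const (meanQ c N ⌊α * N⌋₊))).abs.add (integrable_const _))
      fun g => abs_sub_le _ (meanQ c N ⌊α * N⌋₊) _).trans_eq ?_
    simp only [Pi.add_apply, Pi.sub_apply]
    rw [integral_add (hi.sub' (integrable_const _)).abs (integrable_const _)]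
    simp
  · simpa using (pQ_concentration hc hα.le (tendsto_errD hc)).add ((hmean.sub_const (sInf S)).abs)

end Vale.Agent.P166N
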