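import Vale.Agent.P166N.PotBounds
import Vale.Agent.P157.Model
import Vale.Agent.P157.SecondMoment

/-!
The pressure of the quadratic potential lies within the mean gap of that of its regularisations, in
mean, and concentrates.
-/

namespace Vale.Agent.P166N

open MeasureTheory ProbabilityTheory Filter
open Vale.Agent.P157
open scoped RealInnerProductSpace Topology

variable {c δ : ℝ} {X : Type} [MeasurableSpace X] {μ : Measure X} [IsProbabilityMeasure μ]
  {E : Type} [NormedAddCommGroup E] [InnerProductSpace ℝ E] [FiniteDimensional ℝ E]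
  [MeasurableSpace E] [BorelSpace E] {v : X → E}

lemma neg_le_fQ (hc : 0 < c) (hv1 : ∀ x, ‖v x‖ = 1) (g : E) (x : X) :
    |fQ c ⟪g, v x⟫| ≤ c / 2 * ‖g‖ ^ 2 := by
  have h : |⟪g, v x⟫| ≤ ‖g‖ := abs_inner_le hv1 g x
  have h2 := mul_le_mul_of_nonneg_left (pow_le_pow_left₀ (abs_nonneg _) h 2) hc.le
  rw [sq_abs] at h2
  rw [fQ, abs_neg, abs_of_nonneg (by positivity)]
  linarith

lemma wt_fQ (hc : 0 < c) (hv : Measurable v) (hv1 : ∀ x, ‖v x‖ = 1) {k : ℕ} (g : Fin k → E) :
    Wt fun x => Real.exp (∑ a, fQ c ⟪g a, v x⟫) :=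
  Wt.exp (Finset.measurable_sum _ fun _ _ => (by unfold fQ; fun_prop : Measurable (fQ c)).comp
    (measurable_const.inner hv)) (β := ∑ a, c / 2 * ‖g a‖ ^ 2) fun x =>
      (Finset.abs_sum_le_sum_abs _ _).trans (Finset.sum_le_sum fun a _ => neg_le_fQ hc hv1 (g a) x)

lemma measurable_logZ_fQ (hv : Measurable v) {k : ℕ} {w : X → ℝ} (hw : Measurable w) :
    Measurable (logZ (k := k) μ (fQ c) v w) := by
  have h : Measurable fun z : (Fin k → E) × X => w z.2 * Real.exp (∑ a, fQ c ⟪z.1 a, v z.2⟫) :=
    (hw.comp measurable_snd).mul (Finset.measurable_sum _ fun a _ =>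
      (by unfold fQ; fun_prop : Measurable (fQ c)).comp
        (((measurable_pi_apply a).comp measurable_fst).inner (hv.comp measurable_snd))).exp
  exact (h.stronglyMeasurable.integral_prod_right' (ν := μ)).measurable.log

lemma integrable_logZ_fQ (hc : 0 < c) (hv : Measurable v) (hv1 : ∀ x, ‖v x‖ = 1) {k : ℕ} {w : X → ℝ}
    (hw : Wt w) : Integrable (logZ (k := k) μ (fQ c) v w) (Measure.pi fun _ => stdGaussian E) := by
  have hb : ∀ g : Fin k → E, |logZ μ (fQ c) v w g| ≤ |logI μ w| + ∑ a, c / 2 * ‖g a‖ ^ 2 := fun g => by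
    have hu := wt_fQ hc hv hv1 g
    have := isProbabilityMeasure_gibbs (μ := μ) hw
    rw [show logZ μ (fQ c) v w g = logI μ (fun x => w x * Real.exp (∑ a, fQ c ⟪g a, v x⟫)) from rfl,
      logI_mul hw hu]
    exact (abs_add_le _ _).trans (add_le_add le_rfl (abs_log_integral_exp_le
      (Finset.measurable_sum _ fun _ _ => (by unfold fQ; fun_prop : Measurable (fQ c)).comp
        (measurable_const.inner hv)) fun x => (Finset.abs_sum_le_sum_abs _ _).trans
          (Finset.sum_le_sum fun a _ => neg_le_fQ hc hv1 (g a) x)))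
  refine Integrable.mono' ((integrable_const _).add (integrable_finsetSum _ fun a _ => ?_))
    (measurable_logZ_fQ hv hw.meas).aestronglyMeasurable
    (Eventually.of_forall fun g => (Real.norm_eq_abs _).trans_le (hb g))
  exact (measurePreserving_eval (fun _ : Fin k => stdGaussian E) a).integrable_comp_of_integrable
    ((integrable_norm_pow 2).const_mul (c / 2))

lemma integrable_logZ_fD (hc : 0 < c) (hδ : 0 < δ) (hδ1 : δ < 1) (hv : Measurable v) {k : ℕ} {w : X → ℝ}
    (hw : Wt w) : Integrable (logZ (k := k) μ (fD c δ) v w) (Measure.pi fun _ => stdGaussian E) :=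
  Integrable.of_bound (measurable_logZ (pot_fD hc hδ hδ1) hv hw.meas).aestronglyMeasurable
    (|logI μ w| + k * (-Real.log δ)) (Eventually.of_forall fun g => by
      have h := abs_logZ_sub (μ := μ) (pot_fD hc hδ hδ1) hv hw g
      rw [Real.norm_eq_abs]
      linarith [abs_sub_abs_le_abs_sub (logZ μ (fD c δ) v w g) (logI μ w)])

/-- The regularised partition function is the larger. -/
lemma logZ_le (hc : 0 < c) (hδ : 0 < δ) (hδ1 : δ < 1) (hv : Measurable v) (hv1 : ∀ x, ‖v x‖ = 1)
    {k : ℕ} {w : X → ℝ} (hw : Wt w) (g : Fin k → E) :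
    logZ μ (fQ c) v w g ≤ logZ μ (fD c δ) v w g := by
  refine Real.log_le_log (hw.mul (wt_fQ hc hv hv1 g)).integral_pos
    (integral_mono (hw.mul (wt_fQ hc hv hv1 g)).integrable
      (hw.mul (wt_patterns (pot_fD hc hδ hδ1) hv g)).integrable fun x => ?_)
  exact mul_le_mul_of_nonneg_left (Real.exp_le_exp.2 (Finset.sum_le_sum fun a _ =>
    (fD_bounds hc hδ hδ1 _).2.2)) (hw.pos x).le

omit [IsProbabilityMeasure μ] [FiniteDimensional ℝ E] [MeasurableSpace E] [BorelSpace E] in
lemma logZ_cons {f : ℝ → ℝ} {k : ℕ} (w : X → ℝ) (g0 : E) (g : Fin k → E) :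
    logZ μ f v w (Fin.cons g0 g) = logZ μ f v (fun x => w x * pw f v g0 x) g := by
  simp only [logZ, pw]
  congr 1
  refine integral_congr_ae (Eventually.of_forall fun x => ?_)
  simp only [Fin.sum_univ_succ, Fin.cons_zero, Fin.cons_succ, Real.exp_add]
  ring

/-- One regularised pattern exceeds the quadratic one by at most the mean gap. -/
lemma gap_one (hc : 0 < c) (hδ : 0 < δ) (hδ1 : δ < 1) (hv : Measurable v) (hv1 : ∀ x, ‖v x‖ = 1)
    {u : X → ℝ} (hu : Wt u) :
    Integrable (fun g => logI μ (fun x => u x * pw (fD c δ) v g x) - logI μ (fun x => u x * pw (fQ c) v g x))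
        (stdGaussian E) ∧
      ∫ g, (logI μ (fun x => u x * pw (fD c δ) v g x) - logI μ (fun x => u x * pw (fQ c) v g x))
        ∂stdGaussian E ≤ errD c δ := by
  have := isProbabilityMeasure_gibbs (μ := μ) hu
  set G := gibbs μ u
  have hp := pot_fD hc hδ hδ1
  have hT : ∀ g : E, Measurable fun x => ⟪g, v x⟫ := fun g => measurable_const.inner hv
  have hwD : ∀ g : E, Wt fun x => Real.exp (fD c δ ⟪g, v x⟫) := fun g =>
    Wt.exp (hp.meas.comp (hT g)) fun x => hp.bound _
  have hfQm : Measurable (fQ c) := by unfold fQ; fun_prop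
  have hwQ : ∀ g : E, Wt fun x => Real.exp (fQ c ⟪g, v x⟫) := fun g =>
    Wt.exp (hfQm.comp (hT g)) fun x => neg_le_fQ hc hv1 g x
  have hDb : ∀ (g : E) x, |hD c δ ⟪g, v x⟫| ≤ c / 2 * ‖g‖ ^ 2 := fun g x => by
    rw [abs_of_nonneg (hD_nonneg hc hδ _)]
    refine (hD_le hc hδ hδ1 _).trans ?_
    have := neg_le_fQ hc hv1 g x
    rw [fQ, abs_neg] at this
    exact (le_abs_self _).trans this
  have hhm : Measurable (hD c δ) := (continuous_hD hc hδ).measurable
  have hpt : ∀ g, logI μ (fun x => u x * pw (fD c δ) v g x) - logI μ (fun x => u x * pw (fQ c) v g x) ≤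
      ∫ x, hD c δ ⟪g, v x⟫ ∂G := fun g => by
    simp only [pw]
    rw [logI_mul hu (hwD g), logI_mul hu (hwQ g), add_sub_add_left_eq_sub]
    have hX : RSB.Wgt G 1 fun x => fD c δ ⟪g, v x⟫ := ⟨hp.meas.comp (hT g), by
      simpa using (hwD g).integrable⟩
    have hY : RSB.Wgt G 1 fun x => fQ c ⟪g, v x⟫ := ⟨hfQm.comp (hT g), by
      simpa using (hwQ g).integrable⟩
    have hih : Integrable (fun x => hD c δ ⟪g, v x⟫) G :=
      Integrable.of_bound (hhm.comp (hT g)).aestronglyMeasurable (c / 2 * ‖g‖ ^ 2)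
        (Eventually.of_forall fun x => (Real.norm_eq_abs _).trans_le (hDb g x))
    have hiw : Integrable (fun x => Real.exp (1 * fD c δ ⟪g, v x⟫) * hD c δ ⟪g, v x⟫) G :=
      hX.int.mul_bdd (hhm.comp (hT g)).aestronglyMeasurable (c := c / 2 * ‖g‖ ^ 2)
        (Eventually.of_forall fun x => (Real.norm_eq_abs _).trans_le (hDb g x))
    have he : ∀ x, fD c δ ⟪g, v x⟫ - fQ c ⟪g, v x⟫ = hD c δ ⟪g, v x⟫ := fun x =>
      (hD_eq hc hδ hδ1 _).symm
    have h1 := lexp_sub_le one_pos hX hY (by simpa only [he] using hiw)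
    simp only [he] at h1
    have h2 := tilt_le_mean (edec_fD hc hδ hδ1) (einc_hD hc hδ) zero_le_one
      (fun x => ⟪g, v x⟫) hX hih hiw
    simp only [RSB.lexp, div_one, one_mul] at h1 h2
    linarith
  have hnn : ∀ g, 0 ≤ logI μ (fun x => u x * pw (fD c δ) v g x) - logI μ (fun x => u x * pw (fQ c) v g x) :=
    fun g => by
      refine sub_nonneg.2 (Real.log_le_log (hu.mul (hwQ g)).integral_pos
        (integral_mono (hu.mul (hwQ g)).integrable (hu.mul (hwD g)).integrable fun x => ?_))
      exact mul_le_mul_of_nonneg_left (Real.exp_le_exp.2 (fD_bounds hc hδ hδ1 _).2.2) (hu.pos x).le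
  have hFi : Integrable (fun p : E × X => hD c δ ⟪p.1, v p.2⟫) ((stdGaussian E).prod G) :=
    (((integrable_norm_pow (E := E) 2).const_mul (c / 2)).comp_fst G).mono'
      (hhm.comp (measurable_fst.inner (hv.comp measurable_snd))).aestronglyMeasurable
      (Eventually.of_forall fun p => (Real.norm_eq_abs _).trans_le (hDb p.1 p.2))
  have hmeas : Measurable fun g =>
      logI μ (fun x => u x * pw (fD c δ) v g x) - logI μ (fun x => u x * pw (fQ c) v g x) := by
    refine Measurable.sub ?_ ?_ <;> refine Measurable.log ?_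
    · exact (((hu.meas.comp measurable_snd).mul (hp.meas.comp
        (measurable_fst.inner (hv.comp measurable_snd))).exp).stronglyMeasurable.integral_prod_right'
          (ν := μ)).measurable
    · exact (((hu.meas.comp measurable_snd).mul (hfQm.comp
        (measurable_fst.inner (hv.comp measurable_snd))).exp).stronglyMeasurable.integral_prod_right'
          (ν := μ)).measurable
  have hi : Integrable (fun g =>
      logI μ (fun x => u x * pw (fD c δ) v g x) - logI μ (fun x => u x * pw (fQ c) v g x)) (stdGaussian E) :=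
    hFi.integral_prod_left.mono' hmeas.aestronglyMeasurable (Eventually.of_forall fun g => by
      rw [Real.norm_eq_abs, abs_of_nonneg (hnn g)]; exact hpt g)
  refine ⟨hi, (integral_mono hi hFi.integral_prod_left hpt).trans (le_of_eq ?_)⟩
  show ∫ g, ∫ x, hD c δ ⟪g, v x⟫ ∂G ∂stdGaussian E = _
  rw [integral_integral_swap hFi]
  have e : ∀ x, ∫ g, hD c δ ⟪g, v x⟫ ∂stdGaussian E = errD c δ := fun x => by
    have hm := measurePreserving_inner (hv1 x)
    rw [errD, ← hm.map_eq, integral_map hm.measurable.aemeasurable]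
    exact hhm.aestronglyMeasurable
  simp [e]

/-- All regularised patterns exceed the quadratic ones by at most the mean gap each. -/
theorem gap_le (hc : 0 < c) (hδ : 0 < δ) (hδ1 : δ < 1) (hv : Measurable v) (hv1 : ∀ x, ‖v x‖ = 1) :
    ∀ (k : ℕ) (w : X → ℝ), Wt w →
      ∫ g, (logZ μ (fD c δ) v w g - logZ μ (fQ c) v w g) ∂Measure.pi (fun _ : Fin k => stdGaussian E) ≤
        k * errD c δ := by
  intro k
  induction k with
  | zero => intro w _; simp [logZ]
  | succ k ih =>
    intro w hw
    set π := Measure.pi fun _ : Fin k => stdGaussian E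
    have hmp := measurePreserving_piFinSuccAbove (fun _ : Fin (k + 1) => stdGaussian E) 0
    set F : (Fin (k + 1) → E) → ℝ := fun g => logZ μ (fD c δ) v w g - logZ μ (fQ c) v w g with hF
    have hFi : Integrable F (Measure.pi fun _ : Fin (k + 1) => stdGaussian E) :=
      (integrable_logZ_fD hc hδ hδ1 hv hw).sub (integrable_logZ_fQ hc hv hv1 hw)
    have hint : Integrable (fun p : E × (Fin k → E) => F (Fin.cons p.1 p.2)) ((stdGaussian E).prod π) := by
      have h := (hmp.symm _).integrable_comp_of_integrable hFi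
      refine h.congr (Eventually.of_forall fun p => ?_)
      simp [MeasurableEquiv.piFinSuccAbove, Fin.insertNthEquiv]
    have hrw : ∫ g, F g ∂Measure.pi (fun _ : Fin (k + 1) => stdGaussian E) =
        ∫ p, F (Fin.cons p.1 p.2) ∂(stdGaussian E).prod π := by
      rw [← hmp.map_eq, integral_map hmp.measurable.aemeasurable
        (by rw [hmp.map_eq]; exact hint.aestronglyMeasurable)]
      refine integral_congr_ae (Eventually.of_forall fun g => ?_)
      simp [MeasurableEquiv.piFinSuccAbove, Fin.tail_def]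
      exact (congrArg F (Fin.cons_self_tail g)).symm
    set W := fun g0 x => w x * pw (fD c δ) v g0 x
    have hW : ∀ g0, Wt (W g0) := fun g0 => hw.mul ((mult_pw (pot_fD hc hδ hδ1) hv).wt g0)
    set A : E × (Fin k → E) → ℝ := fun p => logZ μ (fD c δ) v (W p.1) p.2 - logZ μ (fQ c) v (W p.1) p.2
      with hA
    set Bf : E × (Fin k → E) → ℝ := fun p =>
      logI μ (fun x => w x * Real.exp (∑ a, fQ c ⟪p.2 a, v x⟫) * pw (fD c δ) v p.1 x) -
        logI μ (fun x => w x * Real.exp (∑ a, fQ c ⟪p.2 a, v x⟫) * pw (fQ c) v p.1 x) with hB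
    have hsum : ∀ p : E × (Fin k → E), F (Fin.cons p.1 p.2) = A p + Bf p := fun p => by
      simp only [hF, hA, hB, logZ_cons, W]
      have e : ∀ f : ℝ → ℝ, logI μ (fun x => w x * Real.exp (∑ a, fQ c ⟪p.2 a, v x⟫) * pw f v p.1 x) =
          logZ μ (fQ c) v (fun x => w x * pw f v p.1 x) p.2 := fun f => by
        simp only [logI, logZ]
        congr 1
        exact integral_congr_ae (Eventually.of_forall fun x => by ring)
      rw [e, e]
      ring
    have hBn : ∀ p, 0 ≤ Bf p := fun p => by
      have hu := hw.mul (wt_fQ hc hv hv1 p.2)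
      have hfQm : Measurable (fQ c) := by unfold fQ; fun_prop
      have hwQ : Wt fun x => pw (fQ c) v p.1 x :=
        Wt.exp (hfQm.comp (measurable_const.inner hv)) fun x => neg_le_fQ hc hv1 p.1 x
      refine sub_nonneg.2 (Real.log_le_log (hu.mul hwQ).integral_pos
        (integral_mono (hu.mul hwQ).integrable
          (hu.mul ((mult_pw (pot_fD hc hδ hδ1) hv).wt p.1)).integrable fun x => ?_))
      exact mul_le_mul_of_nonneg_left (Real.exp_le_exp.2 (fD_bounds hc hδ hδ1 _).2.2) (hu.pos x).le
    have hAn : ∀ p, 0 ≤ A p := fun p => sub_nonneg.2 (logZ_le hc hδ hδ1 hv hv1 (hW p.1) p.2)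
    have hAm : Measurable A := by
      have hWm : Measurable fun z : E × X => W z.1 z.2 :=
        (hw.meas.comp measurable_snd).mul (measurable_pw (pot_fD hc hδ hδ1) hv)
      have h : ∀ {f : ℝ → ℝ}, Measurable f →
          Measurable fun p : E × (Fin k → E) => logZ μ f v (W p.1) p.2 := fun {f} hf => by
        have h2 : Measurable fun z : (E × (Fin k → E)) × X =>
            W z.1.1 z.2 * Real.exp (∑ a, f ⟪z.1.2 a, v z.2⟫) :=
          (hWm.comp ((measurable_fst.comp measurable_fst).prodMk measurable_snd)).mul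
            (Finset.measurable_sum _ fun a _ => hf.comp (((measurable_pi_apply a).comp
              (measurable_snd.comp measurable_fst)).inner (hv.comp measurable_snd))).exp
        exact (h2.stronglyMeasurable.integral_prod_right' (ν := μ)).measurable.log
      exact (h (pot_fD hc hδ hδ1).meas).sub (h (by unfold fQ; fun_prop))
    have hAi : Integrable A ((stdGaussian E).prod π) :=
      hint.mono' hAm.aestronglyMeasurable (Eventually.of_forall fun p => by
        rw [Real.norm_eq_abs, abs_of_nonneg (hAn p), hsum]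
        linarith [hBn p])
    have hBi : Integrable Bf ((stdGaussian E).prod π) :=
      (hint.sub hAi).congr (Eventually.of_forall fun p => by simp only [Pi.sub_apply, hsum]; ring)
    rw [hrw, integral_congr_ae (Eventually.of_forall hsum), integral_add hAi hBi]
    push_cast
    rw [add_mul, one_mul]
    refine add_le_add ?_ ?_
    · rw [integral_prod _ hAi]
      refine (integral_mono hAi.integral_prod_left (integrable_const _) fun g0 => ih _ (hW g0)).trans_eq ?_
      simp
    · rw [integral_prod_symm _ hBi]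
      refine (integral_mono hBi.integral_prod_right (integrable_const (errD c δ)) fun g' =>
        (gap_one hc hδ hδ1 hv hv1 (hw.mul (wt_fQ hc hv hv1 g'))).2).trans_eq ?_
      simp

end Vale.Agent.P166N
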