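import Vale.Agent.P166N.InterpSys
import Vale.Agent.P166N.Defs
import Vale.Agent.P157.Low.Telescope

/-!
The ends of the interpolation, and the fluctuations of the interpolating systems.
-/

namespace Vale.Agent.P166N

open MeasureTheory ProbabilityTheory
open Vale.Agent.P157 Vale.Agent.P157.Low
open scoped RealInnerProductSpace

/-- Summing over spins in a field. -/
lemma cube_exp {N : ℕ} (H : Fin N → ℝ) :
    (∑ σ : Fin N → Bool, Real.exp (∑ i, sgn (σ i) * H i)) / (2 : ℝ) ^ N =
      ∏ i, Real.cosh (H i) := by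
  simp only [Real.exp_sum]
  rw [← Fintype.prod_sum (fun i b => Real.exp (sgn b * H i)),
    show (2 : ℝ) ^ N = ∏ _i : Fin N, (2 : ℝ) by simp, ← Finset.prod_div_distrib]
  exact Finset.prod_congr rfl fun i _ => by simp [sgn, Real.cosh_eq]

section leaves

variable {n : ℕ} {L : Type} [MeasurableSpace L] [MeasurableSingletonClass L] [Fintype L]
  {I κ κ' : Type} [Fintype I] [Fintype κ] [Fintype κ']

/-- Features of the spins in a field. -/
noncomputable def spinA (n : ℕ) (ah : L → I → ℝ) (y : Conf n L) :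
    EuclideanSpace ℝ (I × Fin (n + 1)) :=
  WithLp.toLp 2 fun z => sgn (y.1 z.2) * ah y.2 z.1

/-- Features of the shifts. -/
noncomputable def linA (n : ℕ) (ay : L → I → ℝ) (y : Conf n L) : EuclideanSpace ℝ (I × Fin 1) :=
  WithLp.toLp 2 fun z => ay y.2 z.1

/-- Two groups of coordinates. -/
noncomputable def joinA (V : Conf n L → EuclideanSpace ℝ κ) (W : Conf n L → EuclideanSpace ℝ κ')
    (y : Conf n L) : EuclideanSpace ℝ (κ ⊕ κ') :=
  WithLp.toLp 2 (Sum.elim (fun i => V y i) fun i => W y i)

omit [MeasurableSpace L] [MeasurableSingletonClass L] [Fintype L] in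
lemma ovL_join (V : Conf n L → EuclideanSpace ℝ κ) (W : Conf n L → EuclideanSpace ℝ κ')
    (a b : Conf n L) : ovL (joinA V W) a b = ∑ i, V a i * V b i ∧
      ovR (joinA V W) a b = ∑ i, W a i * W b i := ⟨rfl, rfl⟩

omit [MeasurableSpace L] [MeasurableSingletonClass L] [Fintype L] in
lemma sum_spinA (ah : L → I → ℝ) (a b : Conf n L) :
    ∑ z, spinA n ah a z * spinA n ah b z =
      (∑ i, sgn (a.1 i) * sgn (b.1 i)) * ∑ ν, ah a.2 ν * ah b.2 ν := by
  rw [Fintype.sum_prod_type, Finset.sum_mul_sum, Finset.sum_comm]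
  exact Finset.sum_congr rfl fun i _ => Finset.sum_congr rfl fun ν _ => by
    simp only [spinA]; ring

omit [MeasurableSpace L] [MeasurableSingletonClass L] [Fintype L] in
lemma sum_linA (ay : L → I → ℝ) (a b : Conf n L) :
    ∑ z, linA n ay a z * linA n ay b z = ∑ ν, ay a.2 ν * ay b.2 ν := by
  simp [Fintype.sum_prod_type, linA]

omit [MeasurableSpace L] [MeasurableSingletonClass L] [Fintype L] in
lemma norm_sq_eq (A : Conf n L → EuclideanSpace ℝ (κ ⊕ κ')) (y : Conf n L) :
    ‖A y‖ ^ 2 = ovL A y y + ovR A y y := by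
  rw [EuclideanSpace.real_norm_sq_eq, Fintype.sum_sum_type]
  simp [ovL, ovR, sq]

variable (μL : Measure L) [IsProbabilityMeasure μL]

/-- All the variance in the first group. -/
lemma elz_join_left (V : Conf n L → EuclideanSpace ℝ κ) (W : Conf n L → EuclideanSpace ℝ κ')
    {w : Conf n L → ℝ} (hw : Wt w) :
    elz ((cubeMeasure (n + 1)).prod μL) (ifld (joinA V W) 1 0) w =
      elz ((cubeMeasure (n + 1)).prod μL) V w := by
  set φ : EuclideanSpace ℝ (κ ⊕ κ') → EuclideanSpace ℝ κ :=
    fun g => WithLp.toLp 2 fun i => g (Sum.inl i)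
  set ψ : EuclideanSpace ℝ κ → EuclideanSpace ℝ (κ ⊕ κ') :=
    fun t => WithLp.toLp 2 (Sum.elim (fun i => t i) fun _ => 0)
  have hφ : ∀ g t, ⟪φ g, t⟫ = ⟪g, ψ t⟫ := fun g t => by
    simp [φ, ψ, PiLp.inner_apply, Fintype.sum_sum_type]
  have hn : ∀ t, ‖ψ t‖ = ‖t‖ := fun t => by
    refine (pow_left_inj₀ (norm_nonneg _) (norm_nonneg _) two_ne_zero).1 ?_
    simp [EuclideanSpace.real_norm_sq_eq, ψ, Fintype.sum_sum_type]
  have hmp := measurePreserving_stdGaussian (φ := φ) (by fun_prop) ψ hφ hn
  have hm := (integrable_lz_one (μ := (cubeMeasure (n + 1)).prod μL) hw (measurable_of_finite V)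
    (norm_le_sum V)).aestronglyMeasurable
  rw [← elz_transport hmp hφ hm]
  congr 1
  funext y
  ext (i | i) <;> simp [ifld, cmul, scale2, joinA, ψ]

/-- All the variance in the second group. -/
lemma elz_join_right (V : Conf n L → EuclideanSpace ℝ κ) (W : Conf n L → EuclideanSpace ℝ κ')
    {w : Conf n L → ℝ} (hw : Wt w) :
    elz ((cubeMeasure (n + 1)).prod μL) (ifld (joinA V W) 0 1) w =
      elz ((cubeMeasure (n + 1)).prod μL) W w := by
  set φ : EuclideanSpace ℝ (κ ⊕ κ') → EuclideanSpace ℝ κ' :=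
    fun g => WithLp.toLp 2 fun i => g (Sum.inr i)
  set ψ : EuclideanSpace ℝ κ' → EuclideanSpace ℝ (κ ⊕ κ') :=
    fun t => WithLp.toLp 2 (Sum.elim (fun _ => 0) fun i => t i)
  have hφ : ∀ g t, ⟪φ g, t⟫ = ⟪g, ψ t⟫ := fun g t => by
    simp [φ, ψ, PiLp.inner_apply, Fintype.sum_sum_type]
  have hn : ∀ t, ‖ψ t‖ = ‖t‖ := fun t => by
    refine (pow_left_inj₀ (norm_nonneg _) (norm_nonneg _) two_ne_zero).1 ?_
    simp [EuclideanSpace.real_norm_sq_eq, ψ, Fintype.sum_sum_type]
  have hmp := measurePreserving_stdGaussian (φ := φ) (by fun_prop) ψ hφ hn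
  have hm := (integrable_lz_one (μ := (cubeMeasure (n + 1)).prod μL) hw (measurable_of_finite W)
    (norm_le_sum W)).aestronglyMeasurable
  rw [← elz_transport hmp hφ hm]
  congr 1
  funext y
  ext (i | i) <;> simp [ifld, cmul, scale2, joinA, ψ]

variable {ρ : L → ℝ} (hμ : ∀ F : L → ℝ, ∫ l, F l ∂μL = ∑ l, ρ l * F l)
include hμ

/-- The spins in their fields give the single-site energies. -/
lemma elz_spinA (ah : L → I → ℝ) :
    elz ((cubeMeasure (n + 1)).prod μL) (spinA n ah) (fun _ => 1) =
      leafVal (n + 1) ah (spinG (n + 1)) ρ := by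
  refine integral_congr_ae (Filter.Eventually.of_forall fun g => ?_)
  simp only [lz, logI, one_mul]
  congr 1
  rw [integral_prod_symm _ Integrable.of_finite, hμ]
  refine Finset.sum_congr rfl fun l _ => ?_
  congr 1
  rw [integral_cube, spinG, Real.exp_sum]
  have e : ∀ σ : Fin (n + 1) → Bool, ⟪g, spinA n ah (σ, l)⟫ =
      ∑ i, sgn (σ i) * leafField (n + 1) ah l g i := fun σ => by
    simp only [PiLp.inner_apply, RCLike.inner_apply, conj_trivial, spinA, leafField, Finset.mul_sum,
      Fintype.sum_prod_type]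
    rw [Finset.sum_comm]
    exact Finset.sum_congr rfl fun i _ => Finset.sum_congr rfl fun ν _ => by ring
  simp only [e]
  rw [cube_exp fun i => leafField (n + 1) ah l g i]
  exact Finset.prod_congr rfl fun i _ => (Real.exp_log (Real.cosh_pos _)).symm

/-- Weights on the spins separate from shifts on the leaves. -/
lemma elz_linA (ay : L → I → ℝ) {u : (Fin (n + 1) → Bool) → ℝ} (hu : ∀ σ, 0 < u σ) :
    elz ((cubeMeasure (n + 1)).prod μL) (linA n ay) (fun y => u y.1) =
      logI (cubeMeasure (n + 1)) u + leafVal 1 ay linG ρ := by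
  set μX := (cubeMeasure (n + 1)).prod μL
  have hw : Wt fun y : Conf n L => u y.1 := wt_of_finite fun y => hu y.1
  have hi := integrable_lz_one (μ := μX) hw (measurable_of_finite (linA n ay)) (norm_le_sum _)
  have e : ∀ g, lz μX (linA n ay) (fun y => u y.1) g = logI (cubeMeasure (n + 1)) u +
      Real.log (∑ l, ρ l * Real.exp (linG (leafField 1 ay l g))) := fun g => by
    have e1 : ∀ y : Conf n L, u y.1 * Real.exp ⟪g, linA n ay y⟫ =
        u y.1 * Real.exp (linG (leafField 1 ay y.2 g)) := fun y => by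
      congr 2
      simp [PiLp.inner_apply, linA, linG, leafField, Fintype.sum_prod_type]
    have hp1 := (wt_of_finite hu).integral_pos (μ := cubeMeasure (n + 1))
    have hp2 := (wt_of_finite (w := fun l => Real.exp (linG (leafField 1 ay l g)))
      fun l => Real.exp_pos _).integral_pos (μ := μL)
    simp only [lz, logI, e1]
    rw [integral_prod_mul (f := u) (g := fun l => Real.exp (linG (leafField 1 ay l g))),
      Real.log_mul hp1.ne' hp2.ne', hμ]
  have hi2 : Integrable (fun g => Real.log (∑ l, ρ l * Real.exp (linG (leafField 1 ay l g))))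
      (stdGaussian (EuclideanSpace ℝ (I × Fin 1))) :=
    (hi.sub (integrable_const (logI (cubeMeasure (n + 1)) u))).congr
      (Filter.Eventually.of_forall fun g => by simp [e])
  rw [elz, integral_congr_ae (Filter.Eventually.of_forall e), integral_add (integrable_const _) hi2]
  simp [leafVal]

end leaves

/-- Fluctuations in two independent sources add. -/
lemma fluct_prod {Ω G : Type} [MeasurableSpace Ω] [MeasurableSpace G] {μ : Measure Ω}
    [IsProbabilityMeasure μ] {γ : Measure G} [IsProbabilityMeasure γ] {H : Ω × G → ℝ}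
    (hH : Integrable H (μ.prod γ)) (hs : ∀ g, Integrable (fun ω => H (ω, g)) μ) {V1 V2 : ℝ}
    (h1 : ∀ g, ∫ ω, |H (ω, g) - ∫ ω', H (ω', g) ∂μ| ∂μ ≤ V1)
    (h2 : ∀ ω, ∫ g, |H (ω, g) - ∫ g', H (ω, g') ∂γ| ∂γ ≤ V2) :
    ∫ z, |H z - ∫ z', H z' ∂μ.prod γ| ∂μ.prod γ ≤ V1 + V2 := by
  set a : G → ℝ := fun g => ∫ ω', H (ω', g) ∂μ
  set b : Ω → ℝ := fun ω => ∫ g', H (ω, g') ∂γ
  set m := ∫ z', H z' ∂μ.prod γ
  have ha : Integrable a γ := hH.integral_prod_right
  have hb : Integrable b μ := hH.integral_prod_left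
  have i1 : Integrable (fun z : Ω × G => |H z - a z.2|) (μ.prod γ) := (hH.sub' (ha.comp_snd μ)).abs
  have i2 : Integrable (fun z : Ω × G => |a z.2 - m|) (μ.prod γ) :=
    ((ha.comp_snd μ).sub' (integrable_const m)).abs
  have i3 : Integrable (fun z : Ω × G => |H z - b z.1|) (μ.prod γ) := (hH.sub' (hb.comp_fst γ)).abs
  have hm : m = ∫ ω, b ω ∂μ := integral_prod _ hH
  have e1 : ∫ z, |H z - a z.2| ∂μ.prod γ ≤ V1 := by
    rw [integral_prod_symm _ i1]
    exact (integral_mono i1.integral_prod_right (integrable_const V1) h1).trans_eq (by simp)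
  have e2 : ∫ g, |a g - m| ∂γ ≤ V2 := by
    refine le_trans (integral_mono (ha.sub' (integrable_const m)).abs i3.integral_prod_right
      fun g => ?_) ?_
    · simp only
      rw [hm, ← integral_sub (hs g) hb]
      exact abs_integral_le_integral_abs
    · rw [← integral_prod_symm _ i3, integral_prod _ i3]
      exact (integral_mono i3.integral_prod_left (integrable_const V2) h2).trans_eq (by simp)
  refine (integral_mono (hH.sub' (integrable_const m)).abs (i1.add i2) fun z =>
    abs_sub_le _ _ _).trans ?_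
  simp only [Pi.add_apply]
  rw [integral_add i1 i2, integral_fun_snd (fun g => |a g - m|)]
  simp only [probReal_univ, one_smul]
  linarith

section bounds

variable {f : ℝ → ℝ} {B : ℝ} {n P : ℕ} {L : Type} [MeasurableSpace L] [MeasurableSingletonClass L]
  [Fintype L] {ι : Type} [Fintype ι]

/-- Fluctuations of the interpolating system under any tilt. -/
lemma interSys_fluct (hf : Pot f B) (μL : Measure L) [IsProbabilityMeasure μL]
    (U : Conf n L → EuclideanSpace ℝ ι) {l : ℝ} (hU : ∀ y, ‖U y‖ ≤ l) {lam : ℝ} (hl : 0 ≤ lam)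
    (F : Conf n L → ℝ) :
    Integrable (fun ω => logI (interSys hf μL U lam 0).ref
        (fun a => (interSys hf μL U lam 0).w ω a * Real.exp (F a))) (interSys hf μL U lam 0).law ∧
      ∫ ω, |logI (interSys hf μL U lam 0).ref (fun a => (interSys hf μL U lam 0).w ω a * Real.exp (F a)) -
          ∫ ω', logI (interSys hf μL U lam 0).ref (fun a => (interSys hf μL U lam 0).w ω' a * Real.exp (F a))
            ∂(interSys hf μL U lam 0).law| ∂(interSys hf μL U lam 0).law ≤
        6 * (B + 1) * (Real.sqrt lam + 1) + (3 * l + 2) := by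
  have hl0 : 0 ≤ l := by
    obtain ⟨y⟩ : Nonempty (Conf n L) :=
      nonempty_of_isProbabilityMeasure ((cubeMeasure (n + 1)).prod μL)
    exact (norm_nonneg _).trans (hU y)
  set μX := (cubeMeasure (n + 1)).prod μL
  set γ := stdGaussian (EuclideanSpace ℝ ι)
  set base := (poiLaw lam).prod (patLaw (n + 1))
  set w : ℕ × (ℕ → Sp (n + 1)) → Conf n L → ℝ := fun ω a => pW f n 0 ω a.1 * Real.exp (F a)
  set H : (ℕ × (ℕ → Sp (n + 1))) × EuclideanSpace ℝ ι → ℝ := fun z => lz μX U (w z.1) z.2
  have hH : ∀ z : (ℕ × (ℕ → Sp (n + 1))) × EuclideanSpace ℝ ι, logI μX (fun a : Conf n L =>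
      (interSys hf μL U lam 0).w z a * Real.exp (F a)) = H z := fun z => by
    simp only [H, lz, w]
    refine congrArg (logI μX) (funext fun a => ?_)
    show pW f n 0 z.1 a.1 * Real.exp ⟪z.2, U a⟫ * Real.exp (F a) = _
    ring
  show Integrable (fun z : (ℕ × (ℕ → Sp (n + 1))) × EuclideanSpace ℝ ι => logI μX (fun a : Conf n L =>
      (interSys hf μL U lam 0).w z a * Real.exp (F a))) (base.prod γ) ∧
    ∫ z : (ℕ × (ℕ → Sp (n + 1))) × EuclideanSpace ℝ ι, |logI μX (fun a : Conf n L =>
      (interSys hf μL U lam 0).w z a * Real.exp (F a)) -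
      ∫ z' : (ℕ × (ℕ → Sp (n + 1))) × EuclideanSpace ℝ ι, logI μX (fun a : Conf n L =>
        (interSys hf μL U lam 0).w z' a * Real.exp (F a)) ∂base.prod γ| ∂base.prod γ ≤ _
  simp only [hH]
  have hwm : ∀ a : Conf n L, Measurable fun ω : ℕ × (ℕ → Sp (n + 1)) => w ω a := fun a => by
    refine Measurable.mul_const ?_ _
    refine measurable_from_prod_countable_right fun M => ?_
    have := hf.meas
    simp only [pW]
    exact (Finset.measurable_sum (Finset.range (M + 0)) fun b _ => by fun_prop).exp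
  have hwt : ∀ ω, Wt (w ω) := fun ω => wt_of_finite fun a => mul_pos (Real.exp_pos _) (Real.exp_pos _)
  have hHm : Measurable H := by
    refine measurable_lz (μ := μX) (W := fun (z : (ℕ × (ℕ → Sp (n + 1))) × EuclideanSpace ℝ ι) a =>
      w z.1 a) (h := fun z => z.2) (measurable_of_finite U) ?_ measurable_snd
    exact measurable_from_prod_countable_left fun a => (hwm a).comp measurable_fst
  have hHb : ∀ ω g, |H (ω, g)| ≤ (ω.1 : ℝ) * B + ∑ a, |F a| + l * ‖g‖ := fun ω g => by
    have h := abs_lz_sub (μ := μX) (hwt ω) (measurable_of_finite U) hU g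
    have h' : |logI μX (w ω)| ≤ (ω.1 : ℝ) * B + ∑ a, |F a| := by
      rw [logI, show w ω = fun a => Real.exp ((∑ b ∈ Finset.range (ω.1 + 0),
        f ⟪ω.2 b, cubeVec (n + 1) a.1⟫) + F a) from funext fun a => by
          simp only [w, pW, Real.exp_add]]
      refine abs_log_integral_exp_le (measurable_of_finite _) fun a => (abs_add_le _ _).trans
        (add_le_add ((Finset.abs_sum_le_sum_abs _ _).trans
          ((Finset.sum_le_sum fun b _ => hf.bound _).trans_eq (by simp))) ?_)
      exact Finset.single_le_sum (f := fun a => |F a|) (fun _ _ => abs_nonneg _) (Finset.mem_univ a)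
    linarith [abs_sub_abs_le_abs_sub (H (ω, g)) (logI μX (w ω))]
  have hg1 : Integrable (fun g : EuclideanSpace ℝ ι => l * ‖g‖) γ := by
    simpa using (integrable_norm_pow (E := EuclideanSpace ℝ ι) 1).const_mul l
  have hp : Integrable (fun M : ℕ => (M : ℝ) * B) (poiLaw lam) := by
    simpa using (integrable_poiLaw_pow lam 1).mul_const B
  have hbd : Integrable (fun ω : ℕ × (ℕ → Sp (n + 1)) => (ω.1 : ℝ) * B + ∑ a, |F a|) base :=
    (hp.comp_fst _).add (integrable_const _)
  have hHi : Integrable H (base.prod γ) :=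
    ((hbd.comp_fst γ).add (hg1.comp_snd base)).mono' hHm.aestronglyMeasurable
      (Filter.Eventually.of_forall fun z => (Real.norm_eq_abs _).trans_le (hHb z.1 z.2))
  refine ⟨hHi, fluct_prod hHi (fun g => ?_) (fun g => ?_) fun ω => ?_⟩
  · exact (hbd.add (integrable_const (l * ‖g‖))).mono'
      (hHm.comp (measurable_id.prodMk measurable_const)).aestronglyMeasurable
      (Filter.Eventually.of_forall fun ω => (Real.norm_eq_abs _).trans_le (hHb ω g))
  · set F' : (Fin (n + 1) → Bool) → ℝ := fun σ =>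
      Real.log (∫ a, Real.exp (F (σ, a) + ⟪g, U (σ, a)⟫) ∂μL)
    have e : ∀ ω, H (ω, g) = logI (cubeMeasure (n + 1)) fun σ => pW f n 0 ω σ * Real.exp (F' σ) := fun ω => by
      simp only [H, lz, logI, w]
      rw [integral_prod _ Integrable.of_finite]
      refine congrArg Real.log (integral_congr_ae (Filter.Eventually.of_forall fun σ => ?_))
      have hp := (wt_of_finite (w := fun a => Real.exp (F (σ, a) + ⟪g, U (σ, a)⟫))
        fun a => Real.exp_pos _).integral_pos (μ := μL)
      simp only [F']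
      rw [Real.exp_log hp, ← integral_const_mul]
      refine integral_congr_ae (Filter.Eventually.of_forall fun a => ?_)
      simp only [Real.exp_add]
      ring
    simp only [e]
    exact (baseSys_fluct hf hl (F := F')).2
  · obtain ⟨i1, i2⟩ := integrable_lz (μ := μX) (hwt ω) (measurable_of_finite U) hU 1
    simp only [one_smul] at i1 i2
    have hv := variance_field (μ := μX) (hwt ω) (measurable_of_finite U) hU
    set m := ∫ h', lz μX U (w ω) h' ∂γ
    have hsq : Integrable (fun h => (lz μX U (w ω) h - m) ^ 2) γ := by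
      refine ((i2.sub' (i1.const_mul (2 * m))).add (integrable_const (m ^ 2))).congr
        (Filter.Eventually.of_forall fun h => ?_)
      simp only [Pi.add_apply]
      ring
    have ht : 0 < 3 * l + 1 := by linarith
    refine (integral_mono (i1.sub' (integrable_const m)).abs
      ((hsq.div_const (2 * (3 * l + 1))).add (integrable_const ((3 * l + 1) / 2)))
      fun h => abs_le_amgm _ ht).trans ?_
    simp only [Pi.add_apply]
    rw [integral_add (hsq.div_const _) (integrable_const _), integral_div]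
    have h5 : (∫ h, (lz μX U (w ω) h - m) ^ 2 ∂γ) / (2 * (3 * l + 1)) ≤ l := by
      rw [div_le_iff₀ (by linarith)]
      refine hv.trans ?_
      nlinarith [sq_nonneg l]
    simp only [integral_const, probReal_univ, one_smul]
    linarith

/-- The expectation of a bounded function of the overlap. -/
lemma abs_expect_le (hf : Pot f B) (μL : Measure L) [IsProbabilityMeasure μL] {κ κ' : Type}
    [Fintype κ] [Fintype κ'] (U : Conf n L → EuclideanSpace ℝ (κ ⊕ κ')) (lam : ℝ) (x : Fin P → ℝ)
    {Φ : ℝ → ℝ} {D : ℝ} (hD : ∀ r, |Φ r| ≤ D) :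
    |(iSys hf μL U lam 0 x).expect fun R : Mat 2 => Φ (R 0 1)| ≤ D := by
  rw [iSys_expect, ← Real.norm_eq_abs]
  refine (norm_integral_le_of_norm_le_const (C := D) (Filter.Eventually.of_forall fun z => ?_)).trans_eq
    (by simp)
  rw [Real.norm_eq_abs, iPair]
  exact abs_gibbsAvg_le (wt_iW U 0 x f z) fun r => hD _

/-- At the start only the perturbation is left besides the fields. -/
lemma iSys_start (hf : Pot f B) (hf0 : ∀ s, f s ≤ 0) (μL : Measure L) [IsProbabilityMeasure μL]
    (U : Conf n L → EuclideanSpace ℝ ι) (lam : ℝ) (x : Fin P → ℝ) :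
    (iSys hf μL U lam 0 x).free ≤ elz ((cubeMeasure (n + 1)).prod μL) U (fun _ => 1) +
      (strength n * ∑ q, |x q|) ^ 2 / 2 := by
  set μX := (cubeMeasure (n + 1)).prod μL
  set V : Conf n L → PertSpace (n + 1) P := fun y => strength n • pertVec x (cub y)
  have hs : 0 ≤ strength n := Real.rpow_nonneg (by positivity) _
  have hV : ∀ y, ‖V y‖ ≤ strength n * ∑ q, |x q| := fun y => by
    rw [norm_smul, Real.norm_eq_abs, abs_of_nonneg hs]
    exact mul_le_mul_of_nonneg_left (norm_pertVec_le x _ (norm_cub y)) hs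
  set γG := stdGaussian (EuclideanSpace ℝ ι)
  set γJ := stdGaussian (PertSpace (n + 1) P)
  set wJ : PertSpace (n + 1) P → Conf n L → ℝ := fun J y => Real.exp ⟪J, V y⟫
  have hwJ : ∀ J, Wt (wJ J) := fun J => wt_of_finite fun y => Real.exp_pos _
  have hwG : ∀ g, Wt fun y => Real.exp ⟪g, U y⟫ := fun g => wt_of_finite fun y => Real.exp_pos _
  set H : PertSpace (n + 1) P × EuclideanSpace ℝ ι → ℝ := fun p => lz μX U (wJ p.1) p.2
  have hHm : Measurable H := by
    refine measurable_lz (μ := μX) (W := fun (p : PertSpace (n + 1) P × EuclideanSpace ℝ ι) y =>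
      wJ p.1 y) (h := fun p => p.2) (measurable_of_finite U) ?_ measurable_snd
    exact measurable_from_prod_countable_left fun y =>
      (measurable_fst.inner (measurable_const (a := V y))).exp
  have hswap : ∀ J g, H (J, g) = lz μX V (fun y => Real.exp ⟪g, U y⟫) J := fun J g => by
    simp only [H, lz, wJ, mul_comm]
  have hHi : Integrable H (γJ.prod γG) := by
    refine (((integrable_norm_pow (E := PertSpace (n + 1) P) 1).const_mul
      (strength n * ∑ q, |x q|)).comp_fst γG |>.add
      (((integrable_norm_pow (E := EuclideanSpace ℝ ι) 1).const_mul (∑ y, ‖U y‖)).comp_snd γJ)).mono'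
      hHm.aestronglyMeasurable (Filter.Eventually.of_forall fun p => ?_)
    simp only [Pi.add_apply, pow_one, Real.norm_eq_abs]
    have h1 := abs_lz_sub (μ := μX) (hwJ p.1) (measurable_of_finite U) (norm_le_sum U) p.2
    have h2 : |logI μX (wJ p.1)| ≤ (strength n * ∑ q, |x q|) * ‖p.1‖ :=
      abs_log_integral_exp_le (measurable_of_finite _) fun y => abs_inner_le_of hV p.1 y
    linarith [abs_sub_abs_le_abs_sub (lz μX U (wJ p.1) p.2) (logI μX (wJ p.1))]
  obtain ⟨i0, e0⟩ := iSys_free_eq hf μL U lam 0 x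
  have hint := hHi.integral_prod_left.comp_snd ((poiLaw lam).prod (patLaw (n + 1)))
  rw [e0]
  refine (integral_mono i0 hint fun q => ?_).trans ?_
  · refine integral_mono (integrable_lz_one (μ := μX) (wt_of_finite fun y => wt_restW_aux 0 x q y)
      (measurable_of_finite U) (norm_le_sum U)) (integrable_lz_one (μ := μX) (hwJ q.2)
      (measurable_of_finite U) (norm_le_sum U)) fun g => ?_
    refine logI_mono (wt_of_finite fun y => mul_pos (wt_restW_aux 0 x q y) (Real.exp_pos _))
      (wt_of_finite fun y => mul_pos (Real.exp_pos _) (Real.exp_pos _)) fun y => ?_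
    refine mul_le_mul_of_nonneg_right ?_ (Real.exp_pos _).le
    simp only [wJ, V, restW, real_inner_smul_right]
    exact mul_le_of_le_one_left (Real.exp_pos _).le
      (Real.exp_le_one_iff.2 (Finset.sum_nonpos fun a _ => hf0 _))
  · rw [integral_fun_snd (fun J => ∫ g, H (J, g) ∂γG), integral_integral_swap hHi]
    simp only [probReal_univ, one_smul]
    have hiU := integrable_lz_one (μ := μX) (U := U) Wt.one (measurable_of_finite U) (norm_le_sum U)
    refine (integral_mono hHi.integral_prod_right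
      (hiU.add (integrable_const ((strength n * ∑ q, |x q|) ^ 2 / 2))) fun g => ?_).trans_eq ?_
    · simp only [hswap, Pi.add_apply]
      refine (elz_le (hwG g) (measurable_of_finite V) hV).trans_eq ?_
      simp [lz]
    · simp only [Pi.add_apply]
      rw [integral_add hiU (integrable_const _)]
      simp [elz]

end bounds

section final

variable {f : ℝ → ℝ} {B : ℝ} {n P : ℕ} {L : Type} [MeasurableSpace L] [MeasurableSingletonClass L]
  [Fintype L] {I κ : Type} [Fintype I] [Fintype κ]

/-- At the end the patterns separate from the shifts. -/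
lemma iSys_end (hf : Pot f B) (μL : Measure L) [IsProbabilityMeasure μL] {ρ : L → ℝ}
    (hμ : ∀ F : L → ℝ, ∫ l, F l ∂μL = ∑ l, ρ l * F l) (V : Conf n L → EuclideanSpace ℝ κ)
    (ay : L → I → ℝ) {lam : ℝ} (hl : 0 ≤ lam) (x : Fin P → ℝ) :
    poiE lam (cubeF f (n + 1)) + leafVal 1 ay linG ρ ≤
      (iSys hf μL (ifld (joinA V (linA n ay)) 0 1) lam 0 x).free := by
  obtain ⟨_, e0⟩ := iSys_free_eq hf μL (ifld (joinA V (linA n ay)) 0 1) lam 0 x
  set u : (ℕ × (ℕ → Sp (n + 1))) × PertSpace (n + 1) P → (Fin (n + 1) → Bool) → ℝ := fun q σ =>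
    pW f n 0 q.1 σ * Real.exp (strength n * ⟪q.2, pertVec x (cubeVec (n + 1) σ)⟫)
  have e1 : ∀ q, elz ((cubeMeasure (n + 1)).prod μL) (ifld (joinA V (linA n ay)) 0 1)
      (restW f n 0 L x q) = logI (cubeMeasure (n + 1)) (u q) + leafVal 1 ay linG ρ := fun q => by
    rw [elz_join_right μL V (linA n ay) (wt_of_finite fun y => wt_restW_aux 0 x q y)]
    exact elz_linA μL hμ ay (u := u q) fun σ => mul_pos (Real.exp_pos _) (Real.exp_pos _)
  have hfree : (pSys hf n lam 0 x).free = ∫ q, logI (cubeMeasure (n + 1)) (u q)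
      ∂((poiLaw lam).prod (patLaw (n + 1))).prod (stdGaussian (PertSpace (n + 1) P)) := rfl
  have hi : Integrable (fun q => logI (cubeMeasure (n + 1)) (u q))
      (((poiLaw lam).prod (patLaw (n + 1))).prod (stdGaussian (PertSpace (n + 1) P))) :=
    integrable_logI_pSys hf n lam 0 x
  rw [e0, integral_congr_ae (Filter.Eventually.of_forall e1), integral_add hi (integrable_const _),
    ← hfree, pSys_free_eq hf]
  simp only [integral_const, probReal_univ, one_smul]
  refine add_le_add ?_ le_rfl
  have hv := norm_cubeVec (Nat.succ_pos n)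
  have hc : Integrable (cubeF f (n + 1)) (poiLaw lam) :=
    integrable_poisson_of_le (C := 1 + B) (j := 1) fun M => by
      rw [pow_one]
      exact abs_L_one hf (measurable_of_finite _) M
  have he : poiE lam (cubeF f (n + 1)) = ∫ M, cubeF f (n + 1) M ∂poiLaw lam := by
    rw [poiLaw, integral_poissonMeasure, poiE, Real.coe_toNNReal _ hl]
    rfl
  rw [he]
  refine integral_mono hc (integrable_fieldF hf hv _ lam) fun M => ?_
  rw [cubeF_eq_integral hf]
  exact integral_mono
    (Integrable.of_bound (measurable_logI (measurable_patW hf)).aestronglyMeasurable _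
      (Filter.Eventually.of_forall fun g => (Real.norm_eq_abs _).trans_le (abs_logI_patW_le hf g)))
    (integrable_elz_patW hf hv _) fun g => (elz_patW_bounds hf hv _ g).1

end final

end Vale.Agent.P166N
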