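import Vale.Agent.P157.Low.TelescopeBase
import Vale.Agent.P157.RSB.Conc

/-!
One small step of Gaussian fields on a finite configuration space: the expected log-partition
function changes by half the mean variance minus the mean overlap, up to a cube of the step.
-/

namespace Vale.Agent.P166N

open MeasureTheory ProbabilityTheory
open Vale.Agent.P157 Vale.Agent.P157.Low
open scoped RealInnerProductSpace

/-- The logarithm against its quadratic Taylor polynomial at one. -/
lemma abs_log_quad_le {z : ℝ} (hz : 0 < z) :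
    |Real.log z - ((z - 1) - (z - 1) ^ 2 / 2)| ≤ |z - 1| ^ 3 / (2 * z) := by
  have key : ∀ w : ℝ, 1 ≤ w → 2 * (w - 1) / (w + 1) ≤ Real.log w ∧
      Real.log w ≤ (w - w⁻¹) / 2 := fun w hw => by
    constructor
    · have h := Real.le_log_one_add_of_nonneg (x := w - 1) (by linarith)
      rw [show (1 : ℝ) + (w - 1) = w by ring, show w - 1 + 2 = w + 1 by ring] at h
      exact h
    · have h := Real.self_le_sinh_iff.2 (Real.log_nonneg hw)
      rwa [Real.sinh_log (by linarith : (0 : ℝ) < w)] at h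
  have e1 : (z - z⁻¹) / 2 - ((z - 1) - (z - 1) ^ 2 / 2) = (z - 1) ^ 3 / (2 * z) := by
    field_simp; ring
  have e2 : 2 * (z - 1) / (z + 1) - ((z - 1) - (z - 1) ^ 2 / 2) = (z - 1) ^ 3 / (2 * (z + 1)) := by
    field_simp; ring
  rcases le_total 1 z with h | h
  · obtain ⟨h1, h2⟩ := key z h
    have h3 : 0 ≤ (z - 1) ^ 3 / (2 * (z + 1)) := by
      have : 0 ≤ z - 1 := by linarith
      positivity
    rw [abs_of_nonneg (by linarith : 0 ≤ z - 1), abs_of_nonneg (by linarith)]
    linarith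
  · obtain ⟨h1, h2⟩ := key z⁻¹ ((one_le_inv₀ hz).2 h)
    rw [Real.log_inv] at h1 h2
    rw [inv_inv] at h2
    have e3 : 2 * (z⁻¹ - 1) / (z⁻¹ + 1) = -(2 * (z - 1) / (z + 1)) := by
      field_simp; ring
    rw [e3] at h1
    have h3 : (z - 1) ^ 3 / (2 * (z + 1)) ≤ 0 := by
      refine div_nonpos_of_nonpos_of_nonneg ?_ (by linarith)
      have : (z - 1) ^ 3 = (z - 1) * (z - 1) ^ 2 := by ring
      rw [this]
      exact mul_nonpos_of_nonpos_of_nonneg (by linarith) (sq_nonneg _)
    rw [abs_of_nonpos (by linarith : z - 1 ≤ 0), abs_le,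
      show (-(z - 1)) ^ 3 / (2 * z) = -((z - 1) ^ 3 / (2 * z)) by ring]
    exact ⟨by linarith, by linarith⟩

lemma abs_exp_sub_one_le_mul (a : ℝ) : |Real.exp a - 1| ≤ |a| * Real.exp |a| := by
  rcases le_total 0 a with h | h
  · rw [abs_of_nonneg (by linarith [Real.one_le_exp h]), abs_of_nonneg h]
    have h1 := mul_le_mul_of_nonneg_right (Real.add_one_le_exp (-a)) (Real.exp_pos a).le
    rw [← Real.exp_add, neg_add_cancel, Real.exp_zero] at h1
    linarith
  · rw [abs_of_nonpos (by linarith [Real.exp_le_one_iff.2 h]), abs_of_nonpos h]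
    have h1 : -a ≤ -a * Real.exp (-a) :=
      le_mul_of_one_le_right (by linarith) (Real.one_le_exp (by linarith))
    linarith [Real.add_one_le_exp a]

section finite

variable {X : Type} [MeasurableSpace X] [MeasurableSingletonClass X] [Fintype X]

/-- Positive weights on a finite space. -/
lemma wt_of_finite {w : X → ℝ} (h : ∀ x, 0 < w x) : Wt w :=
  ⟨measurable_of_finite w, ∑ x, |Real.log (w x)|, fun x => ⟨h x, Finset.single_le_sum
    (f := fun x => |Real.log (w x)|) (fun _ _ => abs_nonneg _) (Finset.mem_univ x)⟩⟩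

/-- A larger weight has a larger log-partition function. -/
lemma logI_mono {μ : Measure X} [IsProbabilityMeasure μ] {w w' : X → ℝ} (hw : Wt w) (hw' : Wt w')
    (h : ∀ x, w x ≤ w' x) : logI μ w ≤ logI μ w' :=
  Real.log_le_log hw.integral_pos (integral_mono hw.integrable hw'.integrable h)

variable {G : Type} [NormedAddCommGroup G] [InnerProductSpace ℝ G] [FiniteDimensional ℝ G]
  [MeasurableSpace G] [BorelSpace G] {ν : Measure X} [IsProbabilityMeasure ν] {U : X → G} {l : ℝ}

lemma integral_exp_field (hU : ∀ a, ‖U a‖ ≤ l) :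
    Integrable (fun g => ∫ a, Real.exp ⟪g, U a⟫ ∂ν) (stdGaussian G) ∧
      ∫ g, ∫ a, Real.exp ⟪g, U a⟫ ∂ν ∂stdGaussian G = ∫ a, Real.exp (‖U a‖ ^ 2 / 2) ∂ν := by
  have hj : Integrable (fun z : G × X => Real.exp ⟪z.1, U z.2⟫) ((stdGaussian G).prod ν) :=
    Integrable.mono' ((integrable_exp_norm l).comp_fst ν)
      (measurable_fst.inner ((measurable_of_finite U).comp measurable_snd)).exp.aestronglyMeasurable
      (Filter.Eventually.of_forall fun z => by
        rw [Real.norm_eq_abs, Real.abs_exp, Real.exp_le_exp]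
        exact (le_abs_self _).trans (abs_inner_le_of hU _ _))
  refine ⟨hj.integral_prod_left, ?_⟩
  rw [integral_integral_swap hj]
  simp only [integral_exp_inner]

lemma abs_exp_mean_le (hl : l ^ 2 / 2 ≤ 1) (hU : ∀ a, ‖U a‖ ≤ l) :
    |(∫ a, Real.exp (‖U a‖ ^ 2 / 2) ∂ν) - 1 - (∫ a, ‖U a‖ ^ 2 ∂ν) / 2| ≤ (l ^ 2 / 2) ^ 2 := by
  have e : (∫ a, Real.exp (‖U a‖ ^ 2 / 2) ∂ν) - 1 - (∫ a, ‖U a‖ ^ 2 ∂ν) / 2 =
      ∫ a, (Real.exp (‖U a‖ ^ 2 / 2) - 1 - ‖U a‖ ^ 2 / 2) ∂ν := by
    rw [integral_sub Integrable.of_finite Integrable.of_finite,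
      integral_sub Integrable.of_finite Integrable.of_finite, integral_div]
    simp
  rw [e, ← Real.norm_eq_abs]
  refine (norm_integral_le_of_norm_le_const (C := (l ^ 2 / 2) ^ 2)
    (Filter.Eventually.of_forall fun a => ?_)).trans_eq (by simp)
  have h1 : 0 ≤ ‖U a‖ ^ 2 / 2 := by positivity
  have h2 : ‖U a‖ ^ 2 / 2 ≤ l ^ 2 / 2 :=
    div_le_div_of_nonneg_right (pow_le_pow_left₀ (norm_nonneg _) (hU a) 2) two_pos.le
  rw [Real.norm_eq_abs]
  refine (Real.abs_exp_sub_one_sub_id_le (by rw [abs_of_nonneg h1]; linarith)).trans ?_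
  exact pow_le_pow_left₀ h1 h2 2

lemma integral_pi_two (F : X → X → ℝ) :
    ∫ a, F (a 0) (a 1) ∂Measure.pi (fun _ : Fin 2 => ν) = ∫ q, F q.1 q.2 ∂ν.prod ν :=
  (measurePreserving_finTwoArrow ν).integral_comp' (fun q : X × X => F q.1 q.2)

/-- The constant in the second-order expansion. -/
noncomputable def expK (G : Type) [NormedAddCommGroup G] [InnerProductSpace ℝ G]
    [FiniteDimensional ℝ G] [MeasurableSpace G] [BorelSpace G] : ℝ :=
  3 * (∫ g : G, Real.exp (5 * ‖g‖) ∂stdGaussian G) + 2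

lemma expK_nonneg : 0 ≤ expK G := by
  have : 0 ≤ ∫ g : G, Real.exp (5 * ‖g‖) ∂stdGaussian G := integral_nonneg fun g => (Real.exp_pos _).le
  unfold expK; linarith

/-- Second-order expansion of the mean logarithm of an exponential average in a small field. -/
lemma log_mean_second_order (hU : ∀ a, ‖U a‖ ≤ l) (hl : l ≤ 1 / 2) :
    |(∫ g, Real.log (∫ a, Real.exp ⟪g, U a⟫ ∂ν) ∂stdGaussian G) -
        ((∫ a, ‖U a‖ ^ 2 ∂ν) - ∫ q, ⟪U q.1, U q.2⟫ ∂ν.prod ν) / 2| ≤ expK G * l ^ 3 := by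
  have hl0 : 0 ≤ l := by
    obtain ⟨a⟩ : Nonempty X := nonempty_of_isProbabilityMeasure ν
    exact (norm_nonneg _).trans (hU a)
  have hl1 : l ^ 2 / 2 ≤ 1 := by nlinarith
  set Z : G → ℝ := fun g => ∫ a, Real.exp ⟪g, U a⟫ ∂ν with hZ
  have hU2 : ∀ q : X × X, ‖U q.1 + U q.2‖ ≤ 2 * l := fun q =>
    (norm_add_le _ _).trans (by linarith [hU q.1, hU q.2])
  obtain ⟨i1, m1⟩ := integral_exp_field (ν := ν) hU
  obtain ⟨i2, m2⟩ := integral_exp_field (ν := ν.prod ν) hU2
  have eZ : ∀ g, Z g ^ 2 = ∫ q, Real.exp ⟪g, U q.1 + U q.2⟫ ∂ν.prod ν := fun g => by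
    simp only [hZ, sq, inner_add_right, Real.exp_add]
    rw [integral_prod_mul (fun a => Real.exp ⟪g, U a⟫) fun a => Real.exp ⟪g, U a⟫]
  have hwt : ∀ g, Wt fun a => Real.exp ⟪g, U a⟫ := fun g => wt_of_finite fun a => Real.exp_pos _
  have hpt : ∀ g, |Real.log (Z g) - (2 * Z g - 3 / 2 - Z g ^ 2 / 2)| ≤
      3 * l ^ 3 * Real.exp (5 * ‖g‖) := fun g => by
    set r := ‖g‖
    have hZp : 0 < Z g := (hwt g).integral_pos
    have hlow : Real.exp (-(l * r)) ≤ Z g := by
      have h := integral_mono (μ := ν) (integrable_const (Real.exp (-(l * r)))) (hwt g).integrable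
        fun a => Real.exp_le_exp.2 (abs_le.1 (abs_inner_le_of hU g a)).1
      simpa using h
    have hy : |Z g - 1| ≤ l * r * Real.exp (l * r) := by
      have e : Z g - 1 = ∫ a, (Real.exp ⟪g, U a⟫ - 1) ∂ν := by
        rw [integral_sub (hwt g).integrable (integrable_const _)]
        simp [hZ]
      rw [e, ← Real.norm_eq_abs]
      refine (norm_integral_le_of_norm_le_const (C := l * r * Real.exp (l * r))
        (Filter.Eventually.of_forall fun a => ?_)).trans_eq (by simp)
      rw [Real.norm_eq_abs]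
      have h := abs_inner_le_of hU g a
      exact (abs_exp_sub_one_le_mul _).trans
        (mul_le_mul h (Real.exp_le_exp.2 h) (Real.exp_pos _).le (by positivity))
    have h := abs_log_quad_le hZp
    rw [show (Z g - 1) - (Z g - 1) ^ 2 / 2 = 2 * Z g - 3 / 2 - Z g ^ 2 / 2 by ring] at h
    refine h.trans ?_
    calc |Z g - 1| ^ 3 / (2 * Z g) ≤ (l * r * Real.exp (l * r)) ^ 3 / (2 * Real.exp (-(l * r))) :=
          div_le_div₀ (by positivity) (pow_le_pow_left₀ (abs_nonneg _) hy 3) (by positivity)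
            (by linarith)
      _ = l ^ 3 / 2 * (r ^ 3 * Real.exp (4 * (l * r))) := by
          rw [Real.exp_neg, mul_pow, mul_pow, ← Real.exp_nat_mul,
            show (4 : ℝ) * (l * r) = (3 : ℕ) * (l * r) + l * r by push_cast; ring, Real.exp_add]
          field_simp
      _ ≤ l ^ 3 / 2 * (6 * Real.exp r * Real.exp (4 * r)) := by
          refine mul_le_mul_of_nonneg_left (mul_le_mul ?_ ?_ (Real.exp_pos _).le (by positivity))
            (by positivity)
          · have h6 := Real.pow_div_factorial_le_exp r (norm_nonneg g) 3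
            norm_num [Nat.factorial] at h6
            linarith
          · refine Real.exp_le_exp.2 ?_
            nlinarith [norm_nonneg g]
      _ = _ := by
          rw [show (5 : ℝ) * r = r + 4 * r by ring, Real.exp_add]; ring
  have hZ2 : Integrable (fun g => Z g ^ 2) (stdGaussian G) :=
    i2.congr (Filter.Eventually.of_forall fun g => (eZ g).symm)
  have hq : Integrable (fun g => 2 * Z g - 3 / 2 - Z g ^ 2 / 2) (stdGaussian G) :=
    ((i1.const_mul 2).sub (integrable_const _)).sub (hZ2.div_const 2)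
  have hmZ : Measurable Z := by
    have h : Measurable fun z : G × X => Real.exp ⟪z.1, U z.2⟫ :=
      (measurable_fst.inner ((measurable_of_finite U).comp measurable_snd)).exp
    exact h.stronglyMeasurable.integral_prod_right'.measurable
  have hd : Integrable (fun g => Real.log (Z g) - (2 * Z g - 3 / 2 - Z g ^ 2 / 2)) (stdGaussian G) :=
    ((integrable_exp_norm 5).const_mul (3 * l ^ 3)).mono'
      (hmZ.log.aestronglyMeasurable.sub hq.aestronglyMeasurable)
      (Filter.Eventually.of_forall hpt)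
  have hlog : Integrable (fun g => Real.log (Z g)) (stdGaussian G) :=
    (hd.add hq).congr (Filter.Eventually.of_forall fun g => by simp)
  have h1 : |(∫ g, Real.log (Z g) ∂stdGaussian G) -
      ∫ g, (2 * Z g - 3 / 2 - Z g ^ 2 / 2) ∂stdGaussian G| ≤
      3 * l ^ 3 * ∫ g : G, Real.exp (5 * ‖g‖) ∂stdGaussian G := by
    rw [← integral_sub hlog hq, ← integral_const_mul, ← Real.norm_eq_abs]
    exact norm_integral_le_of_norm_le ((integrable_exp_norm 5).const_mul _)
      (Filter.Eventually.of_forall hpt)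
  have eq2 : ∫ g, (2 * Z g - 3 / 2 - Z g ^ 2 / 2) ∂stdGaussian G =
      2 * (∫ a, Real.exp (‖U a‖ ^ 2 / 2) ∂ν) - 3 / 2 -
        (∫ q, Real.exp (‖U q.1 + U q.2‖ ^ 2 / 2) ∂ν.prod ν) / 2 := by
    have j1 : Integrable (fun g => 2 * Z g - 3 / 2) (stdGaussian G) :=
      (i1.const_mul 2).sub (integrable_const _)
    rw [integral_sub j1 (hZ2.div_const 2), integral_sub (i1.const_mul 2) (integrable_const _),
      integral_const_mul, m1, integral_const, integral_div,
      integral_congr_ae (Filter.Eventually.of_forall eZ), m2]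
    simp
  have a1 := abs_exp_mean_le (ν := ν) hl1 hU
  have a2 := abs_exp_mean_le (ν := ν.prod ν) (l := 2 * l) (by nlinarith) hU2
  have e4 : ∫ q, ‖U q.1 + U q.2‖ ^ 2 ∂ν.prod ν =
      2 * (∫ a, ‖U a‖ ^ 2 ∂ν) + 2 * ∫ q, ⟪U q.1, U q.2⟫ ∂ν.prod ν := by
    simp only [norm_add_sq_real]
    rw [integral_add Integrable.of_finite Integrable.of_finite,
      integral_add Integrable.of_finite Integrable.of_finite, integral_const_mul,
      integral_fun_fst (fun a => ‖U a‖ ^ 2), integral_fun_snd (fun a => ‖U a‖ ^ 2)]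
    simp
    ring
  have l4 : l ^ 4 ≤ l ^ 3 / 2 := by
    have := mul_le_mul_of_nonneg_left hl (pow_nonneg hl0 3)
    nlinarith
  rw [eq2] at h1
  rw [e4] at a2
  simp only [expK]
  obtain ⟨b1, b2⟩ := abs_le.1 h1
  obtain ⟨c1, c2⟩ := abs_le.1 a1
  obtain ⟨d1, d2⟩ := abs_le.1 a2
  rw [abs_le]
  constructor <;> nlinarith

end finite

section split

variable {X : Type} [MeasurableSpace X] [MeasurableSingletonClass X] [Fintype X] {μ : Measure X}
  [IsProbabilityMeasure μ] {ι : Type} [Fintype ι] {w : X → ℝ} {a b c : ι → ℝ}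
  {A : X → EuclideanSpace ℝ ι} {l : ℝ}

/-- The bound on a finite family of vectors. -/
lemma norm_le_sum (A : X → EuclideanSpace ℝ ι) (x : X) : ‖A x‖ ≤ ∑ y, ‖A y‖ :=
  Finset.single_le_sum (f := fun y => ‖A y‖) (fun _ _ => norm_nonneg _) (Finset.mem_univ x)

/-- A field as a part given in advance and an independent one. -/
lemma elz_split (hw : Wt w) (h : ∀ i, a i ^ 2 + b i ^ 2 = c i ^ 2) :
    Integrable (fun g => elz μ (fun y => cmul b (A y)) (fun y => w y * Real.exp ⟪g, cmul a (A y)⟫))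
        (stdGaussian (EuclideanSpace ℝ ι)) ∧
      elz μ (fun y => cmul c (A y)) w = ∫ g, elz μ (fun y => cmul b (A y))
        (fun y => w y * Real.exp ⟪g, cmul a (A y)⟫) ∂stdGaussian (EuclideanSpace ℝ ι) := by
  set a' : ι → ℝ := fun i => if c i = 0 then 1 else a i / c i with ha'
  set b' : ι → ℝ := fun i => if c i = 0 then 0 else b i / c i with hb'
  have hab : ∀ i, a' i ^ 2 + b' i ^ 2 = 1 := fun i => by
    by_cases hc : c i = 0
    · simp [ha', hb', hc]
    · simp only [ha', hb', if_neg hc, div_pow, ← add_div, h i, div_self (pow_ne_zero 2 hc)]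
  have hz : ∀ i, c i = 0 → a i = 0 ∧ b i = 0 := fun i hc => by
    have := h i
    rw [hc] at this
    constructor <;> nlinarith [sq_nonneg (a i), sq_nonneg (b i)]
  set V : X → EuclideanSpace ℝ ι := fun y => cmul c (A y) with hV
  have ea : ∀ y, cmul a' (V y) = cmul a (A y) := fun y => by
    ext i
    by_cases hc : c i = 0
    · simp [cmul, V, ha', hc, (hz i hc).1]
    · simp only [cmul, V, ha', if_neg hc]
      field_simp
  have eb : ∀ y, cmul b' (V y) = cmul b (A y) := fun y => by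
    ext i
    by_cases hc : c i = 0
    · simp [cmul, V, hb', hc, (hz i hc).2]
    · simp only [cmul, V, hb', if_neg hc]
      field_simp
  have hVl := norm_le_sum V
  set φ : EuclideanSpace ℝ ι × EuclideanSpace ℝ ι → EuclideanSpace ℝ ι :=
    fun p => cmul a' p.1 + cmul b' p.2
  have hmp := measurePreserving_cmul_add hab
  set γ := stdGaussian (EuclideanSpace ℝ ι)
  have hi := integrable_lz_one (μ := μ) hw (measurable_of_finite V) hVl
  have hi2 : Integrable (fun p => lz μ V w (φ p)) (γ.prod γ) :=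
    (hmp.integrable_comp hi.aestronglyMeasurable).2 hi
  have hpt : ∀ g h, lz μ V w (φ (g, h)) =
      lz μ (fun y => cmul b (A y)) (fun y => w y * Real.exp ⟪g, cmul a (A y)⟫) h := fun g h => by
    simp only [lz, φ]
    congr 1
    funext y
    rw [inner_add_left, inner_cmul, inner_cmul, Real.exp_add, mul_assoc, ea, eb]
  have hsum : ∫ p, lz μ V w (φ p) ∂γ.prod γ = elz μ V w := by
    rw [elz]
    show _ = ∫ h, lz μ V w h ∂γ
    conv_rhs => rw [← hmp.map_eq]
    exact (integral_map hmp.measurable.aemeasurable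
      (by rw [hmp.map_eq]; exact hi.aestronglyMeasurable)).symm
  refine ⟨hi2.integral_prod_left.congr (Filter.Eventually.of_forall fun g =>
    integral_congr_ae (Filter.Eventually.of_forall fun h => hpt g h)), ?_⟩
  rw [← hsum, integral_prod _ hi2]
  exact integral_congr_ae (Filter.Eventually.of_forall fun g =>
    integral_congr_ae (Filter.Eventually.of_forall fun h => hpt g h))

/-- Expansion of a small field at a given weight. -/
lemma elz_second_order (hw : Wt w) {U : X → EuclideanSpace ℝ ι} (hU : ∀ x, ‖U x‖ ≤ l)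
    (hl : l ≤ 1 / 2) :
    |elz μ U w - logI μ w - ((∫ x, ‖U x‖ ^ 2 ∂gibbs μ w) -
        ∫ q, ⟪U q.1, U q.2⟫ ∂(gibbs μ w).prod (gibbs μ w)) / 2| ≤
      expK (EuclideanSpace ℝ ι) * l ^ 3 := by
  have := isProbabilityMeasure_gibbs (μ := μ) hw
  refine le_trans (le_of_eq ?_) (log_mean_second_order (ν := gibbs μ w) hU hl)
  congr 2
  rw [elz]
  simp only [lz_eq hw (measurable_of_finite U) hU]
  have hi : Integrable (fun h => Real.log (∫ y, Real.exp ⟪h, U y⟫ ∂gibbs μ w))
      (stdGaussian (EuclideanSpace ℝ ι)) :=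
    ((integrable_lz_one (μ := μ) hw (measurable_of_finite U) hU).sub
      (integrable_const (logI μ w))).congr
      (Filter.Eventually.of_forall fun h => by simp [lz_eq hw (measurable_of_finite U) hU])
  rw [integral_add (integrable_const _) hi]
  simp

end split

section step

variable {X : Type} [MeasurableSpace X] [MeasurableSingletonClass X] [Fintype X] {μ : Measure X}
  [IsProbabilityMeasure μ] {κ κ' : Type} [Fintype κ] [Fintype κ'] {w : X → ℝ}
  {A : X → EuclideanSpace ℝ (κ ⊕ κ')}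

/-- Scalings of the two groups of coordinates. -/
noncomputable def scale2 (κ κ' : Type) (u v : ℝ) : κ ⊕ κ' → ℝ :=
  Sum.elim (fun _ => Real.sqrt u) fun _ => Real.sqrt v

lemma scale2_sq {u v : ℝ} (hu : 0 ≤ u) (hv : 0 ≤ v) {u' v' : ℝ} (hu' : 0 ≤ u') (hv' : 0 ≤ v')
    (i : κ ⊕ κ') :
    scale2 κ κ' u v i ^ 2 + scale2 κ κ' u' v' i ^ 2 = scale2 κ κ' (u + u') (v + v') i ^ 2 := by
  rcases i with i | i <;> simp [scale2, Real.sq_sqrt, hu, hv, hu', hv', add_nonneg]

/-- Overlap in the first group. -/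
noncomputable def ovL (A : X → EuclideanSpace ℝ (κ ⊕ κ')) (a b : X) : ℝ :=
  ∑ i, A a (Sum.inl i) * A b (Sum.inl i)

/-- Overlap in the second group. -/
noncomputable def ovR (A : X → EuclideanSpace ℝ (κ ⊕ κ')) (a b : X) : ℝ :=
  ∑ i, A a (Sum.inr i) * A b (Sum.inr i)

omit [MeasurableSpace X] [MeasurableSingletonClass X] [Fintype X] in
lemma inner_scale2 {u v : ℝ} (hu : 0 ≤ u) (hv : 0 ≤ v) (a b : X) :
    ⟪cmul (scale2 κ κ' u v) (A a), cmul (scale2 κ κ' u v) (A b)⟫ = u * ovL A a b + v * ovR A a b := by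
  simp only [PiLp.inner_apply, RCLike.inner_apply, conj_trivial, Fintype.sum_sum_type, cmul, scale2,
    Sum.elim_inl, Sum.elim_inr, ovL, ovR, Finset.mul_sum]
  congr 1
  · refine Finset.sum_congr rfl fun i _ => ?_
    linear_combination A a (Sum.inl i) * A b (Sum.inl i) * Real.mul_self_sqrt hu
  · refine Finset.sum_congr rfl fun i _ => ?_
    linear_combination A a (Sum.inr i) * A b (Sum.inr i) * Real.mul_self_sqrt hv

omit [MeasurableSpace X] [MeasurableSingletonClass X] [Fintype X] in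
lemma norm_scale2_le {u v m l0 : ℝ} (hu : 0 ≤ u) (hv : 0 ≤ v) (hum : u ≤ m) (hvm : v ≤ m)
    (x : X) (hA : ‖A x‖ ≤ l0) : ‖cmul (scale2 κ κ' u v) (A x)‖ ≤ Real.sqrt m * l0 := by
  have h1 : ‖cmul (scale2 κ κ' u v) (A x)‖ ^ 2 ≤ (Real.sqrt m * l0) ^ 2 := by
    rw [← real_inner_self_eq_norm_sq, inner_scale2 hu hv, mul_pow, Real.sq_sqrt (hu.trans hum)]
    have h2 : ovL A x x + ovR A x x = ‖A x‖ ^ 2 := by
      rw [EuclideanSpace.real_norm_sq_eq, Fintype.sum_sum_type]
      simp [ovL, ovR, sq]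
    have h3 : 0 ≤ ovL A x x := Finset.sum_nonneg fun i _ => mul_self_nonneg _
    have h4 : 0 ≤ ovR A x x := Finset.sum_nonneg fun i _ => mul_self_nonneg _
    have h5 := pow_le_pow_left₀ (norm_nonneg _) hA 2
    have h6 := mul_le_mul_of_nonneg_left h5 (hu.trans hum)
    nlinarith [mul_le_mul_of_nonneg_right hum h3, mul_le_mul_of_nonneg_right hvm h4]
  exact (pow_le_pow_iff_left₀ (norm_nonneg _)
    (mul_nonneg (Real.sqrt_nonneg _) ((norm_nonneg _).trans hA)) two_ne_zero).1 h1

/-- The Gibbs average of an overlap after a field is given. -/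
noncomputable def pairAvg (μ : Measure X) (w : X → ℝ) (a : κ ⊕ κ' → ℝ)
    (A : X → EuclideanSpace ℝ (κ ⊕ κ')) (Θ : X → X → ℝ) (g : EuclideanSpace ℝ (κ ⊕ κ')) : ℝ :=
  ∫ r, Θ (r 0) (r 1) ∂Measure.pi fun _ : Fin 2 =>
    gibbs μ fun y => w y * Real.exp ⟪g, cmul a (A y)⟫

lemma integrable_pairAvg (hw : Wt w) (a : κ ⊕ κ' → ℝ) (Θ : X → X → ℝ) :
    Integrable (pairAvg μ w a A Θ) (stdGaussian (EuclideanSpace ℝ (κ ⊕ κ'))) := by
  have hW : Measurable (Function.uncurry fun (g : EuclideanSpace ℝ (κ ⊕ κ')) (y : X) =>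
      w y * Real.exp ⟪g, cmul a (A y)⟫) := by
    refine measurable_from_prod_countable_left fun y => ?_
    simp only [Function.uncurry]
    fun_prop
  have hwt : ∀ g, Wt fun y => w y * Real.exp ⟪g, cmul a (A y)⟫ := fun g =>
    wt_of_finite fun y => mul_pos (hw.pos y) (Real.exp_pos _)
  have hΘm : Measurable (Function.uncurry fun (_ : EuclideanSpace ℝ (κ ⊕ κ')) (r : Fin 2 → X) =>
      Θ (r 0) (r 1)) :=
    Measurable.comp (g := fun r : Fin 2 → X => Θ (r 0) (r 1)) (f := Prod.snd)
      (measurable_of_finite _) measurable_snd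
  have hm : Measurable (pairAvg μ w a A Θ) :=
    measurable_gibbsAvg (μ := μ) (n := 2) hW hwt hΘm
  refine integrable_of_bdd hm (b := ∑ q : X × X, |Θ q.1 q.2|) fun g => ?_
  exact abs_gibbsAvg_le (μ := μ) (n := 2) (ψ := fun r => Θ (r 0) (r 1)) (hwt g) fun r =>
    Finset.single_le_sum (f := fun q : X × X => |Θ q.1 q.2|) (fun _ _ => abs_nonneg _)
      (Finset.mem_univ (r 0, r 1))

/-- One step moving variance `p` from the first group to the second. -/
lemma gauss_step (hw : Wt w) {d : ℝ} (hd : ∀ x, ovR A x x - ovL A x x ≤ d) {Θ : X → X → ℝ}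
    (hΘ : ∀ a b, ovL A a b - ovR A a b ≤ Θ a b) {l0 : ℝ} (hA : ∀ x, ‖A x‖ ≤ l0) {t p : ℝ}
    (ht : 0 ≤ t) (hp : 0 ≤ p) (htp : t + p ≤ 1) (hsmall : Real.sqrt p * l0 ≤ 1 / 2) :
    elz μ (fun y => cmul (scale2 κ κ' (1 - (t + p)) (t + p)) (A y)) w -
        elz μ (fun y => cmul (scale2 κ κ' (1 - t) t) (A y)) w ≤
      p / 2 * (d + ∫ g, pairAvg μ w (scale2 κ κ' (1 - (t + p)) t) A Θ g
        ∂stdGaussian (EuclideanSpace ℝ (κ ⊕ κ'))) +
      2 * expK (EuclideanSpace ℝ (κ ⊕ κ')) * (Real.sqrt p * l0) ^ 3 := by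
  set e := scale2 κ κ' (1 - (t + p)) t
  set K := expK (EuclideanSpace ℝ (κ ⊕ κ'))
  have h1 : ∀ i, e i ^ 2 + scale2 κ κ' 0 p i ^ 2 = scale2 κ κ' (1 - (t + p)) (t + p) i ^ 2 :=
    fun i => by rw [scale2_sq (by linarith) ht le_rfl hp, add_zero]
  have h2 : ∀ i, e i ^ 2 + scale2 κ κ' p 0 i ^ 2 = scale2 κ κ' (1 - t) t i ^ 2 := fun i => by
    rw [scale2_sq (by linarith) ht hp le_rfl, add_zero,
      show 1 - (t + p) + p = 1 - t by ring]
  obtain ⟨i1, e1⟩ := elz_split (μ := μ) (A := A) hw h1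
  obtain ⟨i2, e2⟩ := elz_split (μ := μ) (A := A) hw h2
  have hl1 := fun x => norm_scale2_le (κ := κ) (κ' := κ') (A := A) le_rfl hp hp le_rfl x (hA x)
  have hl2 := fun x => norm_scale2_le (κ := κ) (κ' := κ') (A := A) hp le_rfl le_rfl hp x (hA x)
  have hi3 := integrable_pairAvg (μ := μ) (A := A) hw e Θ
  rw [e1, e2, ← integral_sub i1 i2]
  refine (integral_mono (i1.sub i2) (((((integrable_const d).add hi3).const_mul (p / 2)).add
    (integrable_const (2 * K * (Real.sqrt p * l0) ^ 3)))) fun g => ?_).trans_eq ?_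
  · simp only [Pi.add_apply, Pi.sub_apply]
    set wg := fun y => w y * Real.exp ⟪g, cmul e (A y)⟫
    have hwg : Wt wg := wt_of_finite fun y => mul_pos (hw.pos y) (Real.exp_pos _)
    have := isProbabilityMeasure_gibbs (μ := μ) hwg
    set ν := gibbs μ wg
    have a1 := elz_second_order (μ := μ) hwg hl1 hsmall
    have a2 := elz_second_order (μ := μ) hwg hl2 hsmall
    simp only [← real_inner_self_eq_norm_sq] at a1 a2
    simp only [inner_scale2 le_rfl hp, zero_mul, zero_add] at a1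
    simp only [inner_scale2 hp le_rfl, zero_mul, add_zero] at a2
    rw [integral_const_mul, integral_const_mul] at a1 a2
    have hd' : (∫ x, ovR A x x ∂ν) - ∫ x, ovL A x x ∂ν ≤ d := by
      rw [← integral_sub Integrable.of_finite Integrable.of_finite]
      refine (integral_mono Integrable.of_finite (integrable_const d) hd).trans_eq ?_
      simp
    have hΘ' : (∫ q, ovL A q.1 q.2 ∂ν.prod ν) - ∫ q, ovR A q.1 q.2 ∂ν.prod ν ≤
        pairAvg μ w e A Θ g := by
      rw [pairAvg, integral_pi_two Θ, ← integral_sub Integrable.of_finite Integrable.of_finite]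
      exact integral_mono Integrable.of_finite Integrable.of_finite fun q => hΘ q.1 q.2
    have h3 := mul_le_mul_of_nonneg_left (add_le_add hd' hΘ') (by linarith : 0 ≤ p / 2)
    linarith [(abs_le.1 a1).2, (abs_le.1 a2).1]
  · simp only [Pi.add_apply]
    have i4 : Integrable (fun g => p / 2 * (d + pairAvg μ w e A Θ g))
        (stdGaussian (EuclideanSpace ℝ (κ ⊕ κ'))) := ((integrable_const d).add hi3).const_mul _
    rw [integral_add i4 (integrable_const _), integral_const_mul,
      integral_add (integrable_const d) hi3]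
    simp

/-- A bound in steps of size `1 / m` for every large `m` passes to the limit. -/
lemma le_of_forall_steps {a b K : ℝ} {m₀ : ℕ}
    (h : ∀ m : ℕ, m₀ ≤ m → a ≤ b + K / Real.sqrt m) : a ≤ b := by
  have hlim : Filter.Tendsto (fun m : ℕ => b + K / Real.sqrt m) Filter.atTop (nhds b) := by
    have := (tendsto_const_nhds (x := K)).div_atTop
      (Real.tendsto_sqrt_atTop.comp (tendsto_natCast_atTop_atTop (R := ℝ)))
    simpa using this.const_add b
  exact ge_of_tendsto hlim (Filter.eventually_atTop.2 ⟨m₀, h⟩)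

end step

end Vale.Agent.P166N
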