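import Vale.Agent.P166N.InterpGauss
import Vale.Agent.P157.Low.CubePairs
import Vale.Agent.P157.Low.Pert

/-!
The interpolating systems: a Poisson number of patterns on the spins, Gaussian fields coupling
spins and leaves, and the perturbation on the spins.
-/

namespace Vale.Agent.P166N

open MeasureTheory ProbabilityTheory
open Vale.Agent.P157 Vale.Agent.P157.Low
open scoped RealInnerProductSpace

/-- Moving the last factor forward. -/
lemma measurePreserving_swapRight {α γ δ : Type} [MeasurableSpace α] [MeasurableSpace γ]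
    [MeasurableSpace δ] (μ : Measure α) (ν : Measure γ) (τ : Measure δ) [IsProbabilityMeasure μ]
    [IsProbabilityMeasure ν] [IsProbabilityMeasure τ] :
    MeasurePreserving (fun p : (α × γ) × δ => ((p.1.1, p.2), p.1.2))
      ((μ.prod ν).prod τ) ((μ.prod τ).prod ν) :=
  ((measurePreserving_prodAssoc μ τ ν).symm _).comp
    (((MeasurePreserving.id μ).prod (Measure.measurePreserving_swap (μ := ν) (ν := τ))).comp
      (measurePreserving_prodAssoc μ ν τ))

lemma integral_map_mp {α β : Type} [MeasurableSpace α] [MeasurableSpace β] {μ : Measure α}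
    {ν : Measure β} {φ : α → β} (hφ : MeasurePreserving φ μ ν) {H : β → ℝ}
    (hH : AEStronglyMeasurable H ν) : ∫ b, H b ∂ν = ∫ a, H (φ a) ∂μ := by
  conv_lhs => rw [← hφ.map_eq]
  exact integral_map hφ.measurable.aemeasurable (by rw [hφ.map_eq]; exact hH)

/-- The configurations: spins and a leaf. -/
abbrev Conf (n : ℕ) (L : Type) := (Fin (n + 1) → Bool) × L

/-- The spin part as a unit vector. -/
noncomputable def cub {n : ℕ} {L : Type} (y : Conf n L) : Sp (n + 1) := cubeVec (n + 1) y.1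

lemma norm_cub {n : ℕ} {L : Type} (y : Conf n L) : ‖cub y‖ = 1 := norm_cubeVec (Nat.succ_pos n) _

/-- The weight of the patterns. -/
noncomputable def pW (f : ℝ → ℝ) (n k : ℕ) (ω : ℕ × (ℕ → Sp (n + 1))) (σ : Fin (n + 1) → Bool) : ℝ :=
  Real.exp (∑ a ∈ Finset.range (ω.1 + k), f ⟪ω.2 a, cubeVec (n + 1) σ⟫)

section sys

variable {f : ℝ → ℝ} {B : ℝ} {n P : ℕ} {L : Type} [MeasurableSpace L] [MeasurableSingletonClass L]
  [Fintype L] {ι : Type} [Fintype ι]

/-- Patterns and fields. -/
noncomputable def interSys (hf : Pot f B) (μL : Measure L) [IsProbabilityMeasure μL]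
    (U : Conf n L → EuclideanSpace ℝ ι) (lam : ℝ) (k : ℕ) : Sys where
  Ω := (ℕ × (ℕ → Sp (n + 1))) × EuclideanSpace ℝ ι
  mΩ := inferInstance
  law := ((poiLaw lam).prod (patLaw (n + 1))).prod (stdGaussian (EuclideanSpace ℝ ι))
  prob := inferInstance
  X := Conf n L
  mX := inferInstance
  ref := (cubeMeasure (n + 1)).prod μL
  probRef := inferInstance
  E := Sp (n + 1)
  normE := inferInstance
  innerE := inferInstance
  finE := inferInstance
  mE := inferInstance
  borelE := inferInstance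
  v := cub
  measV := measurable_of_finite _
  unit := norm_cub
  w z y := pW f n k z.1 y.1 * Real.exp ⟪z.2, U y⟫
  measW := measurable_from_prod_countable_left fun y => by
    have h : Measurable fun ω : ℕ × (ℕ → Sp (n + 1)) => pW f n k ω y.1 :=
      measurable_from_prod_countable_right fun M => by
        have := hf.meas
        simp only [pW]
        exact (Finset.measurable_sum (Finset.range (M + k)) fun a _ => by fun_prop).exp
    exact (h.comp measurable_fst).mul (measurable_snd.inner (measurable_const (a := U y))).exp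
  wt z := wt_of_finite (X := Conf n L) (w := fun y => pW f n k z.1 y.1 * Real.exp ⟪z.2, U y⟫)
    fun _ => mul_pos (Real.exp_pos _) (Real.exp_pos _)

/-- The perturbed interpolating system. -/
noncomputable def iSys (hf : Pot f B) (μL : Measure L) [IsProbabilityMeasure μL]
    (U : Conf n L → EuclideanSpace ℝ ι) (lam : ℝ) (k : ℕ) (x : Fin P → ℝ) : Sys :=
  (interSys hf μL U lam k).perturb (N := n + 1) cub (measurable_of_finite (cub : Conf n L → Sp (n + 1)))
    norm_cub (strength n) x

/-- The weight without the field. -/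
noncomputable def restW (f : ℝ → ℝ) (n k : ℕ) (L : Type) (x : Fin P → ℝ)
    (q : (ℕ × (ℕ → Sp (n + 1))) × PertSpace (n + 1) P) (y : Conf n L) : ℝ :=
  pW f n k q.1 y.1 * Real.exp (strength n * ⟪q.2, pertVec x (cub y)⟫)

variable (hf : Pot f B) (μL : Measure L) [IsProbabilityMeasure μL]
  (U : Conf n L → EuclideanSpace ℝ ι) (lam : ℝ) (k : ℕ) (x : Fin P → ℝ)

omit [MeasurableSingletonClass L] [Fintype L] in
lemma wt_restW_aux (q : (ℕ × (ℕ → Sp (n + 1))) × PertSpace (n + 1) P) (y : Conf n L) :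
    0 < restW f n k L x q y :=
  mul_pos (Real.exp_pos _) (Real.exp_pos _)

/-- The disorder: patterns, field, perturbation. -/
abbrev IΩ (n P : ℕ) (ι : Type) :=
  ((ℕ × (ℕ → Sp (n + 1))) × EuclideanSpace ℝ ι) × PertSpace (n + 1) P

/-- The law of the disorder. -/
noncomputable def iLaw (n P : ℕ) (ι : Type) [Fintype ι] (lam : ℝ) : Measure (IΩ n P ι) :=
  (((poiLaw lam).prod (patLaw (n + 1))).prod (stdGaussian (EuclideanSpace ℝ ι))).prod
    (stdGaussian (PertSpace (n + 1) P))

instance (lam : ℝ) : IsProbabilityMeasure (iLaw n P ι lam) := by unfold iLaw; infer_instance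

/-- The weight of a configuration. -/
noncomputable def iW (f : ℝ → ℝ) (U : Conf n L → EuclideanSpace ℝ ι) (k : ℕ) (x : Fin P → ℝ)
    (z : IΩ n P ι) (y : Conf n L) : ℝ :=
  restW f n k L x (z.1.1, z.2) y * Real.exp ⟪z.1.2, U y⟫

/-- The log-partition function at given disorder. -/
noncomputable def iLog (f : ℝ → ℝ) (μL : Measure L) (U : Conf n L → EuclideanSpace ℝ ι) (k : ℕ)
    (x : Fin P → ℝ) (z : IΩ n P ι) : ℝ :=
  logI ((cubeMeasure (n + 1)).prod μL) (iW f U k x z)

lemma iW_pos (f : ℝ → ℝ) (z : IΩ n P ι) (y : Conf n L) : 0 < iW f U k x z y :=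
  mul_pos (wt_restW_aux k x _ y) (Real.exp_pos _)

lemma wt_iW (f : ℝ → ℝ) (z : IΩ n P ι) : Wt (iW f U k x z) := wt_of_finite (iW_pos U k x f z)

lemma iSys_w (z : IΩ n P ι) :
    ((iSys hf μL U lam k x).w z : Conf n L → ℝ) = iW f U k x z := by
  funext y
  show pW f n k z.1.1 y.1 * Real.exp ⟪z.1.2, U y⟫ *
    Real.exp (strength n * ⟪z.2, pertVec x (cub y)⟫) = _
  simp only [iW, restW]
  ring

lemma iSys_free :
    (iSys hf μL U lam k x).free = ∫ z, iLog f μL U k x z ∂iLaw n P ι lam := by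
  show ∫ z : IΩ n P ι, logI ((cubeMeasure (n + 1)).prod μL) ((iSys hf μL U lam k x).w z)
    ∂iLaw n P ι lam = _
  refine integral_congr_ae (Filter.Eventually.of_forall fun z => ?_)
  exact congrArg (logI ((cubeMeasure (n + 1)).prod μL)) (iSys_w hf μL U lam k x z)

include hf in
lemma measurable_iLog : Measurable (iLog f μL U k x) := by
  have h : Measurable (Function.uncurry fun (z : IΩ n P ι) y => iW f U k x z y) := by
    have h0 : Measurable (Function.uncurry fun (z : IΩ n P ι) (y : Conf n L) =>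
        (iSys hf μL U 0 k x).w z y) := (iSys hf μL U 0 k x).measW
    simpa only [iSys_w] using h0
  exact measurable_logI (μ := (cubeMeasure (n + 1)).prod μL) h

include hf in
lemma abs_iLog_le (z : IΩ n P ι) :
    |iLog f μL U k x z| ≤
      (z.1.1.1 + k : ℕ) * B + (∑ y, ‖U y‖) * ‖z.1.2‖ + strength n * (‖z.2‖ * ∑ q, |x q|) := by
  obtain ⟨⟨ω, g⟩, J⟩ := z
  have e : iW f U k x ((ω, g), J) = fun y => Real.exp
      ((∑ a ∈ Finset.range (ω.1 + k), f ⟪ω.2 a, cubeVec (n + 1) y.1⟫) +
        strength n * ⟪J, pertVec x (cub y)⟫ + ⟪g, U y⟫) := funext fun y => by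
    simp only [iW, restW, pW, Real.exp_add]
  rw [iLog, e]
  refine abs_log_integral_exp_le (measurable_of_finite _) fun y => ?_
  have h1 : |∑ a ∈ Finset.range (ω.1 + k), f ⟪ω.2 a, cubeVec (n + 1) y.1⟫| ≤ (ω.1 + k : ℕ) * B :=
    (Finset.abs_sum_le_sum_abs _ _).trans ((Finset.sum_le_sum fun a _ => hf.bound _).trans_eq (by simp))
  have hs : 0 ≤ strength n := Real.rpow_nonneg (by positivity) _
  have h2 : |strength n * ⟪J, pertVec x (cub y)⟫| ≤ strength n * (‖J‖ * ∑ q, |x q|) := by
    rw [abs_mul, abs_of_nonneg hs]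
    exact mul_le_mul_of_nonneg_left ((abs_real_inner_le_norm _ _).trans
      (mul_le_mul_of_nonneg_left (norm_pertVec_le x _ (norm_cub y)) (norm_nonneg _))) hs
  have h3 := abs_inner_le_of (norm_le_sum U) g y
  have h4 := abs_add_le ((∑ a ∈ Finset.range (ω.1 + k), f ⟪ω.2 a, cubeVec (n + 1) y.1⟫) +
    strength n * ⟪J, pertVec x (cub y)⟫) ⟪g, U y⟫
  have h5 := abs_add_le (∑ a ∈ Finset.range (ω.1 + k), f ⟪ω.2 a, cubeVec (n + 1) y.1⟫)
    (strength n * ⟪J, pertVec x (cub y)⟫)
  linarith

include hf in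
lemma integrable_iLog : Integrable (iLog f μL U k x) (iLaw n P ι lam) := by
  have hp : Integrable (fun M : ℕ => ((M + k : ℕ) : ℝ) * B) (poiLaw lam) :=
    integrable_poisson_of_le (C := ((k : ℝ) + 1) * B) (j := 1) fun m => by
      have := mul_nonneg (Nat.cast_nonneg (α := ℝ) k) (Nat.cast_nonneg (α := ℝ) m)
      rw [abs_of_nonneg (mul_nonneg (Nat.cast_nonneg _) hf.nonneg), pow_one]
      push_cast
      nlinarith [hf.nonneg]
  have hg : Integrable (fun g : EuclideanSpace ℝ ι => (∑ y, ‖U y‖) * ‖g‖)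
      (stdGaussian (EuclideanSpace ℝ ι)) := by
    simpa using (integrable_norm_pow (E := EuclideanSpace ℝ ι) 1).const_mul (∑ y, ‖U y‖)
  have hJ : Integrable (fun J : PertSpace (n + 1) P => strength n * (‖J‖ * ∑ q, |x q|))
      (stdGaussian (PertSpace (n + 1) P)) := by
    simpa using ((integrable_norm_pow (E := PertSpace (n + 1) P) 1).mul_const _).const_mul _
  exact ((((hp.comp_fst (patLaw (n + 1))).comp_fst _).add (hg.comp_snd _)).comp_fst _ |>.add
    (hJ.comp_snd _)).mono' (measurable_iLog hf μL U k x).aestronglyMeasurable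
    (Filter.Eventually.of_forall fun z => (Real.norm_eq_abs _).trans_le
      (abs_iLog_le hf μL U k x z))

/-- Integrals over the field last. -/
lemma integral_iLaw {H : IΩ n P ι → ℝ} (hH : Integrable H (iLaw n P ι lam)) :
    Integrable (fun q : (ℕ × (ℕ → Sp (n + 1))) × PertSpace (n + 1) P =>
        ∫ g, H ((q.1, g), q.2) ∂stdGaussian (EuclideanSpace ℝ ι))
        (((poiLaw lam).prod (patLaw (n + 1))).prod (stdGaussian (PertSpace (n + 1) P))) ∧
      ∫ z, H z ∂iLaw n P ι lam =
        ∫ q, ∫ g, H ((q.1, g), q.2) ∂stdGaussian (EuclideanSpace ℝ ι)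
          ∂(((poiLaw lam).prod (patLaw (n + 1))).prod (stdGaussian (PertSpace (n + 1) P))) := by
  have hmp := measurePreserving_swapRight ((poiLaw lam).prod (patLaw (n + 1)))
    (stdGaussian (PertSpace (n + 1) P)) (stdGaussian (EuclideanSpace ℝ ι))
  have hi := (hmp.integrable_comp hH.aestronglyMeasurable).2 hH
  refine ⟨hi.integral_prod_left, ?_⟩
  exact (integral_map_mp hmp hH.aestronglyMeasurable).trans (integral_prod _ hi)

include hf in
/-- The free energy with the field integrated first. -/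
lemma iSys_free_eq :
    Integrable (fun q => elz ((cubeMeasure (n + 1)).prod μL) U (restW f n k L x q))
        (((poiLaw lam).prod (patLaw (n + 1))).prod (stdGaussian (PertSpace (n + 1) P))) ∧
      (iSys hf μL U lam k x).free = ∫ q, elz ((cubeMeasure (n + 1)).prod μL) U (restW f n k L x q)
        ∂(((poiLaw lam).prod (patLaw (n + 1))).prod (stdGaussian (PertSpace (n + 1) P))) := by
  obtain ⟨h1, h2⟩ := integral_iLaw lam (integrable_iLog hf μL U lam k x)
  have e : ∀ q : (ℕ × (ℕ → Sp (n + 1))) × PertSpace (n + 1) P,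
      ∫ g, iLog f μL U k x ((q.1, g), q.2) ∂stdGaussian (EuclideanSpace ℝ ι) =
        elz ((cubeMeasure (n + 1)).prod μL) U (restW f n k L x q) := fun q => rfl
  exact ⟨h1.congr (Filter.Eventually.of_forall e),
    (iSys_free hf μL U lam k x).trans (h2.trans (integral_congr_ae (Filter.Eventually.of_forall e)))⟩

/-- More patterns of a nonpositive potential lower the free energy. -/
lemma iSys_free_antitone (hf0 : ∀ s, f s ≤ 0) :
    Antitone fun k => (iSys hf μL U lam k x).free := by
  refine antitone_nat_of_succ_le fun k => ?_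
  simp only [iSys_free]
  refine integral_mono (integrable_iLog hf μL U lam (k + 1) x) (integrable_iLog hf μL U lam k x)
    fun z => logI_mono (wt_iW U (k + 1) x f z) (wt_iW U k x f z) fun y => ?_
  refine mul_le_mul_of_nonneg_right (mul_le_mul_of_nonneg_right ?_ (Real.exp_pos _).le)
    (Real.exp_pos _).le
  refine Real.exp_le_exp.2 ?_
  rw [← add_assoc, Finset.sum_range_succ]
  exact add_le_of_nonpos_right (hf0 _)

/-- One pattern changes the free energy by at most the bound of the potential. -/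
lemma abs_iSys_gain_le :
    |(iSys hf μL U lam 1 x).free - (iSys hf μL U lam 0 x).free| ≤ B := by
  rw [iSys_free, iSys_free,
    ← integral_sub (integrable_iLog hf μL U lam 1 x) (integrable_iLog hf μL U lam 0 x),
    ← Real.norm_eq_abs]
  refine (norm_integral_le_of_norm_le_const (C := B) (Filter.Eventually.of_forall fun z => ?_)).trans_eq
    (by simp)
  rw [Real.norm_eq_abs]
  refine RSB.abs_log_integral_sub_le (wt_iW U 1 x f z) (wt_iW U 0 x f z) fun y => ?_
  simp only [iW, restW, pW, ← Real.exp_add, Real.log_exp, add_zero, Finset.sum_range_succ]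
  rw [show ∀ a b c d : ℝ, a + b + c + d - (a + c + d) = b from fun a b c d => by ring]
  exact hf.bound _

/-- Poisson numbers of patterns add. -/
lemma iSys_free_add {lam μ : ℝ} (hl : 0 ≤ lam) (hμ : 0 ≤ μ) :
    Integrable (fun b => (iSys hf μL U lam b x).free) (poiLaw μ) ∧
      (iSys hf μL U (lam + μ) 0 x).free = ∫ b, (iSys hf μL U lam b x).free ∂poiLaw μ := by
  set γG := stdGaussian (EuclideanSpace ℝ ι)
  set γJ := stdGaussian (PertSpace (n + 1) P)
  set Q : ℕ → ℝ := fun m => ∫ pt, ∫ g, ∫ J, iLog f μL U 0 x (((m, pt), g), J) ∂γJ ∂γG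
    ∂patLaw (n + 1) with hQdef
  have hfree : ∀ (l : ℝ) (b : ℕ), Integrable (fun M => Q (M + b)) (poiLaw l) ∧
      (iSys hf μL U l b x).free = ∫ M, Q (M + b) ∂poiLaw l := fun l b => by
    have hi : Integrable (iLog f μL U b x)
        ((((poiLaw l).prod (patLaw (n + 1))).prod γG).prod γJ) := integrable_iLog hf μL U l b x
    have hi3 := hi.integral_prod_left.integral_prod_left.integral_prod_left
    refine ⟨hi3, ?_⟩
    rw [iSys_free, iLaw, integral_prod _ hi, integral_prod _ hi.integral_prod_left,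
      integral_prod _ hi.integral_prod_left.integral_prod_left]
    rfl
  have hQ : Integrable Q (poiLaw (lam + μ)) := by simpa using (hfree (lam + μ) 0).1
  have hc : μ.toNNReal + lam.toNNReal = (lam + μ).toNNReal := by
    rw [Real.toNNReal_add hl hμ, add_comm]
  have hQ' : Integrable Q (poissonMeasure (μ.toNNReal + lam.toNNReal)) := by rw [hc]; exact hQ
  have key := poisson_add μ.toNNReal lam.toNNReal hQ'
  rw [hc] at key
  have hconv : Integrable (fun b => ∫ M, Q (b + M) ∂poissonMeasure lam.toNNReal)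
      (poissonMeasure μ.toNNReal) := by
    have h := hQ'
    rw [← poissonMeasure_conv_poissonMeasure] at h
    exact (h.comp_measurable (f := fun p : ℕ × ℕ => p.1 + p.2) (by fun_prop)).integral_prod_left
  have e : ∀ b, (iSys hf μL U lam b x).free = ∫ M, Q (b + M) ∂poissonMeasure lam.toNNReal := fun b => by
    rw [(hfree lam b).2]
    simp only [add_comm b]
    rfl
  refine ⟨hconv.congr (Filter.Eventually.of_forall fun b => (e b).symm), ?_⟩
  rw [(hfree (lam + μ) 0).2]
  simp only [add_zero]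
  exact key.symm.trans (integral_congr_ae (Filter.Eventually.of_forall fun b => (e b).symm))

/-- A Poisson number of new patterns gains at most the gain of one, times the chance of any. -/
lemma iSys_free_add_le (hf0 : ∀ s, f s ≤ 0) {lam μ : ℝ} (hl : 0 ≤ lam) (hμ : 0 ≤ μ) :
    (iSys hf μL U (lam + μ) 0 x).free ≤ (iSys hf μL U lam 0 x).free +
      (1 - Real.exp (-μ)) * ((iSys hf μL U lam 1 x).free - (iSys hf μL U lam 0 x).free) := by
  obtain ⟨hi, he⟩ := iSys_free_add hf μL U x hl hμ
  set F0 := (iSys hf μL U lam 0 x).free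
  set F1 := (iSys hf μL U lam 1 x).free
  set o : ℕ → ℝ := fun b => if b = 0 then 1 else 0 with ho
  have hoi : Integrable o (poiLaw μ) := integrable_of_bdd (measurable_of_countable _) (b := 1)
    fun b => by simp only [ho]; split_ifs <;> norm_num
  have ho1 : ∫ b, o b ∂poiLaw μ = Real.exp (-μ) := by
    rw [poiLaw, integral_poissonMeasure, tsum_eq_single 0 fun b hb => by simp [ho, hb]]
    simp [ho, Real.coe_toNNReal _ hμ]
  rw [he]
  have hR : Integrable (fun b => F1 + o b * (F0 - F1)) (poiLaw μ) :=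
    (integrable_const F1).add (hoi.mul_const _)
  refine (integral_mono hi hR fun b => ?_).trans_eq ?_
  · rcases Nat.eq_zero_or_pos b with rfl | hb
    · simp [ho, F0]
    · have := iSys_free_antitone hf μL U lam x hf0 (show 1 ≤ b from hb)
      simpa [ho, Nat.pos_iff_ne_zero.1 hb, F1] using this
  · rw [integral_add (integrable_const F1) (hoi.mul_const _), integral_mul_const, ho1]
    simp
    ring

/-- The gain of one pattern is the difference of the free energies. -/
lemma iSys_logGain :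
    (iSys hf μL U lam 0 x).logGain (expW f) =
      (iSys hf μL U lam 1 x).free - (iSys hf μL U lam 0 x).free := by
  set γG := stdGaussian (EuclideanSpace ℝ ι)
  set γJ := stdGaussian (PertSpace (n + 1) P)
  set γZ := stdGaussian (Sp (n + 1))
  set base := (poiLaw lam).prod (patLaw (n + 1))
  set μX := (cubeMeasure (n + 1)).prod μL
  have h1 : MeasurePreserving
      (fun p : (ℕ × (ℕ → Sp (n + 1))) × Sp (n + 1) => (p.1.1, Function.update p.1.2 p.1.1 p.2))
      (base.prod γZ) base :=
    ((MeasurePreserving.id (poiLaw lam)).skew_product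
      (g := fun (M : ℕ) (p : (ℕ → Sp (n + 1)) × Sp (n + 1)) => Function.update p.1 M p.2)
      (measurable_from_prod_countable_right fun M => measurable_update_pattern M)
      (Filter.Eventually.of_forall fun M => map_update_pattern (γ := γZ) M)).comp
      (measurePreserving_prodAssoc (poiLaw lam) (patLaw (n + 1)) γZ)
  set Ψ := fun p : IΩ n P ι × Sp (n + 1) =>
    ((((p.1.1.1.1, Function.update p.1.1.1.2 p.1.1.1.1 p.2), p.1.1.2), p.1.2) : IΩ n P ι)
  have hΨ : MeasurePreserving Ψ ((iLaw n P ι lam).prod γZ) (iLaw n P ι lam) :=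
    (((h1.prod (MeasurePreserving.id γG)).comp (measurePreserving_swapRight base γG γZ)).prod
      (MeasurePreserving.id γJ)).comp (measurePreserving_swapRight (base.prod γG) γJ γZ)
  have hw : ∀ p : IΩ n P ι × Sp (n + 1),
      iW f U 1 x (Ψ p) = fun y => iW f U 0 x p.1 y * expW f ⟪p.2, cub y⟫ := fun p => by
    obtain ⟨⟨⟨⟨M, pt⟩, g⟩, J⟩, z⟩ := p
    funext y
    have e : pW f n 1 (M, Function.update pt M z) y.1 = pW f n 0 (M, pt) y.1 * expW f ⟪z, cub y⟫ := by
      simp only [pW, expW, cub, add_zero, Finset.sum_range_succ, Function.update_self, Real.exp_add]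
      congr 1
      congr 1
      exact Finset.sum_congr rfl fun a ha => by rw [Function.update_of_ne (Finset.mem_range.1 ha).ne]
    simp only [Ψ, iW, restW, e]
    ring
  have hwp : ∀ p : IΩ n P ι × Sp (n + 1), iLog f μL U 1 x (Ψ p) = iLog f μL U 0 x p.1 +
      Real.log (∫ y, expW f ⟪p.2, cub y⟫ ∂gibbs μX (iW f U 0 x p.1)) := fun p => by
    rw [iLog, hw p]
    exact logI_mul (μ := μX) (wt_iW U 0 x f p.1)
      (wt_of_finite (X := Conf n L) (w := fun y => expW f ⟪p.2, cub y⟫) fun y => Real.exp_pos _)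
  have hi' : Integrable (fun p => iLog f μL U 1 x (Ψ p)) ((iLaw n P ι lam).prod γZ) :=
    (hΨ.integrable_comp (integrable_iLog hf μL U lam 1 x).aestronglyMeasurable).2
      (integrable_iLog hf μL U lam 1 x)
  have hi : Integrable (fun p : IΩ n P ι × Sp (n + 1) => iLog f μL U 0 x p.1)
      ((iLaw n P ι lam).prod γZ) := (integrable_iLog hf μL U lam 0 x).comp_fst _
  have hd : Integrable (fun p : IΩ n P ι × Sp (n + 1) =>
      Real.log (∫ y, expW f ⟪p.2, cub y⟫ ∂gibbs μX (iW f U 0 x p.1))) ((iLaw n P ι lam).prod γZ) :=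
    (hi'.sub hi).congr (Filter.Eventually.of_forall fun p => by simp [hwp])
  have hfree : ∫ z, iLog f μL U 1 x z ∂iLaw n P ι lam =
      ∫ p, iLog f μL U 1 x (Ψ p) ∂(iLaw n P ι lam).prod γZ :=
    integral_map_mp hΨ (integrable_iLog hf μL U lam 1 x).aestronglyMeasurable
  have hgain : (iSys hf μL U lam 0 x).logGain (expW f) = ∫ z, ∫ g,
      Real.log (∫ y, expW f ⟪g, cub y⟫ ∂gibbs μX (iW f U 0 x z)) ∂γZ ∂iLaw n P ι lam := by
    show ∫ z : IΩ n P ι, ∫ g, Real.log (∫ y, expW f ⟪g, cub y⟫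
      ∂gibbs μX ((iSys hf μL U lam 0 x).w z)) ∂γZ ∂iLaw n P ι lam = _
    exact integral_congr_ae (Filter.Eventually.of_forall fun z => integral_congr_ae
      (Filter.Eventually.of_forall fun g => congrArg (fun w : Conf n L → ℝ =>
        Real.log (∫ y, expW f ⟪g, cub y⟫ ∂gibbs μX w)) (iSys_w hf μL U lam 0 x z)))
  rw [hgain, iSys_free, iSys_free, hfree, integral_congr_ae (Filter.Eventually.of_forall hwp),
    integral_add hi hd, integral_prod _ hi, integral_prod _ hd]
  simp

end sys

section steps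

variable {f : ℝ → ℝ} {B : ℝ} {n P : ℕ} {L : Type} [MeasurableSpace L] [MeasurableSingletonClass L]
  [Fintype L] {κ κ' : Type} [Fintype κ] [Fintype κ'] {A : Conf n L → EuclideanSpace ℝ (κ ⊕ κ')}
  {l0 d lam : ℝ}

/-- The field at given shares of the two groups. -/
noncomputable def ifld (A : Conf n L → EuclideanSpace ℝ (κ ⊕ κ')) (u v : ℝ) (y : Conf n L) :
    EuclideanSpace ℝ (κ ⊕ κ') :=
  cmul (scale2 κ κ' u v) (A y)

/-- More of the second group changes the free energy by at most half its variance. -/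
lemma iSys_free_grow (hf : Pot f B) (μL : Measure L) [IsProbabilityMeasure μL] (lam : ℝ) (k : ℕ)
    (x : Fin P → ℝ) (hA : ∀ y, ‖A y‖ ≤ l0) {u v p : ℝ} (hu : 0 ≤ u) (hv : 0 ≤ v) (hp : 0 ≤ p) :
    (iSys hf μL (ifld A u v) lam k x).free ≤ (iSys hf μL (ifld A u (v + p)) lam k x).free ∧
      (iSys hf μL (ifld A u (v + p)) lam k x).free ≤
        (iSys hf μL (ifld A u v) lam k x).free + (Real.sqrt p * l0) ^ 2 / 2 := by
  obtain ⟨i0, e0⟩ := iSys_free_eq hf μL (ifld A u v) lam k x
  obtain ⟨i1, e1⟩ := iSys_free_eq hf μL (ifld A u (v + p)) lam k x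
  have hl := fun y => norm_scale2_le (κ := κ) (κ' := κ') (A := A) le_rfl hp hp le_rfl y (hA y)
  have hab : ∀ i, scale2 κ κ' u v i ^ 2 + scale2 κ κ' 0 p i ^ 2 = scale2 κ κ' u (v + p) i ^ 2 :=
    fun i => by rw [scale2_sq hu hv le_rfl hp, add_zero]
  have hpt : ∀ q : (ℕ × (ℕ → Sp (n + 1))) × PertSpace (n + 1) P,
      elz ((cubeMeasure (n + 1)).prod μL) (ifld A u v) (restW f n k L x q) ≤
        elz ((cubeMeasure (n + 1)).prod μL) (ifld A u (v + p)) (restW f n k L x q) ∧
      elz ((cubeMeasure (n + 1)).prod μL) (ifld A u (v + p)) (restW f n k L x q) ≤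
        elz ((cubeMeasure (n + 1)).prod μL) (ifld A u v) (restW f n k L x q) +
          (Real.sqrt p * l0) ^ 2 / 2 := fun q => by
    have hw : Wt (restW f n k L x q) := wt_of_finite fun y => wt_restW_aux k x q y
    obtain ⟨hi, he⟩ := elz_split (μ := (cubeMeasure (n + 1)).prod μL) (A := A) hw hab
    have hwg : ∀ g, Wt fun y => restW f n k L x q y * Real.exp ⟪g, cmul (scale2 κ κ' u v) (A y)⟫ :=
      fun g => wt_of_finite fun y => mul_pos (wt_restW_aux k x q y) (Real.exp_pos _)
    have hiu := integrable_lz_one (μ := (cubeMeasure (n + 1)).prod μL) hw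
      (measurable_of_finite (ifld A u v)) (norm_le_sum _)
    constructor
    · refine le_trans ?_ he.ge
      exact integral_mono hiu hi fun g => logI_le_elz (hwg g) (measurable_of_finite _) hl
    · refine he.le.trans ((integral_mono hi (hiu.add (integrable_const _)) fun g =>
        elz_le (hwg g) (measurable_of_finite _) hl).trans_eq ?_)
      simp only [Pi.add_apply]
      rw [integral_add hiu (integrable_const _)]
      simp [elz]
  rw [e0, e1]
  refine ⟨integral_mono i0 i1 fun q => (hpt q).1, ?_⟩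
  refine (integral_mono i1 (i0.add (integrable_const _)) fun q => (hpt q).2).trans_eq ?_
  simp only [Pi.add_apply]
  rw [integral_add i0 (integrable_const _)]
  simp

/-- The Gibbs average of a function of two spin vectors. -/
noncomputable def iPair (f : ℝ → ℝ) (μL : Measure L) (U : Conf n L → EuclideanSpace ℝ (κ ⊕ κ'))
    (x : Fin P → ℝ) (Φ : ℝ → ℝ) (z : IΩ n P (κ ⊕ κ')) : ℝ :=
  ∫ r, Φ ⟪cub (r 0), cub (r 1)⟫ ∂Measure.pi fun _ : Fin 2 =>
    gibbs ((cubeMeasure (n + 1)).prod μL) (iW f U 0 x z)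

lemma measurable_iW (hf : Pot f B) (μL : Measure L) [IsProbabilityMeasure μL]
    (U : Conf n L → EuclideanSpace ℝ (κ ⊕ κ')) (k : ℕ) (x : Fin P → ℝ) :
    Measurable (Function.uncurry fun (z : IΩ n P (κ ⊕ κ')) y => iW f U k x z y) := by
  have h0 : Measurable (Function.uncurry fun (z : IΩ n P (κ ⊕ κ')) (y : Conf n L) =>
      (iSys hf μL U 0 k x).w z y) := (iSys hf μL U 0 k x).measW
  simpa only [iSys_w] using h0

lemma integrable_iPair (hf : Pot f B) (μL : Measure L) [IsProbabilityMeasure μL]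
    (U : Conf n L → EuclideanSpace ℝ (κ ⊕ κ')) (lam : ℝ) (x : Fin P → ℝ) (Φ : ℝ → ℝ) :
    Integrable (iPair f μL U x Φ) (iLaw n P (κ ⊕ κ') lam) := by
  have hΘm : Measurable (Function.uncurry fun (_ : IΩ n P (κ ⊕ κ')) (r : Fin 2 → Conf n L) =>
      Φ ⟪cub (r 0), cub (r 1)⟫) :=
    Measurable.comp (g := fun r : Fin 2 → Conf n L => Φ ⟪cub (r 0), cub (r 1)⟫) (f := Prod.snd)
      (measurable_of_finite _) measurable_snd
  have hm : Measurable (iPair f μL U x Φ) :=
    measurable_gibbsAvg (μ := (cubeMeasure (n + 1)).prod μL) (n := 2) (measurable_iW hf μL U 0 x)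
      (wt_iW U 0 x f) hΘm
  obtain ⟨C, hC⟩ : ∃ C, ∀ r : Fin 2 → Conf n L, |Φ ⟪cub (r 0), cub (r 1)⟫| ≤ C :=
    ⟨∑ r : Fin 2 → Conf n L, |Φ ⟪cub (r 0), cub (r 1)⟫|, fun r =>
      Finset.single_le_sum (f := fun r : Fin 2 → Conf n L => |Φ ⟪cub (r 0), cub (r 1)⟫|)
        (fun _ _ => abs_nonneg _) (Finset.mem_univ r)⟩
  have hb : ∀ z, |iPair f μL U x Φ z| ≤ C := fun z => by
    rw [iPair]
    exact abs_gibbsAvg_le (wt_iW U 0 x f z) hC
  exact integrable_of_bdd hm hb

/-- The expectation of a function of the overlap of two replicas. -/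
lemma iSys_expect (hf : Pot f B) (μL : Measure L) [IsProbabilityMeasure μL]
    (U : Conf n L → EuclideanSpace ℝ (κ ⊕ κ')) (lam : ℝ) (x : Fin P → ℝ) (Φ : ℝ → ℝ) :
    ((iSys hf μL U lam 0 x).expect fun R : Mat 2 => Φ (R 0 1)) =
      ∫ z, iPair f μL U x Φ z ∂iLaw n P (κ ⊕ κ') lam := by
  show ∫ z : IΩ n P (κ ⊕ κ'), ∫ r, Φ ⟪cub (r 0), cub (r 1)⟫ ∂Measure.pi (fun _ : Fin 2 =>
    gibbs ((cubeMeasure (n + 1)).prod μL) ((iSys hf μL U lam 0 x).w z)) ∂iLaw n P (κ ⊕ κ') lam = _
  exact integral_congr_ae (Filter.Eventually.of_forall fun z => congrArg (fun w : Conf n L → ℝ =>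
    ∫ r, Φ ⟪cub (r 0), cub (r 1)⟫ ∂Measure.pi fun _ : Fin 2 =>
      gibbs ((cubeMeasure (n + 1)).prod μL) w) (iSys_w hf μL U lam 0 x z))

/-- One Gaussian step at a fixed number of patterns. -/
lemma iSys_gauss_step (hf : Pot f B) (μL : Measure L) [IsProbabilityMeasure μL] (lam : ℝ)
    (x : Fin P → ℝ) (hA : ∀ y, ‖A y‖ ≤ l0) (hd : ∀ y, ovR A y y - ovL A y y ≤ d) {Φ : ℝ → ℝ}
    (hΦ : ∀ a b, ovL A a b - ovR A a b ≤ Φ ⟪cub a, cub b⟫) {t p : ℝ} (ht : 0 ≤ t) (hp : 0 ≤ p)
    (htp : t + p ≤ 1) (hsmall : Real.sqrt p * l0 ≤ 1 / 2) :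
    (iSys hf μL (ifld A (1 - (t + p)) (t + p)) lam 0 x).free -
        (iSys hf μL (ifld A (1 - t) t) lam 0 x).free ≤
      p / 2 * (d + (iSys hf μL (ifld A (1 - (t + p)) t) lam 0 x).expect
          fun R : Mat 2 => Φ (R 0 1)) +
        2 * expK (EuclideanSpace ℝ (κ ⊕ κ')) * (Real.sqrt p * l0) ^ 3 := by
  obtain ⟨i0, e0⟩ := iSys_free_eq hf μL (ifld A (1 - t) t) lam 0 x
  obtain ⟨i1, e1⟩ := iSys_free_eq hf μL (ifld A (1 - (t + p)) (t + p)) lam 0 x
  obtain ⟨i2, e2⟩ :=
    integral_iLaw lam (integrable_iPair hf μL (ifld A (1 - (t + p)) t) lam x Φ)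
  set K := 2 * expK (EuclideanSpace ℝ (κ ⊕ κ')) * (Real.sqrt p * l0) ^ 3
  have i3 : Integrable (fun q : (ℕ × (ℕ → Sp (n + 1))) × PertSpace (n + 1) P =>
      p / 2 * (d + ∫ g, iPair f μL (ifld A (1 - (t + p)) t) x Φ ((q.1, g), q.2)
        ∂stdGaussian (EuclideanSpace ℝ (κ ⊕ κ'))))
      (((poiLaw lam).prod (patLaw (n + 1))).prod (stdGaussian (PertSpace (n + 1) P))) :=
    ((integrable_const d).add i2).const_mul (p / 2)
  rw [e0, e1, ← integral_sub i1 i0, iSys_expect, e2]
  refine (integral_mono (i1.sub i0) (i3.add (integrable_const K)) fun q => ?_).trans_eq ?_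
  · exact gauss_step (Θ := fun a b : Conf n L => Φ ⟪cub a, cub b⟫)
      (wt_of_finite fun y => wt_restW_aux 0 x q y) hd hΦ hA ht hp htp hsmall
  · simp only [Pi.add_apply]
    rw [integral_add i3 (integrable_const _), integral_const_mul,
      integral_add (integrable_const d) i2]
    simp

end steps

end Vale.Agent.P166N
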