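import Vale.Agent.P166N.Quad

/-!
The mixture of an order parameter: convexity, its pairing with distribution functions, and the
conjugate overlaps as its derivative.
-/

namespace Vale.Agent.P166N

open MeasureTheory Set
open Vale.Agent.P157

variable {c α q0 : ℝ} {ls : List (ℝ × ℝ)}

lemma continuous_zInt : ∀ (ls : List (ℝ × ℝ)) (q : ℝ), Continuous (zInt ls q)
  | [], q => by
    show Continuous fun t => 1 - max t q
    fun_prop
  | (m, d) :: ls, q => by
    have := continuous_zInt ls (q + d)
    show Continuous fun t => m * (max t (q + d) - max t q) + zInt ls (q + d) t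
    fun_prop

lemma zInt_nonneg : ∀ {ls : List (ℝ × ℝ)}, Lv ls → ∀ {q t : ℝ}, q + (ls.map Prod.snd).sum ≤ 1 → t ≤ 1 →
    0 ≤ zInt ls q t
  | [], _, q, t, hq, ht => by
    simp only [List.map_nil, List.sum_nil, add_zero] at hq
    simp only [zInt, sub_nonneg, max_le_iff]
    exact ⟨ht, hq⟩
  | (m, d) :: ls, h, q, t, hq, ht => by
    obtain ⟨hm, -, hd⟩ := h.head
    simp only [List.map_cons, List.sum_cons] at hq
    have ih := zInt_nonneg h.tail (q := q + d) (by linarith) ht
    have : max t q ≤ max t (q + d) := max_le_max le_rfl (by linarith)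
    simp only [zInt]
    have := mul_nonneg hm.le (sub_nonneg.2 this)
    linarith

/-- Below the first level the integral is the whole weighted rest. -/
lemma zInt_below : ∀ {ls : List (ℝ × ℝ)}, Lv ls → ∀ {q t : ℝ}, t ≤ q →
    zInt ls q t = 1 - q - (ls.map Prod.snd).sum + (ls.map fun p => p.1 * p.2).sum
  | [], _, q, t, ht => by simp [zInt, max_eq_right ht]
  | (m, d) :: ls, h, q, t, ht => by
    obtain ⟨-, -, hd⟩ := h.head
    rw [zInt, zInt_below h.tail (by linarith : t ≤ q + d), max_eq_right ht, max_eq_right (by linarith)]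
    simp only [List.map_cons, List.sum_cons]
    ring

lemma zInt_cons_above {m d q t : ℝ} (hd : 0 ≤ d) (ht : q + d ≤ t) :
    zInt ((m, d) :: ls) q t = zInt ls (q + d) t := by
  rw [zInt, max_eq_left ht, max_eq_left (by linarith)]
  ring

/-- On the first interval the integral is affine. -/
lemma zInt_cons_on {m d q t : ℝ} (h : Lv ((m, d) :: ls)) (h1 : q ≤ t) (h2 : t ≤ q + d) :
    zInt ((m, d) :: ls) q t =
      (1 - (q + d) - (ls.map Prod.snd).sum + (ls.map fun p => p.1 * p.2).sum) + m * (q + d - t) := by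
  rw [zInt, zInt_below h.tail h2, max_eq_left h1, max_eq_right h2]
  ring

lemma proj_mem (t : ℝ) : 0 ≤ proj t ∧ proj t ≤ 1 := ⟨le_max_left _ _, max_le zero_le_one (min_le_left _ _)⟩

lemma proj_of_mem {t : ℝ} (h0 : 0 ≤ t) (h1 : t ≤ 1) : proj t = t := by
  rw [proj, min_eq_right h1, max_eq_right h0]

lemma den_pos (hc : 0 < c) (h : RsbParam q0 ls) (t : ℝ) : 0 < 1 / c + zInt ls q0 (proj t) :=
  add_pos_of_pos_of_nonneg (one_div_pos.2 hc) (zInt_nonneg (RsbParam.lv h) h.2.2.2.le (proj_mem t).2)

lemma xi2_nonneg (hα : 0 ≤ α) (t : ℝ) : 0 ≤ xi2 c α q0 ls t :=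
  div_nonneg hα (sq_nonneg _)

lemma continuous_xi2 (hc : 0 < c) (h : RsbParam q0 ls) : Continuous (xi2 c α q0 ls) := by
  have h1 : Continuous fun t => zInt ls q0 (proj t) :=
    (continuous_zInt ls q0).comp (by unfold proj; fun_prop)
  exact Continuous.div continuous_const ((continuous_const.add h1).pow 2)
    fun t => (pow_pos (den_pos hc h t) 2).ne'

lemma xi2_eq {t : ℝ} (h0 : 0 ≤ t) (h1 : t ≤ 1) :
    xi2 c α q0 ls t = α / (1 / c + zInt ls q0 t) ^ 2 := by rw [xi2, proj_of_mem h0 h1]

/-! ### The mixture -/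

lemma continuous_xi (hc : 0 < c) (h : RsbParam q0 ls) : Continuous (xi c α q0 ls) := by
  have := continuous_xi2 (α := α) hc h
  exact intervalIntegral.continuous_parametric_intervalIntegral_of_continuous' (by fun_prop) 0 1

lemma xi_bdd (hc : 0 < c) (h : RsbParam q0 ls) : ∃ D, ∀ R, |xi c α q0 ls R| ≤ D := by
  obtain ⟨B, hB⟩ := (isCompact_Icc (a := (0 : ℝ)) (b := 1)).exists_bound_of_continuousOn
    (continuous_xi (α := α) hc h).continuousOn
  refine ⟨B, fun R => ?_⟩
  have e : xi c α q0 ls R = xi c α q0 ls (min |R| 1) := by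
    simp only [xi, abs_of_nonneg (le_min (abs_nonneg R) zero_le_one), min_assoc, min_self]
  rw [e, ← Real.norm_eq_abs]
  exact hB _ ⟨le_min (abs_nonneg R) zero_le_one, min_le_right _ _⟩

lemma xi_of_mem (hc : 0 < c) (h : RsbParam q0 ls) {q : ℝ} (h0 : 0 ≤ q) (h1 : q ≤ 1) :
    xi c α q0 ls q = ∫ s in (0 : ℝ)..q, xi2 c α q0 ls s * (q - s) := by
  have hf := continuous_xi2 (α := α) hc h
  have hi : ∀ a b : ℝ, IntervalIntegrable (fun s => xi2 c α q0 ls s * max (q - s) 0) volume a b :=
    fun a b => (by fun_prop : Continuous fun s => xi2 c α q0 ls s * max (q - s) 0).intervalIntegrable a b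
  rw [xi, abs_of_nonneg h0, min_eq_left h1, ← intervalIntegral.integral_add_adjacent_intervals (hi 0 q) (hi q 1)]
  have e1 : ∫ s in (0 : ℝ)..q, xi2 c α q0 ls s * max (q - s) 0 =
      ∫ s in (0 : ℝ)..q, xi2 c α q0 ls s * (q - s) :=
    intervalIntegral.integral_congr fun s hs => by
      rw [uIcc_of_le h0] at hs
      simp only [max_eq_left (sub_nonneg.2 hs.2)]
  have e2 : ∫ s in q..1, xi2 c α q0 ls s * max (q - s) 0 = 0 := by
    rw [intervalIntegral.integral_congr (g := fun _ => (0 : ℝ)) fun s hs => by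
      rw [uIcc_of_le h1] at hs
      simp only [max_eq_right (sub_nonpos.2 hs.1), mul_zero]]
    simp
  rw [e1, e2, add_zero]

/-- The mixture lies above its tangents. -/
theorem xi_convex (hc : 0 < c) (hα : 0 ≤ α) (h : RsbParam q0 ls) {q R : ℝ} (h0 : 0 ≤ q) (h1 : q ≤ 1)
    (hR : |R| ≤ 1) : xi1 c α q0 ls q * R - theta c α q0 ls q ≤ xi c α q0 ls R := by
  have hf := continuous_xi2 (α := α) hc h
  have hn := xi2_nonneg hα (c := c) (q0 := q0) (ls := ls)
  have hi : ∀ a b : ℝ, IntervalIntegrable (fun s => xi2 c α q0 ls s * max (|R| - s) 0) volume a b :=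
    fun a b => (by fun_prop : Continuous fun s => xi2 c α q0 ls s * max (|R| - s) 0).intervalIntegrable a b
  have e : xi1 c α q0 ls q * R - theta c α q0 ls q =
      ∫ s in (0 : ℝ)..q, xi2 c α q0 ls s * (R - s) := by
    have hi1 : IntervalIntegrable (fun s => xi2 c α q0 ls s * (R - q)) volume 0 q :=
      (hf.mul continuous_const).intervalIntegrable _ _
    have hi2 : IntervalIntegrable (fun s => xi2 c α q0 ls s * (q - s)) volume 0 q :=
      (by fun_prop : Continuous fun s => xi2 c α q0 ls s * (q - s)).intervalIntegrable _ _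
    have : ∀ s, xi2 c α q0 ls s * (R - s) =
        xi2 c α q0 ls s * (R - q) + xi2 c α q0 ls s * (q - s) := fun s => by ring
    simp only [this]
    rw [intervalIntegral.integral_add hi1 hi2, intervalIntegral.integral_mul_const,
      ← xi_of_mem hc h h0 h1, theta, xi1]
    ring
  rw [e, xi, min_eq_left hR]
  refine le_trans (intervalIntegral.integral_mono_on h0
    ((by fun_prop : Continuous fun s => xi2 c α q0 ls s * (R - s)).intervalIntegrable _ _) (hi 0 q)
    fun s _ => mul_le_mul_of_nonneg_left (le_max_of_le_left (by linarith [le_abs_self R])) (hn s)) ?_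
  rw [← intervalIntegral.integral_add_adjacent_intervals (hi 0 q) (hi q 1)]
  exact le_add_of_nonneg_right (intervalIntegral.integral_nonneg h1 fun s _ =>
    mul_nonneg (hn s) (le_max_right _ _))

/-- The pairing with the distribution function of a point. -/
theorem integral_xi2_point (hc : 0 < c) (h : RsbParam q0 ls) {q : ℝ} (h0 : 0 ≤ q) (h1 : q ≤ 1) :
    ∫ t in (0 : ℝ)..1, xi2 c α q0 ls t * (1 - max t q) = xi c α q0 ls 1 - xi c α q0 ls q := by
  have hf := continuous_xi2 (α := α) hc h
  simp only [xi, abs_of_nonneg h0, abs_one, min_self, min_eq_left h1]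
  rw [← intervalIntegral.integral_sub
    ((by fun_prop : Continuous fun s => xi2 c α q0 ls s * max (1 - s) 0).intervalIntegrable _ _)
    ((by fun_prop : Continuous fun s => xi2 c α q0 ls s * max (q - s) 0).intervalIntegrable _ _)]
  refine intervalIntegral.integral_congr fun t ht => ?_
  rw [uIcc_of_le zero_le_one] at ht
  simp only [max_eq_left (sub_nonneg.2 ht.2)]
  rcases le_total t q with hq | hq
  · rw [max_eq_right hq, max_eq_left (sub_nonneg.2 hq)]; ring
  · rw [max_eq_left hq, max_eq_right (sub_nonpos.2 hq)]; ring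

/-! ### Integrals over the intervals between levels -/

lemma integral_inv_affine {u w K m : ℝ} (huw : u ≤ w) (hK : 0 < K) (hm : 0 < m) :
    ∫ t in u..w, 1 / (K + m * (w - t)) = Real.log ((K + m * (w - u)) / K) / m := by
  have hpos : ∀ t ∈ uIcc u w, 0 < K + m * (w - t) := fun t ht => by
    rw [uIcc_of_le huw] at ht
    exact add_pos_of_pos_of_nonneg hK (mul_nonneg hm.le (sub_nonneg.2 ht.2))
  have hd : ∀ t ∈ uIcc u w,
      HasDerivAt (fun t => -(Real.log (K + m * (w - t)) / m)) (1 / (K + m * (w - t))) t := fun t ht => by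
    have h1 : HasDerivAt (fun t => K + m * (w - t)) (m * -1) t :=
      (((hasDerivAt_id' t).const_sub w).const_mul m).const_add K
    refine ((h1.log (hpos t ht).ne').div_const m).neg.congr_deriv ?_
    field_simp
  have hcont : ContinuousOn (fun t => 1 / (K + m * (w - t))) (uIcc u w) :=
    continuousOn_const.div (by fun_prop) fun t ht => (hpos t ht).ne'
  rw [intervalIntegral.integral_eq_sub_of_hasDerivAt hd hcont.intervalIntegrable,
    Real.log_div (hpos u left_mem_uIcc).ne' hK.ne']
  simp
  ring

lemma integral_inv_sq_affine {u w K m : ℝ} (huw : u ≤ w) (hK : 0 < K) (hm : 0 < m) :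
    ∫ t in u..w, 1 / (K + m * (w - t)) ^ 2 = (w - u) / (K * (K + m * (w - u))) := by
  have hpos : ∀ t ∈ uIcc u w, 0 < K + m * (w - t) := fun t ht => by
    rw [uIcc_of_le huw] at ht
    exact add_pos_of_pos_of_nonneg hK (mul_nonneg hm.le (sub_nonneg.2 ht.2))
  have hd : ∀ t ∈ uIcc u w,
      HasDerivAt (fun t => (K + m * (w - t))⁻¹ / m) (1 / (K + m * (w - t)) ^ 2) t := fun t ht => by
    have h1 : HasDerivAt (fun t => K + m * (w - t)) (m * -1) t :=
      (((hasDerivAt_id' t).const_sub w).const_mul m).const_add K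
    refine ((h1.inv (hpos t ht).ne').div_const m).congr_deriv ?_
    field_simp
  have hcont : ContinuousOn (fun t => 1 / (K + m * (w - t)) ^ 2) (uIcc u w) :=
    continuousOn_const.div (by fun_prop) fun t ht => (pow_pos (hpos t ht) 2).ne'
  rw [intervalIntegral.integral_eq_sub_of_hasDerivAt hd hcont.intervalIntegrable, sub_self, mul_zero,
    add_zero]
  have := hpos u left_mem_uIcc
  field_simp
  ring

/-- The logarithmic terms as an integral of the curvature. -/
lemma integral_curvature (hc : 0 < c) : ∀ {ls : List (ℝ × ℝ)}, Lv ls → ∀ {q : ℝ},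
    q + (ls.map Prod.snd).sum ≤ 1 →
    ∫ t in q..1, 1 / (1 / c + zInt ls q t) = -2 * negB c ls (1 - q - (ls.map Prod.snd).sum)
  | [], _, q, hq => by
    simp only [List.map_nil, List.sum_nil, add_zero] at hq
    rw [intervalIntegral.integral_congr (g := fun t => 1 / (1 / c + 1 * (1 - t))) fun t ht => by
      rw [uIcc_of_le hq] at ht
      simp [zInt, max_eq_left ht.1]]
    rw [integral_inv_affine hq (one_div_pos.2 hc) one_pos]
    simp only [negB, List.map_nil, List.sum_nil, sub_zero]
    rw [show (1 / c + 1 * (1 - q)) / (1 / c) = 1 + c * (1 - q) by field_simp]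
    ring
  | (m, d) :: ls, h, q, hq => by
    obtain ⟨hm, -, hd⟩ := h.head
    simp only [List.map_cons, List.sum_cons] at hq ⊢
    have hsd : 0 ≤ (ls.map Prod.snd).sum := List.sum_nonneg fun _ hx => by
      obtain ⟨p, hp, rfl⟩ := List.mem_map.1 hx
      exact (h.tail p hp).2.2
    have ih := integral_curvature hc h.tail (q := q + d) (by linarith)
    set s := 1 - q - (d + (ls.map Prod.snd).sum) with hs
    have hs' : 1 - (q + d) - (ls.map Prod.snd).sum = s := by rw [hs]; ring
    have hs0 : 0 ≤ s := by rw [hs]; linarith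
    have ha := (negA_bounds hc h.tail hs0).1
    have hK : 1 / c + (s + (ls.map fun p => p.1 * p.2).sum) = 1 / negA c ls s := by
      rw [inv_negA hc h.tail hs0]; ring
    have hcont : ∀ a b, a ≤ b → b ≤ 1 → IntervalIntegrable
        (fun t => 1 / (1 / c + zInt ((m, d) :: ls) q t)) volume a b := fun a b hab hb => by
      refine (continuousOn_const.div (continuous_const.add (continuous_zInt _ q)).continuousOn
        fun t ht => ?_).intervalIntegrable
      rw [uIcc_of_le hab] at ht
      exact (add_pos_of_pos_of_nonneg (one_div_pos.2 hc)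
        (zInt_nonneg h (by simpa using hq) (ht.2.trans hb))).ne'
    rw [← intervalIntegral.integral_add_adjacent_intervals (hcont q (q + d) (by linarith) (by linarith))
      (hcont (q + d) 1 (by linarith) le_rfl)]
    have e1 : ∫ t in q..q + d, 1 / (1 / c + zInt ((m, d) :: ls) q t) =
        ∫ t in q..q + d, 1 / (1 / negA c ls s + m * (q + d - t)) :=
      intervalIntegral.integral_congr fun t ht => by
        rw [uIcc_of_le (by linarith)] at ht
        simp only [zInt_cons_on h ht.1 ht.2, hs', ← hK]
        ring_nf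
    have e2 : ∫ t in q + d..1, 1 / (1 / c + zInt ((m, d) :: ls) q t) =
        ∫ t in q + d..1, 1 / (1 / c + zInt ls (q + d) t) :=
      intervalIntegral.integral_congr fun t ht => by
        rw [uIcc_of_le (by linarith)] at ht
        simp only [zInt_cons_above hd ht.1]
    rw [e1, e2, ih, hs', integral_inv_affine (by linarith) (one_div_pos.2 ha) hm, negB]
    rw [show (1 / negA c ls s + m * (q + d - q)) / (1 / negA c ls s) = 1 + m * d * negA c ls s by
      field_simp; ring]
    ring

/-- The energy as an integral of the curvature. -/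
theorem negEnergy_eq_integral (hc : 0 < c) (h : RsbParam q0 ls) :
    negEnergy c q0 ls = -(∫ t in (0 : ℝ)..1, 1 / (1 / c + zInt ls q0 t)) / 2 := by
  have hl := RsbParam.lv h
  have hsd : 0 ≤ (ls.map Prod.snd).sum := List.sum_nonneg fun _ hx => by
    obtain ⟨p, hp, rfl⟩ := List.mem_map.1 hx
    exact (hl p hp).2.2
  have hq1 : q0 ≤ 1 := by linarith [h.2.2.2]
  have hcont : ∀ a b, a ≤ b → b ≤ 1 → IntervalIntegrable
      (fun t => 1 / (1 / c + zInt ls q0 t)) volume a b := fun a b hab hb => by
    refine (continuousOn_const.div (continuous_const.add (continuous_zInt _ q0)).continuousOn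
      fun t ht => ?_).intervalIntegrable
    rw [uIcc_of_le hab] at ht
    exact (add_pos_of_pos_of_nonneg (one_div_pos.2 hc)
      (zInt_nonneg hl h.2.2.2.le (ht.2.trans hb))).ne'
  have e : ∫ t in (0 : ℝ)..q0, 1 / (1 / c + zInt ls q0 t) = q0 * negA c ls (rsbRest q0 ls) := by
    rw [intervalIntegral.integral_congr (g := fun _ => negA c ls (rsbRest q0 ls)) fun t ht => by
      rw [uIcc_of_le h.1] at ht
      simp only [zInt_below hl ht.2]
      rw [show 1 / c + (1 - q0 - (ls.map Prod.snd).sum + (ls.map fun p => p.1 * p.2).sum) =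
        1 / negA c ls (rsbRest q0 ls) by rw [inv_negA hc hl (rest_pos h).le, rsbRest]; ring]
      rw [one_div_one_div]]
    simp
  rw [← intervalIntegral.integral_add_adjacent_intervals (hcont 0 q0 h.1 hq1) (hcont q0 1 hq1 le_rfl),
    e, integral_curvature hc hl h.2.2.2.le, negEnergy, rsbRest]
  ring

end Vale.Agent.P166N
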