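import Vale.Agent.P166N.Quad

/-!
The nested potential of a regularisation lies between the quadratic one and its shift by the mean gap.
-/

namespace Vale.Agent.P166N

open MeasureTheory ProbabilityTheory Filter
open Vale.Agent.P157
open scoped Topology

variable {c δ : ℝ}

/-- An integrable function times a bounded exponential weight. -/
lemma integrable_weight_mul {φ F : ℝ → ℝ} (hφ : Measurable φ) {B : ℝ} (hB : ∀ z, |φ z| ≤ B) (m : ℝ)
    (hF : Integrable F (gaussianReal 0 1)) : Integrable (fun z => Real.exp (m * φ z) * F z) (gaussianReal 0 1) :=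
  hF.bdd_mul (hφ.const_mul m).exp.aestronglyMeasurable (c := Real.exp (|m| * B))
    (Eventually.of_forall fun z => by
      rw [Real.norm_eq_abs, Real.abs_exp, Real.exp_le_exp]
      exact (le_abs_self _).trans (by rw [abs_mul]; exact mul_le_mul_of_nonneg_left (hB z) (abs_nonneg m)))

lemma wgt_bdd {φ : ℝ → ℝ} (hφ : Measurable φ) {B : ℝ} (hB : ∀ z, |φ z| ≤ B) (m : ℝ) :
    RSB.Wgt (gaussianReal 0 1) m φ :=
  ⟨hφ, by simpa using integrable_weight_mul hφ hB m (integrable_const 1)⟩

lemma abs_lexp_le {φ : ℝ → ℝ} (hφ : Measurable φ) {B : ℝ} (hB : ∀ z, |φ z| ≤ B) {m : ℝ} (hm : 0 < m) :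
    |RSB.lexp (gaussianReal 0 1) m φ| ≤ B := by
  have h : ∀ k : ℝ, RSB.Wgt (gaussianReal 0 1) m fun _ => k := fun k => ⟨measurable_const, integrable_const _⟩
  have h1 := RSB.lexp_mono (h (-B)) (wgt_bdd hφ hB m) hm fun z => (abs_le.1 (hB z)).1
  have h2 := RSB.lexp_mono (wgt_bdd hφ hB m) (h B) hm fun z => (abs_le.1 (hB z)).2
  rw [RSB.lexp_const hm.ne'] at h1 h2
  exact abs_le.2 ⟨h1, h2⟩

lemma measurable_shifted {φ : ℝ → ℝ} (hφ : Measurable φ) (y r : ℝ) :
    Measurable fun z => φ (y + r * z) := hφ.comp (by fun_prop)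

/-- The log-moment of a bounded function decreasing in the absolute value decreases in it. -/
lemma edec_lexp {φ : ℝ → ℝ} (hφ : Measurable φ) {B : ℝ} (hB : ∀ z, |φ z| ≤ B) (hd : EDec φ) {m : ℝ}
    (hm : 0 < m) (d : ℝ) : EDec fun y => RSB.lexp (gaussianReal 0 1) m fun z => φ (y + Real.sqrt d * z) := by
  have hw := fun y => wgt_bdd (measurable_shifted hφ y (Real.sqrt d)) (fun z => hB _) m
  intro x y hxy
  exact div_le_div_of_nonneg_right
    (Real.log_le_log (hw y).pos ((hd.exp_mul hm.le).shift d (fun u => (hw u).int) x y hxy)) hm.le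

/-! ### The averaged gap -/

lemma measurable_hBar (hc : 0 < c) (hδ : 0 < δ) (v : ℝ) : Measurable (hBar c δ v) :=
  (((continuous_hD hc hδ).measurable.comp (f := fun p : ℝ × ℝ => p.1 + Real.sqrt v * p.2)
    (by fun_prop)).stronglyMeasurable.integral_prod_right' (ν := (gaussianReal 0 1))).measurable

lemma hBar_nonneg (hc : 0 < c) (hδ : 0 < δ) (v y : ℝ) : 0 ≤ hBar c δ v y :=
  integral_nonneg fun _ => hD_nonneg hc hδ _

lemma hBar_le (hc : 0 < c) (hδ : 0 < δ) (hδ1 : δ < 1) {v : ℝ} (hv : 0 ≤ v) (y : ℝ) :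
    hBar c δ v y ≤ c * y ^ 2 + c * v := by
  have h2 : ∫ z, z ^ 2 ∂gaussianReal 0 1 = 1 := by
    have := variance_id_gaussianReal (μ := 0) (v := 1)
    rw [variance_eq_integral measurable_id.aemeasurable] at this
    simpa using this
  have hi : Integrable (fun z : ℝ => z ^ 2) (gaussianReal 0 1) := (IsGaussian.memLp_id (gaussianReal 0 1) 2 (by simp)).integrable_sq
  refine (integral_mono (integrable_hD hc hδ hδ1 y _) ((integrable_const (c * y ^ 2)).add
    (hi.const_mul (c * v))) fun z => ?_).trans_eq ?_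
  · refine (hD_le hc hδ hδ1 _).trans ?_
    have := mul_nonneg hc.le (sq_nonneg (y - Real.sqrt v * z))
    have e : c * (Real.sqrt v * z) ^ 2 = c * v * z ^ 2 := by rw [mul_pow, Real.sq_sqrt hv]; ring
    simp only [Pi.add_apply]
    nlinarith
  · simp only [Pi.add_apply]
    rw [integral_add (integrable_const _) (hi.const_mul _), integral_const_mul (c * v), h2]
    simp

lemma einc_hBar (hc : 0 < c) (hδ : 0 < δ) (hδ1 : δ < 1) (v : ℝ) : EInc (hBar c δ v) :=
  (einc_hD hc hδ).shift v fun y => integrable_hD hc hδ hδ1 y _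

lemma integrable_hBar (hc : 0 < c) (hδ : 0 < δ) (hδ1 : δ < 1) {v : ℝ} (hv : 0 ≤ v) (y r : ℝ) :
    Integrable (fun z => hBar c δ v (y + r * z)) (gaussianReal 0 1) := by
  refine integrable_of_le_sq (measurable_shifted (measurable_hBar hc hδ v) y r) (2 * c * y ^ 2 + c * v)
    (2 * c * r ^ 2) fun z => ?_
  rw [abs_of_nonneg (hBar_nonneg hc hδ _ _)]
  refine (hBar_le hc hδ hδ1 hv _).trans ?_
  nlinarith [mul_nonneg hc.le (sq_nonneg (y - r * z))]

/-- Shifts add their variances. -/
lemma hBar_add (hc : 0 < c) (hδ : 0 < δ) (hδ1 : δ < 1) {v d : ℝ} (hv : 0 ≤ v) (hd : 0 ≤ d) (y : ℝ) :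
    ∫ z, hBar c δ v (y + Real.sqrt d * z) ∂gaussianReal 0 1 = hBar c δ (d + v) y := by
  have h := (Low.gauss_merge (H := fun u => hD c δ (y + u)) ((continuous_hD hc hδ).measurable.comp (by fun_prop))
    (show Real.sqrt d ^ 2 + Real.sqrt v ^ 2 = Real.sqrt (d + v) ^ 2 by
      rw [Real.sq_sqrt hd, Real.sq_sqrt hv, Real.sq_sqrt (add_nonneg hd hv)])
    (integrable_hD hc hδ hδ1 y _)).2
  simpa only [hBar, add_assoc] using h

/-! ### The nested potential -/

lemma sum_d_nonneg {ls : List (ℝ × ℝ)} (h : Lv ls) : 0 ≤ (ls.map Prod.snd).sum :=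
  List.sum_nonneg fun _ ht => by
    obtain ⟨p, hp, rfl⟩ := List.mem_map.1 ht
    exact (h p hp).2.2

lemma pot_nil_eq (f : ℝ → ℝ) (s y : ℝ) :
    rsbPot f [] s y = RSB.lexp (gaussianReal 0 1) 1 fun z => f (y + Real.sqrt s * z) := by
  simp [rsbPot, RSB.lexp]

/-- The nested potential of a regularisation: measurable, bounded, decreasing in the absolute value,
and between the quadratic one and its shift by the averaged gap. -/
theorem pot_props (hc : 0 < c) (hδ : 0 < δ) (hδ1 : δ < 1) : ∀ {ls : List (ℝ × ℝ)}, Lv ls → ∀ {s : ℝ},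
    0 ≤ s → Measurable (rsbPot (fD c δ) ls s) ∧ (∀ y, |rsbPot (fD c δ) ls s y| ≤ -Real.log δ) ∧
      EDec (rsbPot (fD c δ) ls s) ∧ (∀ y, qPot c ls s y ≤ rsbPot (fD c δ) ls s y) ∧
      ∀ y, rsbPot (fD c δ) ls s y ≤ qPot c ls s y + hBar c δ (s + (ls.map Prod.snd).sum) y
  | [], _, s, hs => by
    have hp := pot_fD hc hδ hδ1
    have hm := fun y => measurable_shifted hp.meas y (Real.sqrt s)
    have hX := fun y => wgt_bdd (hm y) (fun z => hp.bound _) 1
    have hQ : ∀ y, RSB.Wgt (gaussianReal 0 1) 1 fun z => fQ c (y + Real.sqrt s * z) := fun y => by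
      refine ⟨measurable_shifted (by unfold fQ; fun_prop) y _, Integrable.mono' (integrable_const 1)
        (by unfold fQ; fun_prop) (Eventually.of_forall fun z => ?_)⟩
      rw [Real.norm_eq_abs, Real.abs_exp, one_mul]
      exact exp_fQ_le hc _
    have eQ : ∀ y, RSB.lexp (gaussianReal 0 1) 1 (fun z => fQ c (y + Real.sqrt s * z)) = qPot c [] s y := fun y => by
      rw [← pot_nil_eq, rsbPot_fQ hc (fun _ h => absurd h (by simp)) hs]
    have e : rsbPot (fD c δ) [] s = fun y => RSB.lexp (gaussianReal 0 1) 1 fun z => fD c δ (y + Real.sqrt s * z) :=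
      funext (pot_nil_eq _ s)
    rw [e]
    refine ⟨RSB.measurable_lexp (X := fun y z => fD c δ (y + Real.sqrt s * z))
      (hp.meas.comp (by fun_prop)) 1, fun y => abs_lexp_le (hm y) (fun z => hp.bound _) one_pos,
      edec_lexp hp.meas hp.bound (edec_fD hc hδ hδ1) one_pos s, fun y => ?_, fun y => ?_⟩
    · rw [← eQ y]
      exact RSB.lexp_mono (hQ y) (hX y) one_pos fun z => (fD_bounds hc hδ hδ1 _).2.2
    · have hi : Integrable (fun z => Real.exp (1 * fD c δ (y + Real.sqrt s * z)) *
          hD c δ (y + Real.sqrt s * z)) (gaussianReal 0 1) :=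
        integrable_weight_mul (hm y) (fun z => hp.bound _) 1 (integrable_hD hc hδ hδ1 y _)
      have he : ∀ z, fD c δ (y + Real.sqrt s * z) - fQ c (y + Real.sqrt s * z) =
          hD c δ (y + Real.sqrt s * z) := fun z => (hD_eq hc hδ hδ1 _).symm
      have h1 := lexp_sub_le one_pos (hX y) (hQ y) (by simpa only [he] using hi)
      simp only [he] at h1
      have h2 := tilt_le_mean (edec_fD hc hδ hδ1) (einc_hD hc hδ) zero_le_one
        (fun z => y + Real.sqrt s * z) (hX y) (integrable_hD hc hδ hδ1 y _) hi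
      rw [eQ] at h1
      simp only [List.map_nil, List.sum_nil, add_zero, hBar]
      linarith
  | (m, d) :: ls, h, s, hs => by
    obtain ⟨ihm, ihb, ihd, ihl, ihu⟩ := pot_props hc hδ hδ1 h.tail hs
    obtain ⟨hm, -, hd⟩ := h.head
    set φ := rsbPot (fD c δ) ls s
    have hv : 0 ≤ s + (ls.map Prod.snd).sum := add_nonneg hs (sum_d_nonneg h.tail)
    set v := s + (ls.map Prod.snd).sum
    have hmy := fun y => measurable_shifted ihm y (Real.sqrt d)
    have hX := fun y => wgt_bdd (hmy y) (fun z => ihb _) m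
    have hQ : ∀ y, RSB.Wgt (gaussianReal 0 1) m fun z => qPot c ls s (y + Real.sqrt d * z) := fun y =>
      ⟨by unfold qPot; fun_prop, integrable_exp_qPot hc h.tail hs hm.le y _⟩
    have e : rsbPot (fD c δ) ((m, d) :: ls) s = fun y => RSB.lexp (gaussianReal 0 1) m fun z => φ (y + Real.sqrt d * z) := rfl
    rw [e]
    refine ⟨RSB.measurable_lexp (X := fun y z => φ (y + Real.sqrt d * z)) (ihm.comp (by fun_prop)) m,
      fun y => abs_lexp_le (hmy y) (fun z => ihb _) hm, edec_lexp ihm ihb ihd hm d, fun y => ?_,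
      fun y => ?_⟩
    · rw [← lexp_qPot hc h hs y]
      exact RSB.lexp_mono (hQ y) (hX y) hm fun z => ihl _
    · have hg : ∀ z, |φ (y + Real.sqrt d * z) - qPot c ls s (y + Real.sqrt d * z)| ≤
          hBar c δ v (y + Real.sqrt d * z) := fun z => by
        rw [abs_of_nonneg (sub_nonneg.2 (ihl _))]
        linarith [ihu (y + Real.sqrt d * z)]
      have hgi : Integrable (fun z => φ (y + Real.sqrt d * z) - qPot c ls s (y + Real.sqrt d * z)) (gaussianReal 0 1) :=
        (integrable_hBar hc hδ hδ1 hv y _).mono' ((hmy y).sub (hQ y).meas).aestronglyMeasurable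
          (Eventually.of_forall fun z => (Real.norm_eq_abs _).trans_le (hg z))
      have i1 := integrable_weight_mul (hmy y) (fun z => ihb _) m hgi
      have i2 := integrable_weight_mul (hmy y) (fun z => ihb _) m (integrable_hBar hc hδ hδ1 hv y (Real.sqrt d))
      have h1 := lexp_sub_le hm (hX y) (hQ y) i1
      have h2 := RSB.tilt_mono (hX y) i1 i2 fun z => (le_abs_self _).trans (hg z)
      have h3 := tilt_le_mean ihd (einc_hBar hc hδ hδ1 v) hm.le (fun z => y + Real.sqrt d * z) (hX y)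
        (integrable_hBar hc hδ hδ1 hv y _) i2
      rw [lexp_qPot hc h hs, hBar_add hc hδ hδ1 hv hd] at *
      simp only [List.map_cons, List.sum_cons, v] at h1 h2 h3 ⊢
      rw [show d + (s + (ls.map Prod.snd).sum) = s + (d + (ls.map Prod.snd).sum) by ring] at h3
      linarith

/-- The energy of a regularisation lies within the mean gap of the quadratic one. -/
theorem energy_bounds (hc : 0 < c) (hδ : 0 < δ) (hδ1 : δ < 1) {q0 : ℝ} {ls : List (ℝ × ℝ)}
    (h : RsbParam q0 ls) : negEnergy c q0 ls ≤ rsbEnergy (fD c δ) q0 ls ∧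
      rsbEnergy (fD c δ) q0 ls ≤ negEnergy c q0 ls + errD c δ := by
  have hs := (rest_pos h).le
  obtain ⟨hm, hb, -, hl, hu⟩ := pot_props hc hδ hδ1 (RsbParam.lv h) hs
  have hv : rsbRest q0 ls + (ls.map Prod.snd).sum = 1 - q0 := by rw [rsbRest]; ring
  rw [hv] at hu
  have hv0 : 0 ≤ 1 - q0 := by linarith [h.2.2.2, sum_d_nonneg (RsbParam.lv h)]
  set r := Real.sqrt q0
  set a := negA c ls (rsbRest q0 ls)
  set b := negB c ls (rsbRest q0 ls)
  have h2 : ∫ z, z ^ 2 ∂gaussianReal 0 1 = 1 := by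
    have := variance_id_gaussianReal (μ := 0) (v := 1)
    rw [variance_eq_integral measurable_id.aemeasurable] at this
    simpa using this
  have hi : Integrable (fun z : ℝ => z ^ 2) (gaussianReal 0 1) := (IsGaussian.memLp_id (gaussianReal 0 1) 2 (by simp)).integrable_sq
  have eq : ∀ z, qPot c ls (rsbRest q0 ls) (r * z) = b - a * q0 / 2 * z ^ 2 := fun z => by
    have := Real.sq_sqrt h.1
    simp only [qPot, a, b, r, mul_pow, this]
    ring
  have iq : Integrable (fun z => qPot c ls (rsbRest q0 ls) (r * z)) (gaussianReal 0 1) := by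
    simp only [eq]; exact (integrable_const b).sub (hi.const_mul _)
  have ip : Integrable (fun z => rsbPot (fD c δ) ls (rsbRest q0 ls) (r * z)) (gaussianReal 0 1) :=
    Integrable.of_bound (hm.comp (by fun_prop)).aestronglyMeasurable _
      (Eventually.of_forall fun z => (Real.norm_eq_abs _).trans_le (hb _))
  have ih : Integrable (fun z => hBar c δ (1 - q0) (r * z)) (gaussianReal 0 1) := by
    simpa using integrable_hBar hc hδ hδ1 hv0 0 r
  have e1 : ∫ z, qPot c ls (rsbRest q0 ls) (r * z) ∂gaussianReal 0 1 = negEnergy c q0 ls := by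
    simp only [eq]
    rw [integral_sub (integrable_const b) (hi.const_mul _), integral_const_mul, h2]
    simp [negEnergy, a, b]
  have e2 : ∫ z, hBar c δ (1 - q0) (r * z) ∂gaussianReal 0 1 = errD c δ := by
    have := hBar_add hc hδ hδ1 hv0 h.1 0
    simp only [zero_add, add_sub_cancel] at this
    rw [this]
    simp [hBar, errD]
  refine ⟨e1 ▸ integral_mono iq ip fun z => hl _, ?_⟩
  rw [← e1, ← e2, ← integral_add iq ih]
  exact integral_mono ip (iq.add ih) fun z => hu _

end Vale.Agent.P166N
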