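import Vale.Agent.P166N.Mono
import Vale.Agent.P157.Low.BorelX

/-!
The quadratic potential through the nested averages, and elementary facts about its regularisations.
-/

namespace Vale.Agent.P166N

open MeasureTheory ProbabilityTheory Filter
open Vale.Agent.P157
open scoped Topology

/-- A function of at most quadratic growth is integrable. -/
lemma integrable_of_le_sq {F : ℝ → ℝ} (hF : Measurable F) (A B : ℝ) (h : ∀ z, |F z| ≤ A + B * z ^ 2) :
    Integrable F (gaussianReal 0 1) :=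
  ((integrable_const A).add ((IsGaussian.memLp_id (gaussianReal 0 1) 2 (by simp)).integrable_sq.const_mul B)).mono'
    hF.aestronglyMeasurable (Eventually.of_forall fun z => by simpa [Real.norm_eq_abs] using h z)

/-- A centred Gaussian average of a Gaussian function. -/
lemma integral_exp_sq (y : ℝ) {k d : ℝ} (hk : 0 ≤ k) (hd : 0 ≤ d) :
    ∫ z, Real.exp (-(k * (y + Real.sqrt d * z) ^ 2 / 2)) ∂gaussianReal 0 1 =
      Real.exp (-(k * y ^ 2 / (2 * (1 + k * d))) - Real.log (1 + k * d) / 2) := by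
  have hb : 0 < 1 + k * d := by positivity
  have hr := Real.sq_sqrt hd
  set r := Real.sqrt d
  rw [integral_gaussianReal_eq_integral_smul one_ne_zero]
  simp only [gaussianPDFReal, sub_zero, NNReal.coe_one, mul_one, smul_eq_mul]
  set C := (Real.sqrt (2 * Real.pi))⁻¹ with hC
  have e : ∀ z, C * Real.exp (-z ^ 2 / 2) * Real.exp (-(k * (y + r * z) ^ 2 / 2)) =
      C * Real.exp (-(k * y ^ 2 / (2 * (1 + k * d)))) *
        Real.exp (-((1 + k * d) / 2) * (z + k * r * y / (1 + k * d)) ^ 2) := fun z => by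
    rw [mul_assoc, mul_assoc, ← Real.exp_add, ← Real.exp_add]
    congr 2
    rw [← hr] at hb ⊢
    field_simp
    ring
  simp only [e]
  rw [integral_const_mul,
    integral_add_right_eq_self (fun z => Real.exp (-((1 + k * d) / 2) * z ^ 2)), integral_gaussian,
    Real.exp_sub, Real.exp_half, Real.exp_log hb, div_eq_mul_inv (Real.exp _), mul_comm C, mul_assoc]
  congr 1
  rw [hC, ← Real.sqrt_inv, ← Real.sqrt_mul (by positivity), ← Real.sqrt_inv]
  congr 1
  have := Real.pi_pos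
  field_simp

/-! ### The nested quadratic potential -/

/-- Levels with exponents in `(0, 1]` and nonnegative increments. -/
def Lv (ls : List (ℝ × ℝ)) : Prop := ∀ p ∈ ls, 0 < p.1 ∧ p.1 ≤ 1 ∧ 0 ≤ p.2

lemma Lv.head {m d : ℝ} {ls : List (ℝ × ℝ)} (h : Lv ((m, d) :: ls)) : 0 < m ∧ m ≤ 1 ∧ 0 ≤ d :=
  h _ (List.mem_cons_self ..)

lemma Lv.tail {p : ℝ × ℝ} {ls : List (ℝ × ℝ)} (h : Lv (p :: ls)) : Lv ls :=
  fun t ht => h t (List.mem_cons_of_mem _ ht)

lemma RsbParam.lv {q0 : ℝ} {ls : List (ℝ × ℝ)} (h : RsbParam q0 ls) : Lv ls := fun p hp =>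
  ⟨(h.2.2.1 p hp).1, (h.2.2.1 p hp).2.1, (h.2.2.1 p hp).2.2⟩

lemma rest_pos {q0 : ℝ} {ls : List (ℝ × ℝ)} (h : RsbParam q0 ls) : 0 < rsbRest q0 ls := by
  rw [rsbRest]; linarith [h.2.2.2]

variable {c : ℝ}

lemma negA_bounds (hc : 0 < c) : ∀ {ls : List (ℝ × ℝ)}, Lv ls → ∀ {s : ℝ}, 0 ≤ s →
    0 < negA c ls s ∧ negA c ls s ≤ c
  | [], _, s, hs => by
    have h1 : (1 : ℝ) ≤ 1 + c * s := le_add_of_nonneg_right (mul_nonneg hc.le hs)
    exact ⟨div_pos hc (one_pos.trans_le h1), div_le_self hc.le h1⟩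
  | (m, d) :: ls, h, s, hs => by
    obtain ⟨ha, hac⟩ := negA_bounds hc h.tail hs
    obtain ⟨hm, -, hd⟩ := h.head
    have h1 : (1 : ℝ) ≤ 1 + m * d * negA c ls s := le_add_of_nonneg_right (by positivity)
    exact ⟨div_pos ha (one_pos.trans_le h1), (div_le_self ha.le h1).trans hac⟩

lemma inv_negA (hc : 0 < c) : ∀ {ls : List (ℝ × ℝ)}, Lv ls → ∀ {s : ℝ}, 0 ≤ s →
    1 / negA c ls s = 1 / c + s + (ls.map fun p => p.1 * p.2).sum
  | [], _, s, hs => by
    simp only [negA, List.map_nil, List.sum_nil, add_zero]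
    field_simp
  | (m, d) :: ls, h, s, hs => by
    have ha := (negA_bounds hc h.tail hs).1
    have ih := inv_negA hc h.tail hs
    obtain ⟨hm, -, hd⟩ := h.head
    have hne : (1 + m * d * negA c ls s) ≠ 0 := by positivity
    simp only [negA, List.map_cons, List.sum_cons]
    rw [one_div_div, add_div, mul_div_assoc, div_self ha.ne', ih]
    ring

/-- The nested potential of `-c s ^ 2 / 2`. -/
noncomputable def qPot (c : ℝ) (ls : List (ℝ × ℝ)) (s y : ℝ) : ℝ :=
  negB c ls s - negA c ls s * y ^ 2 / 2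

lemma integrable_exp_qPot (hc : 0 < c) {ls : List (ℝ × ℝ)} (h : Lv ls) {s : ℝ} (hs : 0 ≤ s) {m : ℝ}
    (hm : 0 ≤ m) (y r : ℝ) : Integrable (fun z => Real.exp (m * qPot c ls s (y + r * z))) (gaussianReal 0 1) := by
  refine Integrable.mono' (integrable_const (Real.exp (m * negB c ls s)))
    (by unfold qPot; fun_prop) (Eventually.of_forall fun z => ?_)
  rw [Real.norm_eq_abs, Real.abs_exp, Real.exp_le_exp]
  have ha := (negA_bounds hc h hs).1.le
  exact mul_le_mul_of_nonneg_left (sub_le_self _ (by positivity)) hm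

lemma lexp_qPot (hc : 0 < c) {m d : ℝ} {ls : List (ℝ × ℝ)} (h : Lv ((m, d) :: ls)) {s : ℝ}
    (hs : 0 ≤ s) (y : ℝ) :
    RSB.lexp (gaussianReal 0 1) m (fun z => qPot c ls s (y + Real.sqrt d * z)) = qPot c ((m, d) :: ls) s y := by
  obtain ⟨hm, -, hd⟩ := h.head
  have ha := (negA_bounds hc h.tail hs).1
  set a := negA c ls s with ha'
  set b := negB c ls s
  have e : ∀ z, Real.exp (m * qPot c ls s (y + Real.sqrt d * z)) =
      Real.exp (m * b) * Real.exp (-(m * a * (y + Real.sqrt d * z) ^ 2 / 2)) := fun z => by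
    rw [← Real.exp_add]; congr 1; simp only [qPot, a, b]; ring
  simp only [RSB.lexp, e]
  rw [integral_const_mul, integral_exp_sq y (by positivity) hd, ← Real.exp_add, Real.log_exp]
  simp only [qPot, negA, negB, ← ha', show m * a * d = m * d * a by ring]
  have : (1 + m * d * a) ≠ 0 := by positivity
  field_simp
  ring

lemma rsbPot_fQ (hc : 0 < c) : ∀ {ls : List (ℝ × ℝ)}, Lv ls → ∀ {s : ℝ}, 0 ≤ s → ∀ y,
    rsbPot (fQ c) ls s y = qPot c ls s y
  | [], _, s, hs, y => by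
    simp only [rsbPot, fQ, qPot, negA, negB]
    rw [integral_exp_sq y hc.le hs, Real.log_exp]
    field_simp
    ring
  | (m, d) :: ls, h, s, hs, y => by
    rw [← lexp_qPot hc h hs y]
    simp only [rsbPot, RSB.lexp, rsbPot_fQ hc h.tail hs]

/-! ### The regularisations -/

variable {δ : ℝ}

lemma exp_fQ_le (hc : 0 < c) (s : ℝ) : Real.exp (fQ c s) ≤ 1 :=
  Real.exp_le_one_iff.2 (by simp only [fQ, Left.neg_nonpos_iff]; positivity)

lemma wD_bounds (hc : 0 < c) (hδ : 0 < δ) (hδ1 : δ < 1) (s : ℝ) :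
    δ ≤ wD c δ s ∧ wD c δ s ≤ 1 ∧ Real.exp (fQ c s) ≤ wD c δ s := by
  have h0 := Real.exp_pos (fQ c s)
  have h1 := exp_fQ_le hc s
  simp only [wD]
  refine ⟨?_, ?_, ?_⟩ <;> nlinarith

lemma continuous_wD (c δ : ℝ) : Continuous (wD c δ) := by unfold wD fQ; fun_prop

lemma exp_fD (hc : 0 < c) (hδ : 0 < δ) (hδ1 : δ < 1) (s : ℝ) : Real.exp (fD c δ s) = wD c δ s :=
  Real.exp_log (hδ.trans_le (wD_bounds hc hδ hδ1 s).1)

lemma fD_bounds (hc : 0 < c) (hδ : 0 < δ) (hδ1 : δ < 1) (s : ℝ) :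
    Real.log δ ≤ fD c δ s ∧ fD c δ s ≤ 0 ∧ fQ c s ≤ fD c δ s := by
  obtain ⟨h1, h2, h3⟩ := wD_bounds hc hδ hδ1 s
  refine ⟨Real.log_le_log hδ h1, Real.log_nonpos (hδ.le.trans h1) h2, ?_⟩
  have h := Real.log_le_log (Real.exp_pos _) h3
  rwa [Real.log_exp] at h

lemma continuous_fD (hc : 0 < c) (hδ : 0 < δ) (hδ1 : δ < 1) : Continuous (fD c δ) :=
  (continuous_wD c δ).log fun s => (hδ.trans_le (wD_bounds hc hδ hδ1 s).1).ne'

lemma pot_fD (hc : 0 < c) (hδ : 0 < δ) (hδ1 : δ < 1) : Pot (fD c δ) (-Real.log δ) where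
  meas := (continuous_fD hc hδ hδ1).measurable
  bound s := by
    obtain ⟨h1, h2, -⟩ := fD_bounds hc hδ hδ1 s
    rw [abs_le]
    constructor <;> linarith [Real.log_neg hδ hδ1]

lemma edec_fD (hc : 0 < c) (hδ : 0 < δ) (hδ1 : δ < 1) : EDec (fD c δ) := fun x y h => by
  refine Real.log_le_log (hδ.trans_le (wD_bounds hc hδ hδ1 y).1) ?_
  have h2 : Real.exp (fQ c y) ≤ Real.exp (fQ c x) := Real.exp_le_exp.2 (by
    have := mul_le_mul_of_nonneg_left (sq_le_sq.2 h) hc.le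
    simp only [fQ]
    linarith)
  simp only [wD]
  gcongr

lemma hD_arg (hc : 0 < c) (hδ : 0 < δ) (s : ℝ) :
    1 ≤ 1 - δ + δ * Real.exp (c * s ^ 2 / 2) := by
  have : 1 ≤ Real.exp (c * s ^ 2 / 2) := Real.one_le_exp (by positivity)
  nlinarith

lemma hD_eq (hc : 0 < c) (hδ : 0 < δ) (hδ1 : δ < 1) (s : ℝ) : hD c δ s = fD c δ s - fQ c s := by
  have h : wD c δ s = Real.exp (fQ c s) * (1 - δ + δ * Real.exp (c * s ^ 2 / 2)) := by
    have e : Real.exp (fQ c s) * Real.exp (c * s ^ 2 / 2) = 1 := by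
      rw [← Real.exp_add]; simp [fQ]
    simp only [wD]
    linear_combination (-δ) * e
  rw [fD, hD, h, Real.log_mul (Real.exp_pos _).ne' (by linarith [hD_arg hc hδ s]), Real.log_exp]
  ring

lemma hD_nonneg (hc : 0 < c) (hδ : 0 < δ) (s : ℝ) : 0 ≤ hD c δ s := Real.log_nonneg (hD_arg hc hδ s)

lemma hD_le (hc : 0 < c) (hδ : 0 < δ) (hδ1 : δ < 1) (s : ℝ) : hD c δ s ≤ c * s ^ 2 / 2 := by
  rw [hD, Real.log_le_iff_le_exp (one_pos.trans_le (hD_arg hc hδ s))]
  have : 1 ≤ Real.exp (c * s ^ 2 / 2) := Real.one_le_exp (by positivity)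
  nlinarith

lemma continuous_hD (hc : 0 < c) (hδ : 0 < δ) : Continuous (hD c δ) := by
  unfold hD
  exact Continuous.log (by fun_prop) fun s => (one_pos.trans_le (hD_arg hc hδ s)).ne'

lemma einc_hD (hc : 0 < c) (hδ : 0 < δ) : EInc (hD c δ) := fun x y h => by
  refine Real.log_le_log (one_pos.trans_le (hD_arg hc hδ x)) ?_
  have h2 : Real.exp (c * x ^ 2 / 2) ≤ Real.exp (c * y ^ 2 / 2) := Real.exp_le_exp.2 (by
    have := mul_le_mul_of_nonneg_left (sq_le_sq.2 h) hc.le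
    linarith)
  gcongr

lemma integrable_hD (hc : 0 < c) (hδ : 0 < δ) (hδ1 : δ < 1) (y r : ℝ) :
    Integrable (fun z => hD c δ (y + r * z)) (gaussianReal 0 1) := by
  refine integrable_of_le_sq ((continuous_hD hc hδ).measurable.comp (by fun_prop)) (c * y ^ 2) (c * r ^ 2)
    fun z => ?_
  rw [abs_of_nonneg (hD_nonneg hc hδ _)]
  refine (hD_le hc hδ hδ1 _).trans ?_
  nlinarith [mul_nonneg hc.le (sq_nonneg (y - r * z))]

lemma tendsto_hD (s : ℝ) : Tendsto (fun δ => hD c δ s) (𝓝 0) (𝓝 0) := by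
  have h : Tendsto (fun δ : ℝ => 1 - δ + δ * Real.exp (c * s ^ 2 / 2)) (𝓝 0) (𝓝 1) := by
    refine ((continuous_const.sub continuous_id).add (continuous_id.mul continuous_const)).tendsto' 0 1 ?_
    simp
  simpa [hD] using h.log one_ne_zero

lemma errD_nonneg (hc : 0 < c) (hδ : 0 < δ) : 0 ≤ errD c δ :=
  integral_nonneg fun z => hD_nonneg hc hδ z

/-- The mean gap vanishes with the regularisation. -/
theorem tendsto_errD (hc : 0 < c) : Tendsto (errD c) (𝓝[>] 0) (𝓝 0) := by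
  have h := tendsto_integral_filter_of_dominated_convergence (μ := (gaussianReal 0 1)) (l := 𝓝[>] (0 : ℝ))
    (F := fun δ z => hD c δ z) (f := fun _ => (0 : ℝ)) (fun z => c * z ^ 2 / 2)
    (eventually_mem_nhdsWithin.mono fun δ hδ => (continuous_hD hc hδ).aestronglyMeasurable)
    ?_ ((((IsGaussian.memLp_id (gaussianReal 0 1) 2 (by simp)).integrable_sq.const_mul c)).div_const 2)
    (Eventually.of_forall fun z => (tendsto_hD z).mono_left nhdsWithin_le_nhds)
  · show Tendsto (fun δ => errD c δ) _ _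
    simpa [errD] using h
  · filter_upwards [Ioo_mem_nhdsGT (one_pos : (0 : ℝ) < 1)] with δ hδ
    refine Eventually.of_forall fun z => ?_
    rw [Real.norm_eq_abs, abs_of_nonneg (hD_nonneg hc hδ.1 z)]
    exact hD_le hc hδ.1 hδ.2 z

end Vale.Agent.P166N
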