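import Vale.Agent.P166N.PotBounds
import Vale.Agent.P157.Low.Parisi
import Vale.Agent.P157.Low.Taylor

/-!
Slopes of the nested potential of a regularisation: two-sided quadratic expansions, linear growth,
and closeness to the slope of the quadratic potential.
-/

namespace Vale.Agent.P166N

open MeasureTheory ProbabilityTheory Filter
open Vale.Agent.P157
open scoped Topology

variable {c δ : ℝ}

/-- Mean absolute value after a shift of variance `v`. -/
noncomputable def absBar (v y : ℝ) : ℝ := ∫ z, |y + Real.sqrt v * z| ∂gaussianReal 0 1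

lemma integrable_abs_shift (y r : ℝ) : Integrable (fun z : ℝ => |y + r * z|) (gaussianReal 0 1) := by
  refine integrable_of_le_sq (by fun_prop) (1 + y ^ 2) (r ^ 2) fun z => ?_
  rw [abs_abs]
  nlinarith [abs_add_le y (r * z), sq_nonneg (|y| - 1 / 2), sq_nonneg (|r * z| - 1 / 2), sq_abs y,
    sq_abs (r * z), mul_pow r z 2]

lemma measurable_absBar (v : ℝ) : Measurable (absBar v) :=
  ((by fun_prop : Measurable fun p : ℝ × ℝ => |p.1 + Real.sqrt v * p.2|).stronglyMeasurable.integral_prod_right'
    (ν := (gaussianReal 0 1))).measurable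

lemma einc_absBar (v : ℝ) : EInc (absBar v) :=
  EInc.shift (g := fun x => |x|) (fun _ _ h => h) v fun y => integrable_abs_shift y _

lemma absBar_le {v : ℝ} (hv : v ≤ 1) (y : ℝ) : absBar v y ≤ |y| + 1 := by
  have h2 : ∫ z, z ^ 2 ∂gaussianReal 0 1 = 1 := by
    have := variance_id_gaussianReal (μ := 0) (v := 1)
    rw [variance_eq_integral measurable_id.aemeasurable] at this
    simpa using this
  have hi : Integrable (fun z : ℝ => z ^ 2) (gaussianReal 0 1) := (IsGaussian.memLp_id (gaussianReal 0 1) 2 (by simp)).integrable_sq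
  refine (integral_mono (integrable_abs_shift y _) ((integrable_const (|y| + 1 / 2)).add
    (hi.const_mul (1 / 2))) fun z => ?_).trans_eq ?_
  · have h1 : Real.sqrt v ≤ 1 := Real.sqrt_le_one.2 hv
    have h3 : |Real.sqrt v * z| ≤ |z| := by
      rw [abs_mul, abs_of_nonneg (Real.sqrt_nonneg v)]
      exact mul_le_of_le_one_left (abs_nonneg z) h1
    simp only [Pi.add_apply]
    nlinarith [abs_add_le y (Real.sqrt v * z), sq_nonneg (|z| - 1), sq_abs z]
  · simp only [Pi.add_apply]
    rw [integral_add (integrable_const _) (hi.const_mul _), integral_const_mul, h2]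
    simp
    ring

lemma integrable_absBar (v y r : ℝ) (hv : v ≤ 1) : Integrable (fun z => absBar v (y + r * z)) (gaussianReal 0 1) := by
  refine ((integrable_abs_shift y r).add (integrable_const 1)).mono'
    (measurable_shifted (measurable_absBar v) y r).aestronglyMeasurable (Eventually.of_forall fun z => ?_)
  rw [Real.norm_eq_abs, absBar, abs_of_nonneg (integral_nonneg fun _ => abs_nonneg _)]
  exact absBar_le hv _

lemma absBar_add {v d : ℝ} (hv : 0 ≤ v) (hd : 0 ≤ d) (y : ℝ) :
    ∫ z, absBar v (y + Real.sqrt d * z) ∂gaussianReal 0 1 = absBar (d + v) y := by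
  have h := (Low.gauss_merge (H := fun u : ℝ => |y + u|) (by fun_prop)
    (show Real.sqrt d ^ 2 + Real.sqrt v ^ 2 = Real.sqrt (d + v) ^ 2 by
      rw [Real.sq_sqrt hd, Real.sq_sqrt hv, Real.sq_sqrt (add_nonneg hd hv)])
    (integrable_abs_shift y _)).2
  simpa only [absBar, add_assoc] using h

/-- One level of the potential. -/
noncomputable def stepPot (φ : ℝ → ℝ) (m d y : ℝ) : ℝ :=
  RSB.lexp (gaussianReal 0 1) m fun z => φ (y + Real.sqrt d * z)

/-- One level of the slope. -/
noncomputable def stepSlope (φ D : ℝ → ℝ) (m d y : ℝ) : ℝ :=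
  RSB.tilt (gaussianReal 0 1) m (fun z => φ (y + Real.sqrt d * z)) fun z => D (y + Real.sqrt d * z)

/-- A potential with a slope: bounded, decreasing in the absolute value, with a quadratic lower
expansion of constant `c / 2`, an upper one, and linear growth of the slope. -/
structure SlopeOK (c B v : ℝ) (φ D : ℝ → ℝ) : Prop where
  meas : Measurable φ
  bdd : ∀ y, |φ y| ≤ B
  edec : EDec φ
  measD : Measurable D
  bddD : ∃ K, ∀ y, |D y| ≤ K
  lower : ∀ y h, φ y + D y * h - c * h ^ 2 / 2 ≤ φ (y + h)
  upper : ∃ L, ∀ y h, φ (y + h) ≤ φ y + D y * h + L * h ^ 2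
  grow : ∀ y, |D y| ≤ c * absBar v y

lemma SlopeOK.hasDerivAt {B v : ℝ} {φ D : ℝ → ℝ} (hc : 0 < c) (h : SlopeOK c B v φ D) (y : ℝ) :
    HasDerivAt φ (D y) y := by
  obtain ⟨L, hL⟩ := h.upper
  rw [hasDerivAt_iff_isLittleO_nhds_zero]
  refine Asymptotics.IsBigO.trans_isLittleO (g := fun t : ℝ => t ^ 2) ?_ (Asymptotics.isLittleO_pow_id one_lt_two)
  refine Asymptotics.IsBigO.of_bound (|L| + c) (Eventually.of_forall fun t => ?_)
  have h1 := h.lower y t
  have h2 := hL y t
  have h3 := mul_le_mul_of_nonneg_right (le_abs_self L) (sq_nonneg t)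
  have h4 := mul_nonneg hc.le (sq_nonneg t)
  have h5 := mul_nonneg (abs_nonneg L) (sq_nonneg t)
  rw [Real.norm_eq_abs, Real.norm_eq_abs, abs_of_nonneg (sq_nonneg t), smul_eq_mul, abs_le]
  constructor <;> nlinarith

/-- An exponential moment of a bounded variable. -/
lemma integral_exp_le {Z : Type} [MeasurableSpace Z] {μ : Measure Z} [IsProbabilityMeasure μ] {X : Z → ℝ}
    {m M : ℝ} {U : Z → ℝ} (hX : RSB.Wgt μ m X) (hU : Measurable U) (hM : ∀ z, |U z| ≤ M) :
    ∫ z, Real.exp (m * X z) * Real.exp (U z) ∂μ ≤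
      (∫ z, Real.exp (m * X z) ∂μ) * Real.exp (RSB.tilt μ m X U + 2 * M ^ 2) := by
  have hI := hX.pos
  have iU : Integrable (fun z => Real.exp (m * X z) * U z) μ :=
    hX.int.mul_bdd hU.aestronglyMeasurable (c := M)
      (Eventually.of_forall fun z => (Real.norm_eq_abs _).trans_le (hM z))
  have iE : Integrable (fun z => Real.exp (m * X z) * Real.exp (U z)) μ :=
    hX.int.mul_bdd hU.exp.aestronglyMeasurable (c := Real.exp M) (Eventually.of_forall fun z => by
      rw [Real.norm_eq_abs, Real.abs_exp, Real.exp_le_exp]; exact (abs_le.1 (hM z)).2)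
  set t := RSB.tilt μ m X U with ht
  have et : ∫ z, Real.exp (m * X z) * U z ∂μ = t * ∫ z, Real.exp (m * X z) ∂μ := by
    rw [ht, RSB.tilt, smul_eq_mul]
    simp only [smul_eq_mul]
    rw [mul_comm (∫ z, Real.exp (m * X z) ∂μ)⁻¹, mul_assoc, inv_mul_cancel₀ hI.ne', mul_one]
  rcases le_or_gt M 1 with hM1 | hM1
  · have hpt : ∀ z, Real.exp (m * X z) * Real.exp (U z) ≤
        Real.exp (m * X z) * (1 + M ^ 2) + Real.exp (m * X z) * U z := fun z => by
      rw [← mul_add]
      refine mul_le_mul_of_nonneg_left ?_ (Real.exp_pos _).le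
      have hu : |U z| ≤ 1 := (hM z).trans hM1
      have h1 := (abs_le.1 (Real.abs_exp_sub_one_sub_id_le hu)).2
      have h2 : U z ^ 2 ≤ M ^ 2 := by rw [← sq_abs]; exact pow_le_pow_left₀ (abs_nonneg _) (hM z) 2
      linarith
    have h := integral_mono iE ((hX.int.mul_const _).add iU) hpt
    simp only [Pi.add_apply] at h
    rw [integral_add (hX.int.mul_const _) iU, integral_mul_const, et] at h
    refine h.trans ?_
    have := mul_le_mul_of_nonneg_left (Real.add_one_le_exp (t + M ^ 2)) hI.le
    have h2 : Real.exp (t + M ^ 2) ≤ Real.exp (t + 2 * M ^ 2) :=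
      Real.exp_le_exp.2 (by nlinarith)
    nlinarith
  · have hlow : -M ≤ t := by
      have := RSB.norm_tilt_le hX (F := U) fun z => (Real.norm_eq_abs _).trans_le (hM z)
      rw [Real.norm_eq_abs] at this
      exact (abs_le.1 this).1
    have h := integral_mono iE (hX.int.mul_const (Real.exp M)) fun z =>
      mul_le_mul_of_nonneg_left (Real.exp_le_exp.2 (abs_le.1 (hM z)).2) (Real.exp_pos _).le
    rw [integral_mul_const] at h
    exact h.trans (mul_le_mul_of_nonneg_left (Real.exp_le_exp.2 (by nlinarith)) hI.le)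

/-- One level keeps the expansions. -/
theorem SlopeOK.step {B v : ℝ} {φ D : ℝ → ℝ} (hc : 0 < c) (h : SlopeOK c B v φ D) {m d : ℝ}
    (hm : 0 < m) (hd : 0 ≤ d) (hv : 0 ≤ v) (hv1 : v ≤ 1) :
    SlopeOK c B (d + v) (stepPot φ m d) (stepSlope φ D m d) := by
  obtain ⟨K, hK⟩ := h.bddD
  obtain ⟨L, hL⟩ := h.upper
  set r := Real.sqrt d
  have hmy := fun y => measurable_shifted h.meas y r
  have hDy := fun y => measurable_shifted h.measD y r
  have hX := fun y => wgt_bdd (hmy y) (fun z => h.bdd _) m
  have hXp : Measurable fun p : ℝ × ℝ => φ (p.1 + r * p.2) := h.meas.comp (by fun_prop)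
  have hDp : Measurable fun p : ℝ × ℝ => D (p.1 + r * p.2) := h.measD.comp (by fun_prop)
  have hWt : ∀ y t, RSB.Wgt (gaussianReal 0 1) m fun z => φ (y + r * z) + t * D (y + r * z) := fun y t =>
    wgt_bdd ((hmy y).add ((hDy y).const_mul t)) (B := B + |t| * K) (fun z => by
      refine (abs_add_le _ _).trans (add_le_add (h.bdd _) ?_)
      rw [abs_mul]; exact mul_le_mul_of_nonneg_left (hK _) (abs_nonneg t)) m
  have hadd : ∀ y t k, RSB.Wgt (gaussianReal 0 1) m fun z => φ (y + r * z) + t * D (y + r * z) + k := fun y t k =>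
    ⟨(hWt y t).meas.add_const k, by
      simpa [mul_add, Real.exp_add] using (hWt y t).int.mul_const (Real.exp (m * k))⟩
  refine ⟨RSB.measurable_lexp (X := fun y z => φ (y + r * z)) hXp m,
    fun y => abs_lexp_le (hmy y) (fun z => h.bdd _) hm, edec_lexp h.meas h.bdd h.edec hm d,
    RSB.measurable_tilt (X := fun y z => φ (y + r * z)) (F := fun y z => D (y + r * z)) hXp hDp m,
    ⟨K, fun y => (Real.norm_eq_abs _).symm.le.trans
      (RSB.norm_tilt_le (hX y) fun z => (Real.norm_eq_abs _).trans_le (hK _))⟩,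
    fun y t => ?_, ⟨L + 2 * m * K ^ 2, fun y t => ?_⟩, fun y => ?_⟩
  · have hi : Integrable (fun z => Real.exp (m * φ (y + r * z)) *
        (φ (y + r * z) - (φ (y + r * z) + t * D (y + r * z)))) (gaussianReal 0 1) := by
      refine integrable_weight_mul (hmy y) (fun z => h.bdd _) m
        (Integrable.of_bound ((hmy y).sub ((hmy y).add ((hDy y).const_mul t))).aestronglyMeasurable (|t| * K)
          (Eventually.of_forall fun z => ?_))
      rw [Real.norm_eq_abs, sub_add_cancel_left, abs_neg, abs_mul]
      exact mul_le_mul_of_nonneg_left (hK _) (abs_nonneg t)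
    have h1 := lexp_sub_le hm (hX y) (hWt y t) hi
    have h2 : RSB.tilt (gaussianReal 0 1) m (fun z => φ (y + r * z))
        (fun z => φ (y + r * z) - (φ (y + r * z) + t * D (y + r * z))) = -t * stepSlope φ D m d y := by
      simp only [sub_add_cancel_left, ← neg_mul]
      exact RSB.tilt_const_mul _ _
    have h3 := RSB.lexp_mono (hadd y t (-(c * t ^ 2 / 2))) (hX (y + t)) hm fun z => by
      have := h.lower (y + r * z) t
      rw [show y + r * z + t = y + t + r * z by ring] at this
      linarith
    rw [RSB.lexp_add_const (hWt y t) hm.ne'] at h3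
    rw [h2] at h1
    simp only [stepPot] at h1 h3 ⊢
    linarith
  · have h1 := RSB.lexp_mono (hX (y + t)) (hadd y t (L * t ^ 2)) hm fun z => by
      have := hL (y + r * z) t
      rw [show y + r * z + t = y + t + r * z by ring] at this
      linarith
    rw [RSB.lexp_add_const (hWt y t) hm.ne'] at h1
    have h2 := integral_exp_le (U := fun z => m * t * D (y + r * z)) (M := m * |t| * K) (hX y)
      ((hDy y).const_mul _) fun z => by
        rw [abs_mul, abs_mul, abs_of_pos hm]
        exact mul_le_mul_of_nonneg_left (hK _) (by positivity)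
    simp only [← Real.exp_add] at h2
    have h3 := Real.log_le_log (by
      have := (hWt y t).pos
      refine this.trans_le (le_of_eq (integral_congr_ae (Eventually.of_forall fun z => ?_)))
      show Real.exp (m * (φ (y + r * z) + t * D (y + r * z))) = _
      congr 1
      ring) h2
    rw [Real.log_mul (hX y).pos.ne' (Real.exp_pos _).ne', Real.log_exp,
      RSB.tilt_const_mul] at h3
    have h4 : RSB.lexp (gaussianReal 0 1) m (fun z => φ (y + r * z) + t * D (y + r * z)) ≤
        stepPot φ m d y + t * stepSlope φ D m d y + 2 * m * K ^ 2 * t ^ 2 := by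
      rw [RSB.lexp, div_le_iff₀ hm]
      have e : (stepPot φ m d y) * m = Real.log (∫ z, Real.exp (m * φ (y + r * z)) ∂gaussianReal 0 1) := by
        rw [stepPot, RSB.lexp, div_mul_cancel₀ _ hm.ne']
      have e2 : (m * |t| * K) ^ 2 = m ^ 2 * K ^ 2 * t ^ 2 := by rw [mul_pow, mul_pow, sq_abs]; ring
      rw [e2] at h3
      have e3 : Real.log (∫ z, Real.exp (m * (φ (y + r * z) + t * D (y + r * z))) ∂gaussianReal 0 1) =
          Real.log (∫ z, Real.exp (m * φ (y + r * z) + m * t * D (y + r * z)) ∂gaussianReal 0 1) := by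
        refine congrArg _ (integral_congr_ae (Eventually.of_forall fun z => ?_))
        show Real.exp _ = Real.exp _
        congr 1
        ring
      rw [e3]
      simp only [stepSlope] at h3 ⊢
      nlinarith
    simp only [stepPot] at h1 h4 ⊢
    linarith
  · have hi := (integrable_absBar v y r hv1).const_mul c
    have hD' : Integrable (fun z => D (y + r * z)) (gaussianReal 0 1) :=
      Integrable.of_bound (hDy y).aestronglyMeasurable K
        (Eventually.of_forall fun z => (Real.norm_eq_abs _).trans_le (hK _))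
    have i1 := integrable_weight_mul (hmy y) (fun z => h.bdd _) m hi
    have i2 := integrable_weight_mul (hmy y) (fun z => h.bdd _) m hD'.abs
    have hinc : EInc fun x => c * absBar v x := fun x x' hx =>
      mul_le_mul_of_nonneg_left (einc_absBar v x x' hx) hc.le
    have h1 : |stepSlope φ D m d y| ≤ RSB.tilt (gaussianReal 0 1) m (fun z => φ (y + r * z)) fun z => |D (y + r * z)| := by
      simp only [stepSlope, RSB.tilt, smul_eq_mul, abs_mul, abs_inv]
      rw [abs_of_pos (hX y).pos]
      refine mul_le_mul_of_nonneg_left ?_ (inv_nonneg.2 (hX y).pos.le)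
      refine abs_integral_le_integral_abs.trans (le_of_eq (integral_congr_ae (Eventually.of_forall fun z => ?_)))
      simp [abs_mul, r]
    refine h1.trans ((RSB.tilt_mono (hX y) i2 i1 fun z => h.grow _).trans ?_)
    refine (tilt_le_mean h.edec hinc hm.le (fun z => y + r * z) (hX y) hi i1).trans_eq ?_
    rw [integral_const_mul, absBar_add hv hd]

/-- The derivative of the regularised potential. -/
noncomputable def dD (c δ s : ℝ) : ℝ := -(c * s) * ((1 - δ) * Real.exp (fQ c s)) / wD c δ s

lemma hasDerivAt_fD (hc : 0 < c) (hδ : 0 < δ) (hδ1 : δ < 1) (s : ℝ) :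
    HasDerivAt (fD c δ) (dD c δ s) s := by
  have h1 : HasDerivAt (fQ c) (-(c * s)) s := by
    refine ((((hasDerivAt_pow 2 s).const_mul c).div_const 2).neg).congr_deriv ?_
    simp
    ring
  have h := ((h1.exp.const_mul (1 - δ)).const_add δ).log (hδ.trans_le (wD_bounds hc hδ hδ1 s).1).ne'
  refine h.congr_deriv ?_
  simp only [dD, wD]
  ring

lemma slopeOK_top (hc : 0 < c) (hδ : 0 < δ) (hδ1 : δ < 1) :
    SlopeOK c (-Real.log δ) 0 (fD c δ) (dD c δ) := by
  have hp := pot_fD hc hδ hδ1
  have hpos := fun s => hδ.trans_le (wD_bounds hc hδ hδ1 s).1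
  have hfrac : ∀ s, 0 ≤ (1 - δ) * Real.exp (fQ c s) / wD c δ s ∧
      (1 - δ) * Real.exp (fQ c s) / wD c δ s ≤ 1 := fun s =>
    ⟨div_nonneg (mul_nonneg (by linarith) (Real.exp_pos _).le) (hpos s).le,
      (div_le_one (hpos s)).2 (le_add_of_nonneg_left hδ.le)⟩
  have habs : ∀ s, |dD c δ s| ≤ c * |s| := fun s => by
    rw [dD, mul_div_assoc, abs_mul, abs_of_nonneg (hfrac s).1, abs_neg, abs_mul, abs_of_pos hc]
    exact mul_le_of_le_one_right (by positivity) (hfrac s).2
  refine ⟨hp.meas, hp.bound, edec_fD hc hδ hδ1, ?_, ⟨(c + 2) / δ, fun s => ?_⟩, fun s h => ?_, ?_, fun s => ?_⟩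
  · unfold dD wD fQ; fun_prop
  · rw [dD, abs_div, abs_of_pos (hpos s), abs_mul, abs_neg, abs_mul, abs_of_pos hc,
      abs_of_nonneg (mul_nonneg (by linarith) (Real.exp_pos _).le)]
    refine div_le_div₀ (by linarith) ?_ hδ (wD_bounds hc hδ hδ1 s).1
    refine (mul_le_mul_of_nonneg_left (mul_le_of_le_one_left (Real.exp_pos _).le (by linarith))
      (by positivity)).trans ?_
    have h1 : (1 + c * s ^ 2 / 2) * Real.exp (fQ c s) ≤ 1 := by
      have := mul_le_mul_of_nonneg_right (Real.add_one_le_exp (c * s ^ 2 / 2)) (Real.exp_pos (fQ c s)).le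
      rw [← Real.exp_add, show c * s ^ 2 / 2 + fQ c s = 0 by simp [fQ], Real.exp_zero] at this
      linarith
    have h2 : c * |s| ≤ (c + 2) * (1 + c * s ^ 2 / 2) := by
      nlinarith [sq_nonneg (|s| - 1), sq_abs s, mul_nonneg hc.le (mul_nonneg hc.le (sq_nonneg s))]
    refine (mul_le_mul_of_nonneg_right h2 (Real.exp_pos _).le).trans ?_
    rw [mul_assoc]
    exact mul_le_of_le_one_right (by linarith) h1
  · set p := (1 - δ) * Real.exp (fQ c s) / wD c δ s with hpdef
    obtain ⟨hp0, hp1⟩ := hfrac s
    set u := -(c * s * h) - c * h ^ 2 / 2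
    have hexp : Real.exp (fQ c (s + h)) = Real.exp (fQ c s) * Real.exp u := by
      rw [← Real.exp_add]; congr 1; simp only [fQ, u]; ring
    have hW : wD c δ (s + h) = wD c δ s * (1 - p + p * Real.exp u) := by
      have e : wD c δ s * p = (1 - δ) * Real.exp (fQ c s) := by
        rw [hpdef, mul_div_cancel₀ _ (hpos s).ne']
      rw [mul_add, mul_sub, mul_one, ← mul_assoc, e]
      simp only [wD, hexp]
      ring
    have hconv : Real.exp (p * u) ≤ 1 - p + p * Real.exp u := by
      have := convexOn_exp.2 (Set.mem_univ (0 : ℝ)) (Set.mem_univ u) (by linarith : 0 ≤ 1 - p) hp0 (by ring)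
      simpa using this
    have hlog := Real.log_le_log (mul_pos (hpos s) (Real.exp_pos (p * u)))
      (mul_le_mul_of_nonneg_left hconv (hpos s).le)
    rw [← hW, Real.log_mul (hpos s).ne' (Real.exp_pos _).ne', Real.log_exp] at hlog
    have e2 : dD c δ s = -(c * s) * p := by rw [dD, hpdef, mul_div_assoc]
    simp only [fD] at hlog ⊢
    rw [e2]
    have := mul_le_mul_of_nonneg_right hp1 (by positivity : (0 : ℝ) ≤ c * h ^ 2 / 2)
    simp only [u] at hlog
    nlinarith
  · have hbd : ∃ C, ∀ s, |deriv (dD c δ) s| ≤ C := by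
      refine ⟨(c * (1 - δ) * (1 + (c + 2)) / δ + ((c + 2) / δ) ^ 2), fun s => ?_⟩
      have h1 : HasDerivAt (fQ c) (-(c * s)) s := by
        refine ((((hasDerivAt_pow 2 s).const_mul c).div_const 2).neg).congr_deriv ?_
        simp
        ring
      have hd : HasDerivAt (dD c δ) ((c ^ 2 * s ^ 2 - c) * ((1 - δ) * Real.exp (fQ c s)) / wD c δ s -
          dD c δ s ^ 2) s := by
        have h2 := (((hasDerivAt_id' s).const_mul c).neg.mul (h1.exp.const_mul (1 - δ))).div
          ((h1.exp.const_mul (1 - δ)).const_add δ) (hpos s).ne'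
        refine h2.congr_deriv ?_
        have := (hpos s).ne'
        simp only [Pi.mul_apply, Pi.neg_apply, dD, wD] at this ⊢
        field_simp
        ring
      rw [hd.deriv]
      refine (abs_sub _ _).trans (add_le_add ?_ ?_)
      · rw [abs_div, abs_of_pos (hpos s), abs_mul,
          abs_of_nonneg (mul_nonneg (by linarith : (0 : ℝ) ≤ 1 - δ) (Real.exp_pos _).le)]
        refine div_le_div₀ (mul_nonneg (mul_nonneg hc.le (by linarith)) (by linarith)) ?_ hδ
          (wD_bounds hc hδ hδ1 s).1
        have h1 : (1 + c * s ^ 2 / 2) * Real.exp (fQ c s) ≤ 1 := by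
          have := mul_le_mul_of_nonneg_right (Real.add_one_le_exp (c * s ^ 2 / 2)) (Real.exp_pos (fQ c s)).le
          rw [← Real.exp_add, show c * s ^ 2 / 2 + fQ c s = 0 by simp [fQ], Real.exp_zero] at this
          linarith
        have h2 : |c ^ 2 * s ^ 2 - c| ≤ c * (1 + (c + 2)) * (1 + c * s ^ 2 / 2) := by
          rw [abs_le]
          constructor <;> nlinarith [mul_nonneg (mul_nonneg hc.le hc.le) (sq_nonneg s),
            mul_nonneg (mul_nonneg (mul_nonneg hc.le hc.le) hc.le) (sq_nonneg s)]
        calc |c ^ 2 * s ^ 2 - c| * ((1 - δ) * Real.exp (fQ c s))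
            ≤ c * (1 + (c + 2)) * (1 + c * s ^ 2 / 2) * ((1 - δ) * Real.exp (fQ c s)) :=
              mul_le_mul_of_nonneg_right h2 (mul_nonneg (by linarith) (Real.exp_pos _).le)
          _ = c * (1 - δ) * (1 + (c + 2)) * ((1 + c * s ^ 2 / 2) * Real.exp (fQ c s)) := by ring
          _ ≤ c * (1 - δ) * (1 + (c + 2)) :=
              mul_le_of_le_one_right (mul_nonneg (mul_nonneg hc.le (by linarith)) (by linarith)) h1
      · rw [abs_pow]
        refine pow_le_pow_left₀ (abs_nonneg _) ?_ 2
        rw [dD, abs_div, abs_of_pos (hpos s), abs_mul, abs_neg, abs_mul, abs_of_pos hc,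
          abs_of_nonneg (mul_nonneg (by linarith : (0 : ℝ) ≤ 1 - δ) (Real.exp_pos _).le)]
        refine div_le_div₀ (by linarith) ?_ hδ (wD_bounds hc hδ hδ1 s).1
        refine (mul_le_mul_of_nonneg_left (mul_le_of_le_one_left (Real.exp_pos _).le (by linarith))
          (by positivity)).trans ?_
        have h1 : (1 + c * s ^ 2 / 2) * Real.exp (fQ c s) ≤ 1 := by
          have := mul_le_mul_of_nonneg_right (Real.add_one_le_exp (c * s ^ 2 / 2)) (Real.exp_pos (fQ c s)).le
          rw [← Real.exp_add, show c * s ^ 2 / 2 + fQ c s = 0 by simp [fQ], Real.exp_zero] at this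
          linarith
        have h2 : c * |s| ≤ (c + 2) * (1 + c * s ^ 2 / 2) := by
          nlinarith [sq_nonneg (|s| - 1), sq_abs s, mul_nonneg hc.le (mul_nonneg hc.le (sq_nonneg s))]
        refine (mul_le_mul_of_nonneg_right h2 (Real.exp_pos _).le).trans ?_
        rw [mul_assoc]
        exact mul_le_of_le_one_right (by linarith) h1
    obtain ⟨C, hC⟩ := hbd
    have hdd : Differentiable ℝ (dD c δ) := by
      intro s
      unfold dD wD fQ
      exact DifferentiableAt.div (by fun_prop) (by fun_prop) (hpos s).ne'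
    refine ⟨C, fun s h => ?_⟩
    have hP : ∀ x, HasDerivAt (fun t => fD c δ (s + t) - fD c δ s - dD c δ s * t)
        (dD c δ (s + x) - dD c δ s) x := fun x => by
      have := (((hasDerivAt_fD hc hδ hδ1 (s + x)).comp_const_add s x).sub_const (fD c δ s)).sub
        ((hasDerivAt_id x).const_mul (dD c δ s))
      refine this.congr_deriv ?_
      simp
    have hQ : ∀ x, HasDerivAt (fun t => dD c δ (s + t) - dD c δ s) (deriv (dD c δ) (s + x)) x := fun x =>
      ((hdd (s + x)).hasDerivAt.comp_const_add s x).sub_const _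
    have hb := Low.abs_le_of_deriv_le hP (by simp) (abs_nonneg h)
      (fun x hx => Low.abs_le_of_deriv_le hQ (by simp) (abs_nonneg h) (fun z _ => hC _) hx)
      (abs_le.1 (le_refl |h|))
    have h2 := (abs_le.1 hb).2
    rw [mul_assoc, ← sq, sq_abs] at h2
    linarith
  · simpa [absBar] using habs s

/-- The potential and slope at every depth. -/
theorem slopeOK_all (hc : 0 < c) (hδ : 0 < δ) (hδ1 : δ < 1) : ∀ {ls : List (ℝ × ℝ)}, Lv ls → ∀ {s : ℝ},
    0 < s → s + (ls.map Prod.snd).sum ≤ 1 →
    SlopeOK c (-Real.log δ) (s + (ls.map Prod.snd).sum) (rsbPot (fD c δ) ls s) (rsbSlope (fD c δ) ls s)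
  | [], _, s, hs, hs1 => by
    have h := (slopeOK_top hc hδ hδ1).step hc one_pos hs.le le_rfl zero_le_one
    have e1 : rsbPot (fD c δ) [] s = stepPot (fD c δ) 1 s := funext (pot_nil_eq _ s)
    have e2 : rsbSlope (fD c δ) [] s = stepSlope (fD c δ) (dD c δ) 1 s := by
      funext y
      obtain ⟨K, hK⟩ := (slopeOK_top hc hδ hδ1).bddD
      have hp := pot_fD hc hδ hδ1
      set r := Real.sqrt s
      have hm := measurable_shifted hp.meas y r
      have hmD := measurable_shifted (slopeOK_top hc hδ hδ1).measD y r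
      have hw := wgt_bdd hm (fun z => hp.bound _) 1
      have h := Low.stein_real (F := fun z => Real.exp (fD c δ (y + r * z)))
        (F' := fun z => r * (Real.exp (fD c δ (y + r * z)) * dD c δ (y + r * z)))
        (fun z => by
          have h1 : HasDerivAt (fun z => y + r * z) r z := by
            simpa using ((hasDerivAt_id z).const_mul r).const_add y
          exact (((hasDerivAt_fD hc hδ hδ1 _).comp z h1).exp).congr_deriv
            (by simp only [Function.comp_apply]; ring))
        (by simpa using hw.int)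
        ((by simpa using integrable_weight_mul hm (fun z => hp.bound _) 1
              (Integrable.of_bound hmD.aestronglyMeasurable K
                (Eventually.of_forall fun z => (Real.norm_eq_abs _).trans_le (hK _))) :
          Integrable (fun z => Real.exp (fD c δ (y + r * z)) * dD c δ (y + r * z)) (gaussianReal 0 1)).const_mul r)
        (by simpa [mul_comm] using integrable_weight_mul hm (fun z => hp.bound _) 1 (F := fun z => z)
              (IsGaussian.integrable_id (μ := gaussianReal 0 1)))
      rw [integral_const_mul] at h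
      simp only [rsbSlope, stepSlope, RSB.tilt, one_mul, smul_eq_mul]
      rw [show ∫ z, z * Real.exp (fD c δ (y + r * z)) ∂gaussianReal 0 1 = ∫ z, Real.exp (fD c δ (y + r * z)) * z ∂gaussianReal 0 1 from
        integral_congr_ae (Eventually.of_forall fun z => mul_comm _ _), h,
        mul_div_cancel_left₀ _ (Real.sqrt_pos.2 hs).ne', inv_mul_eq_div]
    simpa [e1, e2] using h
  | (m, d) :: ls, hl, s, hs, hs1 => by
    obtain ⟨hm, -, hd⟩ := hl.head
    simp only [List.map_cons, List.sum_cons] at hs1 ⊢
    have ih := slopeOK_all hc hδ hδ1 hl.tail hs (by linarith)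
    have h := ih.step hc hm hd (add_nonneg hs.le (sum_d_nonneg hl.tail)) (by linarith)
    have e2 : rsbSlope (fD c δ) ((m, d) :: ls) s =
        stepSlope (rsbPot (fD c δ) ls s) (rsbSlope (fD c δ) ls s) m d := by
      funext y
      simp only [rsbSlope, stepSlope, RSB.tilt, smul_eq_mul, inv_mul_eq_div]
    rw [e2, show s + (d + (ls.map Prod.snd).sum) = d + (s + (ls.map Prod.snd).sum) by ring]
    exact h

end Vale.Agent.P166N
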