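import Vale.Agent.P157.RSB.Casc

/-!
Laplace transforms of random trees with heavy-tailed weights: their limits are expressed by the
nested log-moment functional.
-/

namespace Vale.Agent.P166N

open MeasureTheory Filter Set
open Vale.Agent.P157
open scoped Topology

/-- The uniform law on `(0, 1]`. -/
noncomputable def unif : Measure ℝ := volume.restrict (Ioc 0 1)

instance : IsProbabilityMeasure unif := ⟨by simp [unif]⟩

lemma ae_unif : ∀ᵐ v ∂unif, v ∈ Ioc (0 : ℝ) 1 := ae_restrict_mem measurableSet_Ioc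

lemma integral_unif_scale {n : ℝ} (hn : 0 < n) (h : ℝ → ℝ) :
    n * ∫ v, h (n * v) ∂unif = ∫ w in Ioc 0 n, h w := by
  rw [unif, ← intervalIntegral.integral_of_le zero_le_one, intervalIntegral.integral_comp_mul_left _ hn.ne',
    mul_zero, mul_one, smul_eq_mul, mul_inv_cancel_left₀ hn.ne', intervalIntegral.integral_of_le hn.le]

/-- Scaling of the integral of a function of a negative power. -/
lemma integral_rpow_scale (h : ℝ → ℝ) {m b : ℝ} (hm : 0 < m) (hb : 0 < b) :
    ∫ w in Ioi 0, h (b * w ^ (-(1 / m))) = b ^ m * ∫ w in Ioi 0, h (w ^ (-(1 / m))) := by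
  have hc : 0 < (b ^ m)⁻¹ := by positivity
  have e := integral_comp_mul_left_Ioi (fun w => h (w ^ (-(1 / m)))) 0 hc
  rw [mul_zero, inv_inv, smul_eq_mul] at e
  rw [← e]
  refine setIntegral_congr_fun measurableSet_Ioi fun w hw => ?_
  rw [Real.mul_rpow hc.le (le_of_lt hw), Real.inv_rpow (by positivity), ← Real.rpow_mul hb.le,
    mul_neg, mul_one_div_cancel hm.ne', Real.rpow_neg_one, inv_inv]

lemma integrableOn_min_rpow {r : ℝ} (hr : r < -1) :
    IntegrableOn (fun w : ℝ => min 1 (w ^ r)) (Ioi 0) := by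
  rw [← Ioc_union_Ioi_eq_Ioi zero_le_one]
  refine IntegrableOn.union ?_ ?_
  · exact IntegrableOn.of_bound (by simp) (by fun_prop) 1 ((ae_restrict_mem measurableSet_Ioc).mono
      fun w hw => by
        rw [Real.norm_eq_abs, abs_of_nonneg (le_min zero_le_one (Real.rpow_nonneg hw.1.le r))]
        exact min_le_left _ _)
  · exact Integrable.mono' (integrableOn_Ioi_rpow_of_lt hr one_pos) (by fun_prop)
      ((ae_restrict_mem measurableSet_Ioi).mono fun w hw => by
        have hw : (1 : ℝ) < w := hw
        rw [Real.norm_eq_abs, abs_of_nonneg (le_min zero_le_one (Real.rpow_nonneg (by linarith) r))]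
        exact min_le_right _ _)

lemma min_one_mul_le {b y : ℝ} (hb : 0 ≤ b) (hy : 0 ≤ y) : min 1 (b * y) ≤ (1 + b) * min 1 y := by
  rcases le_total 1 y with h | h
  · rw [min_eq_left h]; linarith [min_le_left (1 : ℝ) (b * y)]
  · rw [min_eq_right h]; linarith [min_le_right (1 : ℝ) (b * y), mul_comm b y, (by ring : (1 + b) * y = y + b * y)]

lemma integrableOn_min_scaled {r C : ℝ} (hr : r < -1) (hC : 0 ≤ C) :
    IntegrableOn (fun w : ℝ => min 1 (C * w ^ r)) (Ioi 0) :=
  Integrable.mono' ((integrableOn_min_rpow hr).const_mul (1 + C)) (by fun_prop)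
    ((ae_restrict_mem measurableSet_Ioi).mono fun w hw => by
      have h0 : 0 ≤ w ^ r := Real.rpow_nonneg (le_of_lt hw) r
      rw [Real.norm_eq_abs, abs_of_nonneg (le_min zero_le_one (mul_nonneg hC h0))]
      exact min_one_mul_le hC h0)

/-- The `n`-th power of an average of `min 1 (b v)`. -/
lemma pow_avg_min_le {n : ℕ} (hn : 1 ≤ n) {b : ℝ} (hb : 0 < b) {a : ℝ} (ha : 0 ≤ a)
    (hle : a ≤ ∫ v, min 1 (b * v) ∂unif) : a ^ n ≤ 4 * b / n := by
  have hn0 : (0 : ℝ) < n := by exact_mod_cast hn
  have hi : Integrable (fun v => min 1 (b * v)) unif :=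
    Integrable.of_bound (by fun_prop) 1 (ae_unif.mono fun v hv => by
      rw [Real.norm_eq_abs, abs_of_nonneg (le_min zero_le_one (mul_nonneg hb.le hv.1.le))]
      exact min_le_left _ _)
  rcases lt_or_ge b (1 / 2) with h | h
  · have h1 : a ≤ b := hle.trans ((integral_mono_ae hi (integrable_const b) (ae_unif.mono fun v hv =>
      (min_le_right _ _).trans (mul_le_of_le_one_right hb.le hv.2))).trans (by simp))
    refine (pow_le_pow_left₀ ha h1 n).trans ?_
    obtain ⟨k, rfl⟩ := Nat.exists_eq_add_of_le hn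
    have h2 : b ^ k ≤ (1 / 2) ^ k := pow_le_pow_left₀ hb.le h.le k
    have h3' : 1 + k ≤ 2 ^ k := by have := Nat.lt_two_pow_self (n := k); omega
    have h3 : ((1 + k : ℕ) : ℝ) ≤ 2 ^ k := by exact_mod_cast h3'
    rw [le_div_iff₀ hn0, pow_add, pow_one]
    have h4 : b ^ k * 2 ^ k ≤ 1 := by
      refine (mul_le_mul_of_nonneg_right h2 (by positivity)).trans_eq ?_
      rw [← mul_pow]; norm_num
    nlinarith [mul_le_mul_of_nonneg_left h3 (pow_nonneg hb.le k)]
  · set c := 1 / (2 * b) with hc
    have hc0 : 0 < c := by positivity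
    have hc1 : c ≤ 1 := by rw [hc, div_le_one (by positivity)]; linarith
    have h1 : a ≤ 1 - c / 2 := by
      refine hle.trans ((integral_mono_ae hi ((integrable_const 1).sub ((integrable_const
        (1 / 2 : ℝ)).indicator (measurableSet_Iic (a := c)))) (ae_unif.mono fun v hv => ?_)).trans_eq ?_)
      · by_cases hv' : v ≤ c
        · rw [Pi.sub_apply, indicator_of_mem (show v ∈ Iic c from hv')]
          have : b * v ≤ 1 / 2 := (mul_le_mul_of_nonneg_left hv' hb.le).trans_eq (by rw [hc]; field_simp)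
          linarith [min_le_right (1 : ℝ) (b * v)]
        · rw [Pi.sub_apply, indicator_of_notMem (show v ∉ Iic c from hv'), sub_zero]
          exact min_le_left _ _
      · simp only [Pi.sub_apply]
        rw [integral_sub (integrable_const 1) ((integrable_const (1 / 2 : ℝ)).indicator measurableSet_Iic),
          integral_indicator_const _ measurableSet_Iic]
        simp [unif, measureReal_def, Iic_inter_Ioc_of_le hc1, hc0.le]
        ring
    refine (pow_le_pow_left₀ ha h1 n).trans ((pow_le_pow_left₀ (ha.trans h1)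
      (by linarith [Real.add_one_le_exp (-(c / 2))] : 1 - c / 2 ≤ Real.exp (-(c / 2))) n).trans ?_)
    rw [← Real.exp_nat_mul, mul_neg, Real.exp_neg]
    refine (inv_anti₀ (by positivity) ((le_add_of_nonneg_right zero_le_one).trans
      (Real.add_one_le_exp _))).trans_eq ?_
    rw [hc]; field_simp; ring

section tree

variable {ι Z S : Type} [MeasurableSpace Z] [NormedAddCommGroup S] [MeasurableSpace S] [BorelSpace S]
  [SecondCountableTopology S]

/-- Laplace transform of the weighted leaf sum of a tree with `n` children at every node: a child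
has weight `(n v) ^ (-1 / m)`, `v` uniform, and shift `σ z`. -/
noncomputable def lap (γ : Measure Z) (m : ι → ℝ) (σ : ι → Z → S) (n : ℕ) :
    List ι → (S → ℝ) → S → ℝ → ℝ
  | [], G, x, t => Real.exp (-(t * Real.exp (G x)))
  | i :: ls, G, x, t =>
      (∫ v, ∫ z, lap γ m σ n ls G (x + σ i z) (t * ((n : ℝ) * v) ^ (-(1 / m i))) ∂γ ∂unif) ^ n

/-- The limiting transform. -/
noncomputable def lam : List ℝ → ℝ → ℝ
  | [], u => Real.exp (-u)
  | m :: ms, u => Real.exp (-(u ^ m * ∫ w in Ioi (0 : ℝ), (1 - lam ms (w ^ (-(1 / m))))))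

/-- The first exponent, `1` after the last level. -/
def hd (m : ι → ℝ) : List ι → ℝ
  | [] => 1
  | i :: _ => m i

/-- Exponents increasing strictly inside `(0, 1)`. -/
def Incr (m : ι → ℝ) : List ι → Prop
  | [] => True
  | i :: ls => 0 < m i ∧ m i < hd m ls ∧ Incr m ls

variable {γ : Measure Z} [IsProbabilityMeasure γ] {m : ι → ℝ} {σ : ι → Z → S} {K : ℝ} {G : S → ℝ}

omit [MeasurableSpace Z] in
lemma hd_pos : ∀ {ls : List ι}, Incr m ls → 0 < hd m ls
  | [], _ => one_pos
  | _ :: _, h => h.1

lemma measurable_lap (hG : Measurable G) (n : ℕ) : ∀ {ls : List ι}, RSB.Good γ m σ ls →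
    Measurable fun p : S × ℝ => lap γ m σ n ls G p.1 p.2
  | [], _ => by simp only [lap]; fun_prop
  | i :: ls, h => by
    obtain ⟨⟨-, hs⟩, hls⟩ := RSB.good_cons.1 h
    have hσ := hs.meas
    have h1 : Measurable fun q : ((S × ℝ) × ℝ) × Z =>
        lap γ m σ n ls G (q.1.1.1 + σ i q.2) (q.1.1.2 * ((n : ℝ) * q.1.2) ^ (-(1 / m i))) :=
      (measurable_lap hG n hls).comp (((measurable_fst.comp (measurable_fst.comp measurable_fst)).add
        (hσ.comp measurable_snd)).prodMk (by fun_prop))
    exact ((h1.stronglyMeasurable.integral_prod_right' (ν := γ)).integral_prod_right'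
      (ν := unif)).measurable.pow_const n

omit [MeasurableSpace S] [BorelSpace S] [SecondCountableTopology S] in
lemma lap_mem (n : ℕ) : ∀ (ls : List ι) (x : S) {t : ℝ}, 0 ≤ t →
    lap γ m σ n ls G x t ∈ Icc (0 : ℝ) 1
  | [], x, t, ht => ⟨(Real.exp_pos _).le,
      Real.exp_le_one_iff.2 (neg_nonpos.2 (mul_nonneg ht (Real.exp_pos _).le))⟩
  | i :: ls, x, t, ht => by
    have h : ∀ v : ℝ, 0 < v →
        ∫ z, lap γ m σ n ls G (x + σ i z) (t * ((n : ℝ) * v) ^ (-(1 / m i))) ∂γ ∈ Icc (0 : ℝ) 1 :=
      fun v hv => by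
        have hb := fun z => lap_mem n ls (x + σ i z) (mul_nonneg ht (Real.rpow_nonneg
          (mul_nonneg (Nat.cast_nonneg n) hv.le) (-(1 / m i))))
        refine ⟨integral_nonneg fun z => (hb z).1, (Real.le_norm_self _).trans
          ((norm_integral_le_of_norm_le_const (C := 1) (Eventually.of_forall fun z => ?_)).trans_eq
            (by simp))⟩
        rw [Real.norm_eq_abs, abs_of_nonneg (hb z).1]; exact (hb z).2
    refine ⟨pow_nonneg (integral_nonneg_of_ae (ae_unif.mono fun v hv => (h v hv.1).1)) n,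
      pow_le_one₀ (integral_nonneg_of_ae (ae_unif.mono fun v hv => (h v hv.1).1))
        ((Real.le_norm_self _).trans
          ((norm_integral_le_of_norm_le_const (C := 1) (ae_unif.mono fun v hv => ?_)).trans_eq (by simp)))⟩
    rw [Real.norm_eq_abs, abs_of_nonneg (h v hv.1).1]; exact (h v hv.1).2

/-- The average over one shift of the transform of the subtree. -/
noncomputable def child (γ : Measure Z) (m : ι → ℝ) (σ : ι → Z → S) (n : ℕ) (i : ι) (ls : List ι)
    (G : S → ℝ) (x : S) (τ : ℝ) : ℝ :=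
  ∫ z, lap γ m σ n ls G (x + σ i z) τ ∂γ

omit [MeasurableSpace S] [BorelSpace S] [SecondCountableTopology S] [IsProbabilityMeasure γ] in
lemma lap_cons (n : ℕ) (i : ι) (ls : List ι) (x : S) (t : ℝ) :
    lap γ m σ n (i :: ls) G x t =
      (∫ v, child γ m σ n i ls G x (t * ((n : ℝ) * v) ^ (-(1 / m i))) ∂unif) ^ n := rfl

variable {i : ι} {ls : List ι}

lemma measurable_child (hG : Measurable G) (h : RSB.Good γ m σ (i :: ls)) (n : ℕ) (x : S) :
    Measurable (child γ m σ n i ls G x) := by
  have hσ := (RSB.good_cons.1 h).1.2.meas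
  have h1 : Measurable fun q : ℝ × Z => lap γ m σ n ls G (x + σ i q.2) q.1 :=
    (measurable_lap hG n (RSB.good_cons.1 h).2).comp
      (((hσ.comp measurable_snd).const_add x).prodMk measurable_fst)
  exact (h1.stronglyMeasurable.integral_prod_right' (ν := γ)).measurable

lemma integrable_lap_shift (hG : Measurable G) (h : RSB.Good γ m σ (i :: ls)) (n : ℕ) (x : S)
    {τ : ℝ} (hτ : 0 ≤ τ) : Integrable (fun z => lap γ m σ n ls G (x + σ i z) τ) γ :=
  Integrable.of_bound ((measurable_lap hG n (RSB.good_cons.1 h).2).comp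
      (((RSB.good_cons.1 h).1.2.meas.const_add x).prodMk measurable_const)).aestronglyMeasurable 1
    (Eventually.of_forall fun z => by
      rw [Real.norm_eq_abs, abs_of_nonneg (lap_mem n ls _ hτ).1]; exact (lap_mem n ls _ hτ).2)

lemma child_mem (hG : Measurable G) (h : RSB.Good γ m σ (i :: ls)) (n : ℕ) (x : S) {τ : ℝ}
    (hτ : 0 ≤ τ) : child γ m σ n i ls G x τ ∈ Icc (0 : ℝ) 1 :=
  ⟨integral_nonneg fun z => (lap_mem n ls _ hτ).1, (integral_mono (integrable_lap_shift hG h n x hτ)
    (integrable_const 1) fun z => (lap_mem n ls _ hτ).2).trans_eq (by simp)⟩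

lemma integral_child_unif (hG : Measurable G) (h : RSB.Good γ m σ (i :: ls)) {n : ℕ} (hn : 1 ≤ n)
    (x : S) {t : ℝ} (ht : 0 ≤ t) :
    (n : ℝ) * (1 - ∫ v, child γ m σ n i ls G x (t * ((n : ℝ) * v) ^ (-(1 / m i))) ∂unif) =
      ∫ w in Ioc 0 (n : ℝ), (1 - child γ m σ n i ls G x (t * w ^ (-(1 / m i)))) := by
  have hn0 : (0 : ℝ) < n := by exact_mod_cast hn
  have hi : Integrable (fun v => child γ m σ n i ls G x (t * ((n : ℝ) * v) ^ (-(1 / m i)))) unif := by
    refine Integrable.of_bound
      ((measurable_child hG h n x).comp (g := child γ m σ n i ls G x) (by fun_prop)).aestronglyMeasurable 1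
      (ae_unif.mono fun v hv => ?_)
    have := child_mem hG h n x (τ := t * ((n : ℝ) * v) ^ (-(1 / m i)))
      (mul_nonneg ht (Real.rpow_nonneg (mul_nonneg hn0.le hv.1.le) _))
    simp only [Real.norm_eq_abs, abs_of_nonneg this.1, this.2]
  rw [← integral_unif_scale hn0 (fun w => 1 - child γ m σ n i ls G x (t * w ^ (-(1 / m i)))),
    integral_sub (integrable_const 1) hi]
  simp

omit [SecondCountableTopology S] [IsProbabilityMeasure γ] in
lemma integrable_shift_exp (h : RSB.Good γ m σ (i :: ls)) (x : S) (A : ℝ) {a : ℝ} (ha : 0 ≤ a) :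
    Integrable (fun z => A * Real.exp (a * ‖x + σ i z‖)) γ := by
  refine Integrable.const_mul (Integrable.mono' (((RSB.good_cons.1 h).1.2.int a).const_mul
    (Real.exp (a * ‖x‖))) ?_ (Eventually.of_forall fun z => ?_)) A
  · exact ((((RSB.good_cons.1 h).1.2.meas.const_add x).norm).const_mul a).exp.aestronglyMeasurable
  · rw [Real.norm_eq_abs, Real.abs_exp, ← Real.exp_add, Real.exp_le_exp, ← mul_add]
    exact mul_le_mul_of_nonneg_left (norm_add_le _ _) ha

omit [SecondCountableTopology S] [IsProbabilityMeasure γ] in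
lemma integral_shift_exp_le (h : RSB.Good γ m σ (i :: ls)) (x : S) {A : ℝ} (hA : 0 ≤ A) {a : ℝ}
    (ha : 0 ≤ a) : ∫ z, A * Real.exp (a * ‖x + σ i z‖) ∂γ ≤
      A * (∫ z, Real.exp (a * ‖σ i z‖) ∂γ) * Real.exp (a * ‖x‖) := by
  rw [mul_assoc, mul_comm (∫ z, _ ∂γ) (Real.exp _), ← integral_const_mul, ← integral_const_mul]
  refine integral_mono (integrable_shift_exp h x A ha)
    ((((RSB.good_cons.1 h).1.2.int a).const_mul _).const_mul A) fun z => mul_le_mul_of_nonneg_left ?_ hA
  rw [← Real.exp_add, Real.exp_le_exp, ← mul_add]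
  exact mul_le_mul_of_nonneg_left (norm_add_le _ _) ha

/-- Tails of the transforms at `0` and at `∞`, uniformly in the width of the tree. -/
theorem lap_bounds (hG : RSB.Lip K G) : ∀ {ls : List ι}, Incr m ls → RSB.Good γ m σ ls →
    ∃ A, 0 < A ∧ ∀ n, 1 ≤ n → ∀ x : S, ∀ t, 0 < t →
      1 - lap γ m σ n ls G x t ≤ A * Real.exp (hd m ls * K * ‖x‖) * t ^ hd m ls ∧
      lap γ m σ n ls G x t ≤ A * Real.exp (hd m ls * K * ‖x‖) * t ^ (-(hd m ls))
  | [], _, _ => by
    refine ⟨Real.exp |G 0|, Real.exp_pos _, fun n _ x t ht => ?_⟩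
    have hb := abs_le.1 (hG.lip 0 x)
    rw [zero_add] at hb
    have e : Real.exp |G 0| * Real.exp (K * ‖x‖) = Real.exp (|G 0| + K * ‖x‖) := (Real.exp_add _ _).symm
    simp only [lap, hd, one_mul, Real.rpow_one, Real.rpow_neg_one, e]
    constructor
    · refine (sub_le_comm.1 ((Real.one_sub_le_exp_neg _))).trans ?_
      rw [mul_comm]
      exact mul_le_mul_of_nonneg_right (Real.exp_le_exp.2 (by linarith [le_abs_self (G 0), hb.2])) ht.le
    · have hy : 0 < t * Real.exp (G x) := by positivity
      rw [Real.exp_neg]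
      refine (inv_anti₀ hy ((le_add_of_nonneg_right zero_le_one).trans (Real.add_one_le_exp _))).trans ?_
      rw [mul_inv, ← Real.exp_neg, mul_comm]
      exact mul_le_mul_of_nonneg_right (Real.exp_le_exp.2 (by linarith [neg_abs_le (G 0), hb.1]))
        (inv_nonneg.2 ht.le)
  | i :: ls, h, hg => by
    obtain ⟨hm, hlt, hst⟩ := h
    obtain ⟨A, hA, hb⟩ := lap_bounds hG hst (RSB.good_cons.1 hg).2
    set p := hd m ls with hp
    have hp0 : 0 < p := hm.trans hlt
    have hK := hG.nonneg
    have ha : 0 ≤ p * K := mul_nonneg hp0.le hK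
    set Q := A * ∫ z, Real.exp (p * K * ‖σ i z‖) ∂γ with hQ
    have hQ0 : 0 < Q := mul_pos hA (integral_exp_pos ((RSB.good_cons.1 hg).1.2.int _))
    set k := ∫ w in Ioi (0 : ℝ), min 1 ((w ^ (-(1 / m i))) ^ p) with hk
    refine ⟨Q ^ (m i / p) * (|k| + 4), by positivity, fun n hn x t ht => ?_⟩
    have hn0 : (0 : ℝ) < n := by exact_mod_cast hn
    set B := Q * Real.exp (p * K * ‖x‖) with hB
    have hB0 : 0 < B := by positivity
    have hBm : B ^ (m i / p) = Q ^ (m i / p) * Real.exp (m i * K * ‖x‖) := by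
      rw [hB, Real.mul_rpow hQ0.le (Real.exp_pos _).le, ← Real.exp_mul]
      congr 2; field_simp
    have hc : ∀ τ, 0 < τ → 1 - child γ m σ n i ls G x τ ≤ min 1 (B * τ ^ p) ∧
        child γ m σ n i ls G x τ ≤ min 1 (B * τ ^ (-p)) := fun τ hτ => by
      have hi := integrable_lap_shift hG.meas hg n x hτ.le
      have hm' := child_mem hG.meas hg n x hτ.le
      refine ⟨le_min (by linarith [hm'.1]) ?_, le_min hm'.2 ?_⟩
      · rw [child, show (1 : ℝ) - ∫ z, lap γ m σ n ls G (x + σ i z) τ ∂γ =
          ∫ z, (1 - lap γ m σ n ls G (x + σ i z) τ) ∂γ by rw [integral_sub (integrable_const 1) hi]; simp]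
        refine (integral_mono ((integrable_const 1).sub hi)
          ((integrable_shift_exp hg x A ha).mul_const _) fun z => (hb n hn _ τ hτ).1).trans ?_
        rw [integral_mul_const]
        exact mul_le_mul_of_nonneg_right (integral_shift_exp_le hg x hA.le ha)
          (Real.rpow_nonneg hτ.le _)
      · refine (integral_mono hi ((integrable_shift_exp hg x A ha).mul_const _)
          fun z => (hb n hn _ τ hτ).2).trans ?_
        rw [integral_mul_const]
        exact mul_le_mul_of_nonneg_right (integral_shift_exp_le hg x hA.le ha)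
          (Real.rpow_nonneg hτ.le _)
    have hmem : ∀ w : ℝ, 0 < w → child γ m σ n i ls G x (t * w ^ (-(1 / m i))) ∈ Icc (0 : ℝ) 1 :=
      fun w hw => child_mem hG.meas hg n x (by positivity)
    set a := ∫ v, child γ m σ n i ls G x (t * ((n : ℝ) * v) ^ (-(1 / m i))) ∂unif with hadef
    have hint : Integrable (fun v => child γ m σ n i ls G x (t * ((n : ℝ) * v) ^ (-(1 / m i)))) unif :=
      Integrable.of_bound ((measurable_child hG.meas hg n x).comp (by fun_prop)).aestronglyMeasurable 1
        (ae_unif.mono fun v hv => by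
          have := hmem ((n : ℝ) * v) (mul_pos hn0 hv.1)
          simp only [Real.norm_eq_abs, abs_of_nonneg this.1, this.2])
    have ha0 : 0 ≤ a := integral_nonneg_of_ae (ae_unif.mono fun v hv => (hmem _ (mul_pos hn0 hv.1)).1)
    simp only [hd, lap_cons, ← hadef]
    constructor
    · have h1 : 1 - a ^ n ≤ (n : ℝ) * (1 - a) := by
        have := one_add_mul_le_pow (a := a - 1) (by linarith) n
        rw [add_sub_cancel] at this
        linarith
      refine h1.trans ?_
      rw [hadef, integral_child_unif hG.meas hg hn x ht.le]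
      have hr : -(p / m i) < -1 := neg_lt_neg ((one_lt_div hm).2 hlt)
      have e : ∀ w : ℝ, 0 < w → (w ^ (-(1 / m i))) ^ p = w ^ (-(p / m i)) := fun w hw => by
        rw [← Real.rpow_mul hw.le]; ring_nf
      set b := B ^ (1 / p) * t with hb'
      have hbp : ∀ w : ℝ, 0 < w → B * (t * w ^ (-(1 / m i))) ^ p = (b * w ^ (-(1 / m i))) ^ p :=
        fun w hw => by
          have := Real.mul_rpow (x := B ^ (1 / p)) (y := t * w ^ (-(1 / m i))) (z := p) (by positivity)
            (by positivity)
          rw [← Real.rpow_mul hB0.le, one_div_mul_cancel hp0.ne', Real.rpow_one, ← mul_assoc] at this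
          exact this.symm
      have hI : IntegrableOn (fun w : ℝ => min 1 ((b * w ^ (-(1 / m i))) ^ p)) (Ioi 0) :=
        (integrableOn_min_scaled hr (C := b ^ p) (by positivity)).congr_fun (fun w hw => by
          simp only
          rw [Real.mul_rpow (by positivity) (Real.rpow_nonneg (le_of_lt hw) _), e w hw]) measurableSet_Ioi
      refine (setIntegral_mono_on ?_ (hI.mono_set Ioc_subset_Ioi_self) measurableSet_Ioc fun w hw =>
        (hc _ (by have := hw.1; positivity)).1.trans_eq (by rw [hbp w hw.1])).trans ?_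
      · exact IntegrableOn.of_bound (by simp)
          (((measurable_child hG.meas hg n x).comp (by fun_prop)).const_sub 1).aestronglyMeasurable 1
          ((ae_restrict_mem measurableSet_Ioc).mono fun w hw => by
            have := hmem w hw.1
            simp only [Real.norm_eq_abs]
            rw [abs_of_nonneg (by linarith [this.2])]; linarith [this.1])
      refine (setIntegral_mono_set hI ((ae_restrict_mem measurableSet_Ioi).mono fun w hw =>
        le_min zero_le_one (by have : (0 : ℝ) < w := hw; positivity))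
        (Eventually.of_forall fun w hw => hw.1)).trans ?_
      rw [integral_rpow_scale (fun y => min 1 (y ^ p)) hm (by positivity), ← hk, hb',
        Real.mul_rpow (by positivity) ht.le, ← Real.rpow_mul hB0.le, one_div_mul_eq_div, hBm]
      have : 0 ≤ Q ^ (m i / p) * Real.exp (m i * K * ‖x‖) * t ^ m i := by positivity
      nlinarith [le_abs_self k]
    · set b := B ^ (m i / p) * n / t ^ m i with hb'
      have hb0 : 0 < b := by positivity
      refine (pow_avg_min_le hn hb0 ha0 (integral_mono_ae hint (Integrable.of_bound (by fun_prop) 1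
        (ae_unif.mono fun v hv => ?_)) (ae_unif.mono fun v hv => ?_))).trans ?_
      · rw [Real.norm_eq_abs, abs_of_nonneg (le_min zero_le_one (mul_nonneg hb0.le hv.1.le))]
        exact min_le_left _ _
      · have hv0 : 0 < (n : ℝ) * v := mul_pos hn0 hv.1
        have hτ : 0 < t * ((n : ℝ) * v) ^ (-(1 / m i)) := by positivity
        refine ((hc _ hτ).2).trans (le_min (min_le_left _ _) ?_)
        have hy : 0 ≤ B * (t * ((n : ℝ) * v) ^ (-(1 / m i))) ^ (-p) := by positivity
        have e : b * v = (B * (t * ((n : ℝ) * v) ^ (-(1 / m i))) ^ (-p)) ^ (m i / p) := by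
          rw [Real.mul_rpow hB0.le (by positivity), ← Real.rpow_mul hτ.le,
            show -p * (m i / p) = -m i by field_simp, Real.mul_rpow ht.le (by positivity),
            ← Real.rpow_mul hv0.le, show -(1 / m i) * -m i = 1 by field_simp, Real.rpow_one,
            Real.rpow_neg ht.le, hb']
          field_simp
        rw [e]
        rcases le_total (B * (t * ((n : ℝ) * v) ^ (-(1 / m i))) ^ (-p)) 1 with h1 | h1
        · exact (min_le_right _ _).trans (Real.self_le_rpow_of_le_one hy h1
            ((div_le_one hp0).2 hlt.le))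
        · exact (min_le_left _ _).trans (Real.one_le_rpow h1 (div_nonneg hm.le hp0.le))
      rw [hb', hBm, Real.rpow_neg ht.le]
      rw [show 4 * (Q ^ (m i / p) * Real.exp (m i * K * ‖x‖) * n / t ^ m i) / n =
        Q ^ (m i / p) * 4 * Real.exp (m i * K * ‖x‖) * (t ^ m i)⁻¹ by field_simp]
      gcongr
      linarith [abs_nonneg k]

/-- The limit of the transforms. -/
theorem tendsto_lap (hG : RSB.Lip K G) : ∀ {ls : List ι}, Incr m ls → RSB.Good γ m σ ls →
    ∀ (x : S) {t : ℝ}, 0 < t → Tendsto (fun n => lap γ m σ n ls G x t) atTop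
      (𝓝 (lam (ls.map m) (Real.exp (RSB.casc γ m σ ls G x) * t)))
  | [], _, _, x, t, _ => by
    simp only [lap, lam, RSB.casc, List.map_nil, mul_comm t]
    exact tendsto_const_nhds
  | i :: ls, h, hg, x, t, ht => by
    obtain ⟨hm, hlt, hst⟩ := h
    have hls := (RSB.good_cons.1 hg).2
    have hσ := (RSB.good_cons.1 hg).1.2.meas
    obtain ⟨A, hA, hb⟩ := lap_bounds hG hst hls
    set p := hd m ls with hp
    have hp0 : 0 < p := hm.trans hlt
    have hr : -(p / m i) < -1 := neg_lt_neg ((one_lt_div hm).2 hlt)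
    have ha : 0 ≤ p * K := mul_nonneg hp0.le hG.nonneg
    set B : Z → ℝ := fun z => 1 + A * Real.exp (p * K * ‖x + σ i z‖) with hB
    have hBi : Integrable B γ := (integrable_const 1).add (integrable_shift_exp hg x A ha)
    have hB1 : ∀ z, 1 ≤ B z := fun z => le_add_of_nonneg_right (by positivity)
    set F : ℕ → ℝ → Z → ℝ := fun n w z =>
      1 - lap γ m σ n ls G (x + σ i z) (t * w ^ (-(1 / m i))) with hF
    set C : S → ℝ := fun y => RSB.casc γ m σ ls G y with hC
    set Fl : ℝ → Z → ℝ := fun w z =>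
      1 - lam (ls.map m) (Real.exp (C (x + σ i z)) * (t * w ^ (-(1 / m i)))) with hFl
    have hdom : ∀ n, 1 ≤ n → ∀ w, 0 < w → ∀ z,
        |F n w z| ≤ B z * min 1 (t ^ p * w ^ (-(p / m i))) := fun n hn w hw z => by
      have hτ : 0 < t * w ^ (-(1 / m i)) := by positivity
      have hm' := lap_mem (γ := γ) (m := m) (σ := σ) (G := G) n ls (x + σ i z) hτ.le
      rw [show |F n w z| = F n w z from abs_of_nonneg (sub_nonneg.2 hm'.2)]
      have e : t ^ p * w ^ (-(p / m i)) = (t * w ^ (-(1 / m i))) ^ p := by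
        rw [Real.mul_rpow ht.le (by positivity), ← Real.rpow_mul hw.le]; ring_nf
      rw [e]
      exact (le_min (sub_le_self _ hm'.1) (hb n hn _ _ hτ).1).trans
        (min_one_mul_le (by positivity) (by positivity))
    have hpt : ∀ w, 0 < w → ∀ z, Tendsto (fun n => F n w z) atTop (𝓝 (Fl w z)) := fun w hw z =>
      (tendsto_lap hG hst hls (x + σ i z) (by positivity)).const_sub 1
    have hmF : ∀ n, Measurable fun q : ℝ × Z => F n q.1 q.2 := fun n =>
      ((measurable_lap hG.meas n hls).comp (((hσ.comp measurable_snd).const_add x).prodMk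
        (by fun_prop))).const_sub 1
    set μw := (volume : Measure ℝ).restrict (Ioi 0) with hμw
    have hmin : Integrable (fun w : ℝ => min 1 (t ^ p * w ^ (-(p / m i)))) μw :=
      integrableOn_min_scaled hr (Real.rpow_nonneg ht.le p)
    have hdomI : Integrable (fun q : ℝ × Z => min 1 (t ^ p * q.1 ^ (-(p / m i))) * B q.2) (μw.prod γ) :=
      hmin.mul_prod hBi
    have hw0 : ∀ᵐ q ∂μw.prod γ, 0 < q.1 :=
      Measure.quasiMeasurePreserving_fst.ae (ae_restrict_mem measurableSet_Ioi)
    set H : ℕ → ℝ × Z → ℝ := fun n q => (Ioc (0 : ℝ) n).indicator (fun _ => (1 : ℝ)) q.1 * F n q.1 q.2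
      with hH
    have hHm : ∀ n, AEStronglyMeasurable (H n) (μw.prod γ) := fun n =>
      (((measurable_const.indicator measurableSet_Ioc).comp measurable_fst).mul
        (hmF n)).aestronglyMeasurable
    have hHb : ∀ n, 1 ≤ n → ∀ q : ℝ × Z, 0 < q.1 →
        ‖H n q‖ ≤ min 1 (t ^ p * q.1 ^ (-(p / m i))) * B q.2 := fun n hn q hq => by
      simp only [hH]
      rw [Real.norm_eq_abs, abs_mul, mul_comm (min (1 : ℝ) _)]
      refine (mul_le_of_le_one_left (abs_nonneg _) ?_).trans (hdom n hn q.1 hq q.2)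
      by_cases hq' : q.1 ∈ Ioc (0 : ℝ) n <;> simp [hq']
    have hlim : Tendsto (fun n => ∫ q, H n q ∂μw.prod γ) atTop (𝓝 (∫ q, Fl q.1 q.2 ∂μw.prod γ)) := by
      refine tendsto_integral_filter_of_dominated_convergence _ (Eventually.of_forall hHm)
        ((eventually_ge_atTop 1).mono fun n hn => hw0.mono fun q hq => hHb n hn q hq) hdomI
        (hw0.mono fun q hq => ?_)
      refine (hpt q.1 hq q.2).congr' ((eventually_ge_atTop ⌈q.1⌉₊).mono fun n hn => ?_)
      have hqn : q.1 ∈ Ioc (0 : ℝ) n := ⟨hq, (Nat.le_ceil _).trans (Nat.cast_le.2 hn)⟩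
      show F n q.1 q.2 = (Ioc (0 : ℝ) n).indicator (fun _ => (1 : ℝ)) q.1 * F n q.1 q.2
      rw [indicator_of_mem hqn, one_mul]
    have hleft : ∀ n, 1 ≤ n → ∫ q, H n q ∂μw.prod γ =
        (n : ℝ) * (1 - ∫ v, child γ m σ n i ls G x (t * ((n : ℝ) * v) ^ (-(1 / m i))) ∂unif) := by
      intro n hn
      rw [integral_child_unif hG.meas hg hn x ht.le, integral_prod _
        (hdomI.mono' (hHm n) (hw0.mono fun q hq => hHb n hn q hq))]
      have e : ∀ w, 0 < w → ∫ z, H n (w, z) ∂γ = (Ioc (0 : ℝ) n).indicator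
          (fun w => 1 - child γ m σ n i ls G x (t * w ^ (-(1 / m i)))) w := fun w hw => by
        simp only [hH, integral_const_mul]
        by_cases hw' : w ∈ Ioc (0 : ℝ) n
        · simp only [indicator_of_mem hw', one_mul, hF, child]
          rw [integral_sub (integrable_const 1) (integrable_lap_shift hG.meas hg n x (by positivity))]
          simp
        · simp only [indicator_of_notMem hw', zero_mul]
      rw [hμw, setIntegral_congr_fun measurableSet_Ioi e, setIntegral_indicator measurableSet_Ioc,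
        inter_eq_right.2 Ioc_subset_Ioi_self]
    set κ := ∫ w in Ioi (0 : ℝ), (1 - lam (ls.map m) (w ^ (-(1 / m i)))) with hκ
    have hright : ∫ q, Fl q.1 q.2 ∂μw.prod γ = t ^ m i * κ * ∫ z, Real.exp (m i * C (x + σ i z)) ∂γ := by
      have hFlm : AEStronglyMeasurable (fun q : ℝ × Z => Fl q.1 q.2) (μw.prod γ) :=
        aestronglyMeasurable_of_tendsto_ae atTop (fun n => (hmF n).aestronglyMeasurable)
          (hw0.mono fun q hq => hpt q.1 hq q.2)
      have hFli : Integrable (fun q : ℝ × Z => Fl q.1 q.2) (μw.prod γ) :=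
        hdomI.mono' hFlm (hw0.mono fun q hq => by
          rw [Real.norm_eq_abs, mul_comm]
          exact le_of_tendsto (hpt q.1 hq q.2).abs
            ((eventually_ge_atTop 1).mono fun n hn => hdom n hn q.1 hq q.2))
      rw [integral_prod_symm _ hFli, ← integral_const_mul]
      refine integral_congr_ae (Eventually.of_forall fun z => ?_)
      simp only [hFl, ← mul_assoc, hμw]
      rw [integral_rpow_scale (fun y => 1 - lam (ls.map m) y) hm (by positivity), ← hκ,
        Real.mul_rpow (Real.exp_pos _).le ht.le, ← Real.exp_mul]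
      ring_nf
    set g : ℕ → ℝ := fun n =>
      (∫ v, child γ m σ n i ls G x (t * ((n : ℝ) * v) ^ (-(1 / m i))) ∂unif) - 1 with hg'
    have hgl : Tendsto (fun n : ℕ => (n : ℝ) * g n) atTop
        (𝓝 (-(t ^ m i * κ * ∫ z, Real.exp (m i * C (x + σ i z)) ∂γ))) := by
      rw [← hright]
      refine hlim.neg.congr' ((eventually_ge_atTop 1).mono fun n hn => ?_)
      rw [hleft n hn, hg']; ring
    have := Real.tendsto_one_add_pow_exp_of_tendsto hgl
    simp only [hg', add_sub_cancel] at this
    have e : (Real.exp (RSB.casc γ m σ (i :: ls) G x) * t) ^ m i =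
        (∫ z, Real.exp (m i * C (x + σ i z)) ∂γ) * t ^ m i := by
      rw [Real.mul_rpow (Real.exp_pos _).le ht.le, ← Real.exp_mul]
      simp only [RSB.casc, RSB.lexp]
      rw [div_mul_cancel₀ _ hm.ne', Real.exp_log]
      exact (RSB.casc_wgt hg hG x).pos
    simp only [List.map_cons, lam, lap_cons, e, ← hκ]
    convert this using 3
    ring

/-- Bound of the integrand of the logarithm. -/
noncomputable def logDom (p A : ℝ) (t : ℝ) : ℝ :=
  if t ≤ 1 then 1 + A * t ^ (p - 1) else (1 + A) * t ^ (-p - 1)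

lemma integrableOn_logDom {p : ℝ} (hp : 0 < p) (A : ℝ) : IntegrableOn (logDom p A) (Ioi 0) := by
  rw [← Ioc_union_Ioi_eq_Ioi zero_le_one]
  refine IntegrableOn.union ?_ ?_
  · refine IntegrableOn.congr_fun (f := fun t => 1 + A * t ^ (p - 1)) ?_
      (fun t ht => (if_pos ht.2).symm) measurableSet_Ioc
    exact (integrableOn_const (by simp)).add
      ((intervalIntegral.intervalIntegrable_rpow' (by linarith)).1.const_mul A)
  · exact IntegrableOn.congr_fun ((integrableOn_Ioi_rpow_of_lt (by linarith) one_pos).const_mul (1 + A))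
      (fun t ht => (if_neg (not_le.2 ht)).symm) measurableSet_Ioi

lemma abs_div_le_logDom {p A L t : ℝ} (hp : p ≤ 1) (hA : 0 ≤ A) (ht : 0 < t) (h0 : 0 ≤ L)
    (h1 : L ≤ 1) (hu : 1 - L ≤ A * t ^ p) (hl : L ≤ A * t ^ (-p)) :
    |(Real.exp (-t) - L) / t| ≤ logDom p A t := by
  rw [abs_div, abs_of_pos ht, div_le_iff₀ ht]
  have he : Real.exp (-t) ≤ 1 := Real.exp_le_one_iff.2 (by linarith)
  unfold logDom
  split_ifs with h
  · rw [add_mul, mul_assoc, ← Real.rpow_add_one ht.ne', sub_add_cancel, abs_le]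
    have : 0 ≤ A * t ^ p := mul_nonneg hA (Real.rpow_nonneg ht.le p)
    constructor <;> linarith [Real.one_sub_le_exp_neg t]
  · rw [mul_assoc, ← Real.rpow_add_one ht.ne', sub_add_cancel]
    have hti : Real.exp (-t) ≤ t ^ (-p) := by
      refine le_trans ?_ (Real.rpow_le_rpow_of_exponent_le (not_le.1 h).le (neg_le_neg hp))
      rw [Real.rpow_neg_one, Real.exp_neg]
      exact inv_anti₀ ht (by linarith [Real.add_one_le_exp t])
    rw [add_mul, one_mul, abs_le]
    constructor <;> linarith [Real.exp_pos (-t), Real.rpow_nonneg ht.le (-p)]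

lemma integral_frullani {b : ℝ} (hb : 0 < b) :
    IntegrableOn (fun t => (Real.exp (-t) - Real.exp (-(b * t))) / t) (Ioi 0) ∧
      ∫ t in Ioi 0, (Real.exp (-t) - Real.exp (-(b * t))) / t = Real.log b := by
  have hd : IntegrableOn (fun t => (Real.exp (-t) - Real.exp (-(b * t))) / t) (Ioi 0) :=
    (integrableOn_logDom (p := 1) one_pos (b + b⁻¹)).mono'
      (Measurable.aestronglyMeasurable (by fun_prop))
      ((ae_restrict_mem measurableSet_Ioi).mono fun t ht => by
        have ht : (0 : ℝ) < t := ht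
        have hy : 0 < b * t := by positivity
        refine abs_div_le_logDom le_rfl (by positivity) ht (Real.exp_pos _).le
          (Real.exp_le_one_iff.2 (by linarith)) ?_ ?_
        · rw [Real.rpow_one]
          nlinarith [Real.one_sub_le_exp_neg (b * t), inv_pos.2 hb]
        · rw [Real.rpow_neg_one, Real.exp_neg]
          refine (inv_anti₀ hy ((le_add_of_nonneg_right zero_le_one).trans (Real.add_one_le_exp _))).trans ?_
          rw [mul_inv]
          exact mul_le_mul_of_nonneg_right (le_add_of_nonneg_left hb.le) (inv_nonneg.2 ht.le))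
  refine ⟨hd, ?_⟩
  have := Frullani.integral_Ioi_eq (f := fun y : ℝ => Real.exp (-y)) (L := 1) (R := 0)
    ((by fun_prop : Continuous fun y : ℝ => Real.exp (-y)).locallyIntegrable.locallyIntegrableOn _)
    one_pos hb ?_ ?_ ?_
  · simp only [one_mul, sub_zero, smul_eq_mul, mul_one, div_one] at this
    rw [← this]
    exact setIntegral_congr_fun measurableSet_Ioi fun t _ => by ring
  · have := ((Real.continuous_exp.comp continuous_neg).tendsto (0 : ℝ)).mono_left
      (nhdsWithin_le_nhds (s := Ioi 0))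
    simpa [Function.comp_def] using this
  · exact Real.tendsto_exp_atBot.comp tendsto_neg_atTop_atBot
  · exact hd.congr_fun (fun t _ => by simp only [one_mul, smul_eq_mul]; ring) measurableSet_Ioi

/-- The expected logarithm of the leaf sum, written with the transform. -/
noncomputable def logLap (γ : Measure Z) (m : ι → ℝ) (σ : ι → Z → S) (n : ℕ) (ls : List ι)
    (G : S → ℝ) (x : S) : ℝ :=
  ∫ t in Ioi (0 : ℝ), (Real.exp (-t) - lap γ m σ n ls G x t) / t

/-- The constant of the exponents. -/
noncomputable def logConst (ms : List ℝ) : ℝ :=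
  ∫ t in Ioi (0 : ℝ), (Real.exp (-t) - lam ms t) / t

omit [MeasurableSpace Z] in
lemma hd_le_one : ∀ {ls : List ι}, Incr m ls → hd m ls ≤ 1
  | [], _ => le_rfl
  | _ :: _, h => h.2.1.le.trans (hd_le_one h.2.2)

theorem tendsto_logLap (hG : RSB.Lip K G) (h : Incr m ls) (hg : RSB.Good γ m σ ls) (x : S) :
    Tendsto (fun n => logLap γ m σ n ls G x) atTop
      (𝓝 (RSB.casc γ m σ ls G x + logConst (ls.map m))) := by
  obtain ⟨A, hA, hb⟩ := lap_bounds hG h hg
  set p := hd m ls
  set A' := A * Real.exp (p * K * ‖x‖)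
  set b := Real.exp (RSB.casc γ m σ ls G x) with hbdef
  have hb0 : 0 < b := Real.exp_pos _
  have hdom : ∀ n, 1 ≤ n → ∀ t, 0 < t →
      |(Real.exp (-t) - lap γ m σ n ls G x t) / t| ≤ logDom p A' t := fun n hn t ht =>
    abs_div_le_logDom (hd_le_one h) (by positivity) ht (lap_mem n ls x ht.le).1
      (lap_mem n ls x ht.le).2 (hb n hn x t ht).1 (hb n hn x t ht).2
  have hpt : ∀ t, 0 < t → Tendsto (fun n => (Real.exp (-t) - lap γ m σ n ls G x t) / t) atTop
      (𝓝 ((Real.exp (-t) - lam (ls.map m) (b * t)) / t)) := fun t ht =>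
    ((tendsto_lap hG h hg x ht).const_sub _).div_const t
  have hmn : ∀ n, Measurable fun t => (Real.exp (-t) - lap γ m σ n ls G x t) / t := fun n =>
    ((by fun_prop : Measurable fun t : ℝ => Real.exp (-t)).sub
      ((measurable_lap hG.meas n hg).comp (measurable_const.prodMk measurable_id))).div measurable_id
  have hlim : Tendsto (fun n => logLap γ m σ n ls G x) atTop
      (𝓝 (∫ t in Ioi 0, (Real.exp (-t) - lam (ls.map m) (b * t)) / t)) :=
    tendsto_integral_filter_of_dominated_convergence _
      (Eventually.of_forall fun n => (hmn n).aestronglyMeasurable)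
      ((eventually_ge_atTop 1).mono fun n hn => (ae_restrict_mem measurableSet_Ioi).mono
        fun t ht => hdom n hn t ht)
      (integrableOn_logDom (hd_pos h) A')
      ((ae_restrict_mem measurableSet_Ioi).mono fun t ht => hpt t ht)
  have hint : IntegrableOn (fun t => (Real.exp (-t) - lam (ls.map m) (b * t)) / t) (Ioi 0) :=
    (integrableOn_logDom (hd_pos h) A').mono'
      (aestronglyMeasurable_of_tendsto_ae atTop (fun n => (hmn n).aestronglyMeasurable)
        ((ae_restrict_mem measurableSet_Ioi).mono fun t ht => hpt t ht))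
      ((ae_restrict_mem measurableSet_Ioi).mono fun t ht => le_of_tendsto (hpt t ht).norm
        ((eventually_ge_atTop 1).mono fun n hn => hdom n hn t ht))
  obtain ⟨hfi, hfe⟩ := integral_frullani hb0
  have hscale : ∫ t in Ioi 0, (Real.exp (-(b * t)) - lam (ls.map m) (b * t)) / t = logConst (ls.map m) := by
    have e := integral_comp_mul_left_Ioi (fun u => (Real.exp (-u) - lam (ls.map m) u) / u) 0 hb0
    rw [mul_zero, smul_eq_mul] at e
    rw [logConst, show ∫ u in Ioi 0, (Real.exp (-u) - lam (ls.map m) u) / u =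
      b * (b⁻¹ * ∫ u in Ioi 0, (Real.exp (-u) - lam (ls.map m) u) / u) from
      (mul_inv_cancel_left₀ hb0.ne' _).symm, ← e, ← integral_const_mul]
    exact setIntegral_congr_fun measurableSet_Ioi fun t _ => by field_simp
  have hsplit : ∫ t in Ioi 0, (Real.exp (-t) - lam (ls.map m) (b * t)) / t =
      RSB.casc γ m σ ls G x + logConst (ls.map m) := by
    rw [← hscale, ← Real.log_exp (RSB.casc γ m σ ls G x), ← hbdef, ← hfe]
    have hi2 : IntegrableOn (fun t => (Real.exp (-(b * t)) - lam (ls.map m) (b * t)) / t) (Ioi 0) :=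
      (hint.sub hfi).congr_fun (fun t _ => by simp only [Pi.sub_apply]; ring) measurableSet_Ioi
    rw [← integral_add hfi hi2]
    exact setIntegral_congr_fun measurableSet_Ioi fun t _ => by ring
  rwa [← hsplit]

end tree

end Vale.Agent.P166N
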