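import Vale.Agent.P166N.Defs
import Vale.Agent.P166N.Tree
import Vale.Agent.P157.RSB.CubeEntropy
import Vale.Agent.P157.RSB.Pattern

/-!
Random weights on finite trees: the mean log-sum over leaves with Gaussian fields tends to the
nested functional.
-/

namespace Vale.Agent.P166N

open MeasureTheory ProbabilityTheory Filter Set
open Vale.Agent.P157
open scoped Topology

/-! ### Products over nodes -/

section nodes

variable {X : Type} [MeasurableSpace X] (μ : Measure X) [IsProbabilityMeasure μ]

lemma measurePreserving_uncurry (A B : Type) [Fintype A] [Fintype B] :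
    MeasurePreserving (fun (w : A → B → X) (p : A × B) => w p.1 p.2)
      (Measure.pi fun _ : A => Measure.pi fun _ : B => μ) (Measure.pi fun _ : A × B => μ) := by
  have hm : Measurable fun (w : A → B → X) (p : A × B) => w p.1 p.2 := by fun_prop
  refine ⟨hm, (Measure.pi_eq fun s hs => ?_).symm⟩
  rw [Measure.map_apply hm (MeasurableSet.univ_pi hs),
    show (fun (w : A → B → X) (p : A × B) => w p.1 p.2) ⁻¹' univ.pi s =
      univ.pi fun a => univ.pi fun b => s (a, b) by ext w; simp [Set.mem_pi],
    Measure.pi_pi]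
  simp only [Measure.pi_pi]
  exact (Fintype.prod_prod_type (fun p : A × B => μ (s p))).symm

lemma measurePreserving_option (B : Type) [Fintype B] :
    MeasurePreserving (fun (p : X × (B → X)) (o : Option B) => o.elim p.1 p.2)
      (μ.prod (Measure.pi fun _ : B => μ)) (Measure.pi fun _ : Option B => μ) := by
  have hm : Measurable fun (p : X × (B → X)) (o : Option B) => o.elim p.1 p.2 :=
    measurable_pi_iff.2 fun o => by cases o <;> simp only [Option.elim] <;> fun_prop
  refine ⟨hm, (Measure.pi_eq fun s hs => ?_).symm⟩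
  rw [Measure.map_apply hm (MeasurableSet.univ_pi hs),
    show (fun (p : X × (B → X)) (o : Option B) => o.elim p.1 p.2) ⁻¹' univ.pi s =
      s none ×ˢ univ.pi fun b => s (some b) by
      ext p; simp [Set.mem_pi, Option.forall],
    Measure.prod_prod, Measure.pi_pi, Fintype.prod_option]

lemma measurePreserving_node (n k : ℕ) :
    MeasurePreserving (fun (w : Fin n → X × (Node n k → X)) (p : Node n (k + 1)) =>
        p.2.elim (w p.1).1 (w p.1).2)
      (Measure.pi fun _ : Fin n => μ.prod (Measure.pi fun _ : Node n k => μ))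
      (Measure.pi fun _ : Node n (k + 1) => μ) :=
  (measurePreserving_uncurry μ (Fin n) (Option (Node n k))).comp
    (measurePreserving_pi (fun _ : Fin n => μ.prod (Measure.pi fun _ : Node n k => μ))
      (fun _ : Fin n => Measure.pi fun _ : Option (Node n k) => μ)
      fun _ => measurePreserving_option μ (Node n k))

end nodes

lemma nonempty_leaf {n : ℕ} (hn : 1 ≤ n) : ∀ k, Nonempty (Leaf n k)
  | 0 => ⟨()⟩
  | k + 1 => ⟨(⟨0, hn⟩, (nonempty_leaf hn k).some)⟩

/-! ### Sums over leaves -/

/-- The weight of a leaf. -/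
noncomputable def lw (n : ℕ) : ∀ ls : List (ℝ × ℝ), (Node n ls.length → ℝ) → Leaf n ls.length → ℝ
  | [], _, _ => 1
  | i :: ls, v, (a, l) => ((n : ℝ) * v (a, none)) ^ (-(1 / i.1)) * lw n ls (fun u => v (a, some u)) l

/-- The normalised weight of a leaf. -/
noncomputable def rho (n : ℕ) (ls : List (ℝ × ℝ)) (v : Node n ls.length → ℝ) (l : Leaf n ls.length) : ℝ :=
  lw n ls v l / ∑ l', lw n ls v l'

variable {N : ℕ}

/-- The field at a leaf without the root. -/
noncomputable def fld {n : ℕ} (k : ℕ) (R : ℕ → ℝ) (l : Leaf n k)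
    (z : Node n k → EuclideanSpace ℝ (Fin N)) : EuclideanSpace ℝ (Fin N) :=
  ∑ ν, feat k R l ν • z ν

/-- The weighted leaf sum. -/
noncomputable def tot (n : ℕ) (ls : List (ℝ × ℝ)) (R : ℕ → ℝ) (G : EuclideanSpace ℝ (Fin N) → ℝ)
    (x : EuclideanSpace ℝ (Fin N)) (v : Node n ls.length → ℝ)
    (z : Node n ls.length → EuclideanSpace ℝ (Fin N)) : ℝ :=
  ∑ l, lw n ls v l * Real.exp (G (x + fld ls.length R l z))

lemma measurable_lw (n : ℕ) : ∀ (ls : List (ℝ × ℝ)) (l : Leaf n ls.length),
    Measurable fun v : Node n ls.length → ℝ => lw n ls v l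
  | [], _ => measurable_const
  | i :: ls, (a, l) => (((measurable_pi_apply _).const_mul _).pow_const _).mul
      ((measurable_lw n ls l).comp (measurable_pi_lambda _ fun u => measurable_pi_apply _))

lemma lw_pos {n : ℕ} (hn : 1 ≤ n) : ∀ {ls : List (ℝ × ℝ)} {v : Node n ls.length → ℝ},
    (∀ u, 0 < v u) → ∀ l, 0 < lw n ls v l
  | [], _, _, _ => one_pos
  | i :: ls, v, hv, (a, l) =>
    mul_pos (Real.rpow_pos_of_pos (mul_pos (by exact_mod_cast hn) (hv _)) _)
      (lw_pos hn (fun u => hv _) l)

lemma fld_succ {n k : ℕ} (R : ℕ → ℝ) (a : Fin n) (l : Leaf n k)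
    (z : Node n (k + 1) → EuclideanSpace ℝ (Fin N)) :
    fld (k + 1) R (a, l) z = Real.sqrt (R 1 - R 0) • z (a, none) +
      fld k (fun j => R (j + 1)) l fun u => z (a, some u) := by
  show ∑ p : Fin n × Option (Node n k), feat (k + 1) R (a, l) p • z p = _
  rw [Fintype.sum_prod_type, Finset.sum_eq_single a]
  · rw [Fintype.sum_option]
    simp only [feat, if_true, fld]
  · intro b _ hb
    rw [Fintype.sum_option]
    simp [feat, hb.symm]
  · simp

lemma tot_cons (n : ℕ) (i : ℝ × ℝ) (ls : List (ℝ × ℝ)) (R : ℕ → ℝ)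
    (G : EuclideanSpace ℝ (Fin N) → ℝ) (x : EuclideanSpace ℝ (Fin N))
    (v : Node n (i :: ls).length → ℝ) (z : Node n (i :: ls).length → EuclideanSpace ℝ (Fin N)) :
    tot n (i :: ls) R G x v z = ∑ a : Fin n, ((n : ℝ) * v (a, none)) ^ (-(1 / i.1)) *
      tot n ls (fun j => R (j + 1)) G (x + Real.sqrt (R 1 - R 0) • z (a, none))
        (fun u => v (a, some u)) fun u => z (a, some u) := by
  show ∑ p : Fin n × Leaf n ls.length, lw n (i :: ls) v p * Real.exp (G (x + fld (ls.length + 1) R p z)) = _
  rw [Fintype.sum_prod_type]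
  refine Finset.sum_congr rfl fun a _ => ?_
  simp only [tot, Finset.mul_sum]
  refine Finset.sum_congr rfl fun l _ => ?_
  rw [fld_succ, add_assoc, ← mul_assoc]
  rfl

variable {G : EuclideanSpace ℝ (Fin N) → ℝ} {K : ℝ}

lemma measurable_fld {n k : ℕ} (R : ℕ → ℝ) (l : Leaf n k) :
    Measurable fun z : Node n k → EuclideanSpace ℝ (Fin N) => fld k R l z :=
  Finset.measurable_fun_sum _ fun ν _ => (measurable_pi_apply ν).fun_const_smul _

lemma measurable_tot (hG : Measurable G) (n : ℕ) (ls : List (ℝ × ℝ)) (R : ℕ → ℝ) :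
    Measurable fun p : EuclideanSpace ℝ (Fin N) × (Node n ls.length → ℝ) ×
      (Node n ls.length → EuclideanSpace ℝ (Fin N)) => tot n ls R G p.1 p.2.1 p.2.2 :=
  Finset.measurable_fun_sum _ fun l _ =>
    ((measurable_lw n ls l).comp (measurable_fst.comp measurable_snd)).mul
      ((hG.comp (measurable_fst.add ((measurable_fld R l).comp (measurable_snd.comp measurable_snd)))).exp)

lemma tot_nonneg {n : ℕ} (hn : 1 ≤ n) {ls : List (ℝ × ℝ)} (R : ℕ → ℝ) (x : EuclideanSpace ℝ (Fin N))
    {v : Node n ls.length → ℝ} (hv : ∀ u, 0 < v u)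
    (z : Node n ls.length → EuclideanSpace ℝ (Fin N)) : 0 < tot n ls R G x v z := by
  have := nonempty_leaf hn ls.length
  exact Finset.sum_pos (fun l _ => mul_pos (lw_pos hn hv l) (Real.exp_pos _)) Finset.univ_nonempty

/-- The law of one node. -/
noncomputable def nodeLaw (N : ℕ) : Measure (ℝ × EuclideanSpace ℝ (Fin N)) :=
  unif.prod (stdGaussian (EuclideanSpace ℝ (Fin N)))

instance : IsProbabilityMeasure (nodeLaw N) := by unfold nodeLaw; infer_instance

lemma ae_node_pos {n k : ℕ} : ∀ᵐ w ∂Measure.pi (fun _ : Node n k => nodeLaw N), ∀ u, 0 < (w u).1 :=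
  ae_all_iff.2 fun u => ((measurePreserving_eval (fun _ : Node n k => nodeLaw N) u).quasiMeasurePreserving.ae
    ((measurePreserving_fst (μ := unif) (ν := stdGaussian (EuclideanSpace ℝ (Fin N)))).quasiMeasurePreserving.ae
      (ae_unif.mono fun v hv => hv.1)))

lemma good_withR {ls : List (ℝ × ℝ)} (R : ℕ → ℝ) (h : ∀ p ∈ ls, 0 < p.1) :
    RSB.Good (stdGaussian (EuclideanSpace ℝ (Fin N))) RSB.levM (RSB.sh 1) (RSB.withR ls R) := by
  induction ls generalizing R with
  | nil => simp [RSB.withR, RSB.Good]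
  | cons p ls ih =>
    exact RSB.good_cons.2 ⟨⟨h p (List.mem_cons_self ..), RSB.shift_smul _⟩,
      ih _ fun q hq => h q (List.mem_cons_of_mem _ hq)⟩

/-- The Laplace transform of the leaf sum. -/
theorem integral_exp_tot (hG : Measurable G) {n : ℕ} (hn : 1 ≤ n) : ∀ (ls : List (ℝ × ℝ)) (R : ℕ → ℝ)
    (x : EuclideanSpace ℝ (Fin N)) {t : ℝ}, 0 ≤ t →
    ∫ w, Real.exp (-(t * tot n ls R G x (fun u => (w u).1) fun u => (w u).2))
      ∂Measure.pi (fun _ : Node n ls.length => nodeLaw N) =
    lap (stdGaussian (EuclideanSpace ℝ (Fin N))) RSB.levM (RSB.sh 1) n (RSB.withR ls R) G x t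
  | [], R, x, t, _ => by
    have e : ∀ w : Node n ([] : List (ℝ × ℝ)).length → ℝ × EuclideanSpace ℝ (Fin N),
        tot n [] R G x (fun u => (w u).1) (fun u => (w u).2) = Real.exp (G x) := fun w => by
      show ∑ _l : Unit, (1 : ℝ) * Real.exp (G (x + ∑ ν : Empty, _)) = _
      simp
    simp only [e, RSB.withR, lap]
    rw [integral_const, probReal_univ, one_smul]
  | (m, d) :: ls, R, x, t, ht => by
    set μ := nodeLaw N with hμ
    have hmp := measurePreserving_node μ n ls.length
    set T : (ℝ × EuclideanSpace ℝ (Fin N)) × (Node n ls.length → ℝ × EuclideanSpace ℝ (Fin N)) → ℝ :=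
      fun p => Real.exp (-(t * ((n : ℝ) * p.1.1) ^ (-(1 / m)) * tot n ls (fun j => R (j + 1)) G
        (x + Real.sqrt (R 1 - R 0) • p.1.2) (fun u => (p.2 u).1) fun u => (p.2 u).2)) with hT
    have hTm : Measurable T := by
      have h1 : Measurable fun p : (ℝ × EuclideanSpace ℝ (Fin N)) ×
          (Node n ls.length → ℝ × EuclideanSpace ℝ (Fin N)) => tot n ls (fun j => R (j + 1)) G
          (x + Real.sqrt (R 1 - R 0) • p.1.2) (fun u => (p.2 u).1) fun u => (p.2 u).2 :=
        (measurable_tot hG n ls _).comp ((by fun_prop : Measurable fun p : (ℝ × EuclideanSpace ℝ (Fin N)) ×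
          (Node n ls.length → ℝ × EuclideanSpace ℝ (Fin N)) => x + Real.sqrt (R 1 - R 0) • p.1.2).prodMk
          ((by fun_prop : Measurable fun p : (ℝ × EuclideanSpace ℝ (Fin N)) ×
            (Node n ls.length → ℝ × EuclideanSpace ℝ (Fin N)) => fun u => (p.2 u).1).prodMk (by fun_prop)))
      exact ((Measurable.mul (by fun_prop) h1).neg).exp
    have hint : ∫ p, T p ∂μ.prod (Measure.pi fun _ : Node n ls.length => μ) =
        ∫ v, ∫ z, lap (stdGaussian _) RSB.levM (RSB.sh 1) n (RSB.withR ls fun j => R (j + 1)) G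
          (x + Real.sqrt (R 1 - R 0) • z) (t * ((n : ℝ) * v) ^ (-(1 / m))) ∂stdGaussian _ ∂unif := by
      have hTi : Integrable T (μ.prod (Measure.pi fun _ : Node n ls.length => μ)) :=
        Integrable.of_bound hTm.aestronglyMeasurable 1 (by
          filter_upwards [Measure.quasiMeasurePreserving_fst.ae
            ((measurePreserving_fst (μ := unif) (ν := stdGaussian _)).quasiMeasurePreserving.ae
              (ae_unif.mono fun v hv => hv.1)),
            Measure.quasiMeasurePreserving_snd.ae ae_node_pos] with p hp1 hp2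
          rw [Real.norm_eq_abs, Real.abs_exp, Real.exp_le_one_iff, neg_nonpos]
          exact mul_nonneg (mul_nonneg ht (Real.rpow_nonneg
            (mul_nonneg (Nat.cast_nonneg n) (le_of_lt hp1)) _)) (tot_nonneg hn _ _ hp2 _).le)
      rw [integral_prod _ hTi]
      have hin := hTi.integral_prod_left
      rw [hμ, nodeLaw] at hin ⊢
      rw [integral_prod _ hin]
      refine integral_congr_ae (ae_unif.mono fun v hv => integral_congr_ae (Eventually.of_forall fun z => ?_))
      have h2 := integral_exp_tot hG hn ls (fun j => R (j + 1)) (x + Real.sqrt (R 1 - R 0) • z)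
        (t := t * ((n : ℝ) * v) ^ (-(1 / m)))
        (mul_nonneg ht (Real.rpow_nonneg (mul_nonneg (Nat.cast_nonneg n) hv.1.le) _))
      simp only [hT] at h2 ⊢
      rw [← h2]
      rfl
    have hF : Measurable fun w : Node n (ls.length + 1) → ℝ × EuclideanSpace ℝ (Fin N) =>
        Real.exp (-(t * tot n ((m, d) :: ls) R G x (fun u => (w u).1) fun u => (w u).2)) :=
      ((((measurable_tot hG n ((m, d) :: ls) R).comp (measurable_const.prodMk
        ((measurable_pi_lambda _ fun u => (measurable_pi_apply u).fst).prodMk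
          (measurable_pi_lambda _ fun u => (measurable_pi_apply u).snd)))).const_mul t).neg).exp
    show ∫ w, _ ∂Measure.pi (fun _ : Node n (ls.length + 1) => μ) = _
    rw [← hmp.map_eq, integral_map hmp.measurable.aemeasurable hF.aestronglyMeasurable]
    have e : ∀ w : Fin n → (ℝ × EuclideanSpace ℝ (Fin N)) × (Node n ls.length → ℝ × EuclideanSpace ℝ (Fin N)),
        Real.exp (-(t * tot n ((m, d) :: ls) R G x
          (fun u => ((u.2).elim (w u.1).1 (w u.1).2).1) fun u => ((u.2).elim (w u.1).1 (w u.1).2).2)) =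
        ∏ a, T (w a) := fun w => by
      simp only [hT, tot_cons, Finset.mul_sum, ← Finset.sum_neg_distrib, Real.exp_sum, Option.elim,
        mul_assoc]
    simp only [e]
    rw [integral_fintype_prod_eq_prod (fun _ : Fin n => T), Finset.prod_const, Finset.card_univ,
      Fintype.card_fin, hint]
    simp only [RSB.withR, lap, RSB.sh, RSB.levM, one_mul]

lemma incr_withR : ∀ {ls : List (ℝ × ℝ)} (R : ℕ → ℝ), Strict ls → Incr RSB.levM (RSB.withR ls R)
  | [], _, _ => trivial
  | [(m, d)], R, h => ⟨(h.2 _ (List.mem_cons_self ..)).1, (h.2 _ (List.mem_cons_self ..)).2, trivial⟩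
  | (m, d) :: (m', d') :: ls, R, h =>
    ⟨(h.2 _ (List.mem_cons_self ..)).1, (List.isChain_cons_cons.1 h.1).1,
      incr_withR _ ⟨(List.isChain_cons_cons.1 h.1).2, fun p hp => h.2 p (List.mem_cons_of_mem _ hp)⟩⟩

lemma Strict.pos {ls : List (ℝ × ℝ)} (h : Strict ls) : ∀ p ∈ ls, 0 < p.1 := fun p hp => (h.2 p hp).1

/-- The mean logarithm of the leaf sum. -/
theorem integral_log_tot (hG : RSB.Lip K G) {ls : List (ℝ × ℝ)} (hls : Strict ls) (R : ℕ → ℝ) {n : ℕ}
    (hn : 1 ≤ n) (x : EuclideanSpace ℝ (Fin N)) :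
    Integrable (fun w => Real.log (tot n ls R G x (fun u => (w u).1) fun u => (w u).2))
        (Measure.pi fun _ : Node n ls.length => nodeLaw N) ∧
      ∫ w, Real.log (tot n ls R G x (fun u => (w u).1) fun u => (w u).2)
        ∂Measure.pi (fun _ : Node n ls.length => nodeLaw N) =
      logLap (stdGaussian (EuclideanSpace ℝ (Fin N))) RSB.levM (RSB.sh 1) n (RSB.withR ls R) G x := by
  set P := Measure.pi fun _ : Node n ls.length => nodeLaw N
  set T : (Node n ls.length → ℝ × EuclideanSpace ℝ (Fin N)) → ℝ :=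
    fun w => tot n ls R G x (fun u => (w u).1) fun u => (w u).2 with hTdef
  have hinc := incr_withR R hls
  have hg := good_withR (N := N) R hls.pos
  obtain ⟨A, hA, hb⟩ := lap_bounds hG hinc hg
  set p := hd RSB.levM (RSB.withR ls R)
  set A' := A * Real.exp (p * K * ‖x‖)
  set L := fun t => lap (stdGaussian (EuclideanSpace ℝ (Fin N))) RSB.levM (RSB.sh 1) n (RSB.withR ls R) G x t
  have hTm : Measurable T := (measurable_tot hG.meas n ls R).comp (measurable_const.prodMk
    ((measurable_pi_lambda _ fun u => (measurable_pi_apply u).fst).prodMk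
      (measurable_pi_lambda _ fun u => (measurable_pi_apply u).snd)))
  have hT0 : ∀ᵐ w ∂P, 0 < T w := ae_node_pos.mono fun w hw => tot_nonneg hn R x hw _
  set F : (Node n ls.length → ℝ × EuclideanSpace ℝ (Fin N)) × ℝ → ℝ :=
    fun q => (Real.exp (-q.2) - Real.exp (-(q.2 * T q.1))) / q.2 with hF
  have hFm : Measurable F := by
    have : Measurable fun q : (Node n ls.length → ℝ × EuclideanSpace ℝ (Fin N)) × ℝ => T q.1 :=
      hTm.comp measurable_fst
    exact (measurable_snd.neg.exp.sub ((measurable_snd.mul this).neg).exp).div measurable_snd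
  have hLap : ∀ t, 0 ≤ t → ∫ w, Real.exp (-(t * T w)) ∂P = L t := fun t ht =>
    integral_exp_tot hG.meas hn ls R x ht
  have hei : ∀ t, 0 ≤ t → Integrable (fun w => Real.exp (-(t * T w))) P := fun t ht =>
    Integrable.of_bound ((hTm.const_mul t).neg.exp).aestronglyMeasurable 1 (hT0.mono fun w hw => by
      rw [Real.norm_eq_abs, Real.abs_exp, Real.exp_le_one_iff, neg_nonpos]
      exact mul_nonneg ht hw.le)
  have hsec : ∀ t, 0 < t → Integrable (fun w => F (w, t)) P := fun t ht =>
    ((integrable_const (Real.exp (-t))).sub (hei t ht.le)).div_const t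
  have hFi : Integrable F (P.prod (volume.restrict (Ioi 0))) := by
    refine (integrable_prod_iff' hFm.aestronglyMeasurable).2
      ⟨(ae_restrict_mem measurableSet_Ioi).mono fun t ht => hsec t ht, ?_⟩
    refine (integrableOn_logDom (hd_pos hinc) A').mono'
      (hFm.norm.stronglyMeasurable.integral_prod_left').aestronglyMeasurable
      ((ae_restrict_mem measurableSet_Ioi).mono fun t ht => ?_)
    have ht : (0 : ℝ) < t := ht
    obtain ⟨h1, h2⟩ := hb n hn x t ht
    rw [Real.norm_eq_abs, abs_of_nonneg (integral_nonneg fun w => norm_nonneg _)]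
    have he := Real.exp_le_one_iff.2 (neg_nonpos.2 ht.le)
    unfold logDom
    split_ifs with h
    · refine (integral_mono_ae (hsec t ht).norm
        (((integrable_const t).add ((integrable_const 1).sub (hei t ht.le))).div_const t)
        (hT0.mono fun w hw => ?_)).trans (le_trans (b := (t + (1 - L t)) / t) ?_ ?_)
      · show ‖F (w, t)‖ ≤ ((t : ℝ) + (1 - Real.exp (-(t * T w)))) / t
        rw [hF, Real.norm_eq_abs, abs_div, abs_of_pos ht]
        refine div_le_div_of_nonneg_right (abs_le.2 ?_) ht.le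
        have := Real.exp_le_one_iff.2 (neg_nonpos.2 (mul_nonneg ht.le hw.le))
        constructor <;> linarith [Real.one_sub_le_exp_neg t]
      · rw [integral_div]
        simp only [Pi.add_apply, Pi.sub_apply]
        have hh : Integrable (fun w => 1 - Real.exp (-(t * T w))) P :=
          (integrable_const 1).sub (hei t ht.le)
        rw [integral_add (integrable_const t) hh, integral_sub (integrable_const 1) (hei t ht.le),
          hLap t ht.le]
        simp
      · rw [div_le_iff₀ ht, add_mul, mul_assoc, ← Real.rpow_add_one ht.ne', sub_add_cancel]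
        linarith
    · refine (integral_mono_ae (hsec t ht).norm
        (((integrable_const (Real.exp (-t))).add (hei t ht.le)).div_const t)
        (hT0.mono fun w hw => ?_)).trans (le_trans (b := (Real.exp (-t) + L t) / t) ?_ ?_)
      · show ‖F (w, t)‖ ≤ (Real.exp (-t) + Real.exp (-(t * T w))) / t
        rw [hF, Real.norm_eq_abs, abs_div, abs_of_pos ht]
        refine div_le_div_of_nonneg_right (abs_le.2 ?_) ht.le
        constructor <;> linarith [Real.exp_pos (-t), Real.exp_pos (-(t * T w))]
      · rw [integral_div]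
        simp only [Pi.add_apply]
        rw [integral_add (integrable_const _) (hei t ht.le), hLap t ht.le]
        simp
      · rw [div_le_iff₀ ht, mul_assoc, ← Real.rpow_add_one ht.ne', sub_add_cancel]
        have hti : Real.exp (-t) ≤ t ^ (-p) := by
          refine le_trans ?_ (Real.rpow_le_rpow_of_exponent_le (not_le.1 h).le (neg_le_neg (hd_le_one hinc)))
          rw [Real.rpow_neg_one, Real.exp_neg]
          exact inv_anti₀ ht (by linarith [Real.add_one_le_exp t])
        linarith [add_mul (1 : ℝ) A' (t ^ (-p))]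
  have hlog : (fun w => ∫ t in Ioi 0, F (w, t)) =ᵐ[P] fun w => Real.log (T w) := hT0.mono fun w hw => by
    dsimp only
    rw [← (integral_frullani hw).2]
    simp only [hF, mul_comm (T w)]
  refine ⟨hFi.integral_prod_left.congr hlog, ?_⟩
  rw [← integral_congr_ae hlog, ← integral_prod _ hFi, integral_prod_symm _ hFi, logLap]
  refine setIntegral_congr_fun measurableSet_Ioi fun t ht => ?_
  simp only [hF]
  rw [integral_div, integral_sub (integrable_const _) (hei t (le_of_lt ht)), hLap t (le_of_lt ht)]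
  simp [L]

lemma abs_logsum_sub_le {L : Type} [Fintype L] [Nonempty L] {ρ a b : L → ℝ} (hρ : ∀ l, 0 < ρ l) {C : ℝ}
    (h : ∀ l, |a l - b l| ≤ C) :
    |Real.log (∑ l, ρ l * Real.exp (a l)) - Real.log (∑ l, ρ l * Real.exp (b l))| ≤ C := by
  have key : ∀ a b : L → ℝ, (∀ l, a l - b l ≤ C) →
      Real.log (∑ l, ρ l * Real.exp (a l)) ≤ Real.log (∑ l, ρ l * Real.exp (b l)) + C := fun a b h => by
    have hp : ∀ c : L → ℝ, 0 < ∑ l, ρ l * Real.exp (c l) := fun c =>
      Finset.sum_pos (fun l _ => mul_pos (hρ l) (Real.exp_pos _)) Finset.univ_nonempty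
    refine (Real.log_le_log (hp a) (?_ : _ ≤ (∑ l, ρ l * Real.exp (b l)) * Real.exp C)).trans_eq ?_
    · rw [Finset.sum_mul]
      refine Finset.sum_le_sum fun l _ => ?_
      rw [mul_assoc, ← Real.exp_add]
      exact mul_le_mul_of_nonneg_left (Real.exp_le_exp.2 (by linarith [h l])) (hρ l).le
    · rw [Real.log_mul (hp b).ne' (Real.exp_pos C).ne', Real.log_exp]
  rw [abs_le]
  constructor
  · linarith [key b a fun l => by linarith [(abs_le.1 (h l)).1]]
  · linarith [key a b fun l => (abs_le.1 (h l)).2]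

lemma rho_pos {n : ℕ} (hn : 1 ≤ n) {ls : List (ℝ × ℝ)} {v : Node n ls.length → ℝ} (hv : ∀ u, 0 < v u)
    (l : Leaf n ls.length) : 0 < rho n ls v l := by
  have := nonempty_leaf hn ls.length
  exact div_pos (lw_pos hn hv l) (Finset.sum_pos (fun l _ => lw_pos hn hv l) Finset.univ_nonempty)

lemma sum_rho {n : ℕ} (hn : 1 ≤ n) {ls : List (ℝ × ℝ)} {v : Node n ls.length → ℝ} (hv : ∀ u, 0 < v u) :
    ∑ l, rho n ls v l = 1 := by
  have := nonempty_leaf hn ls.length
  simp only [rho, ← Finset.sum_div]
  exact div_self (Finset.sum_pos (fun l _ => lw_pos hn hv l) Finset.univ_nonempty).ne'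

/-- The log-sum with normalised weights. -/
noncomputable def logRho (n : ℕ) (ls : List (ℝ × ℝ)) (R : ℕ → ℝ) (G : EuclideanSpace ℝ (Fin N) → ℝ)
    (x : EuclideanSpace ℝ (Fin N)) (v : Node n ls.length → ℝ)
    (z : Node n ls.length → EuclideanSpace ℝ (Fin N)) : ℝ :=
  Real.log (∑ l, rho n ls v l * Real.exp (G (x + fld ls.length R l z)))

lemma logRho_eq {n : ℕ} (hn : 1 ≤ n) {ls : List (ℝ × ℝ)} (R : ℕ → ℝ) (x : EuclideanSpace ℝ (Fin N))
    {v : Node n ls.length → ℝ} (hv : ∀ u, 0 < v u) (z : Node n ls.length → EuclideanSpace ℝ (Fin N)) :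
    logRho n ls R G x v z =
      Real.log (tot n ls R G x v z) - Real.log (tot n ls R (fun _ => 0) x v z) := by
  rw [← Real.log_div (tot_nonneg hn R x hv z).ne' (tot_nonneg hn R x hv z).ne', logRho, tot, tot,
    Finset.sum_div]
  simp only [rho, div_mul_eq_mul_div, Real.exp_zero, mul_one]

/-- The random weights approximate the nested functional. -/
theorem tendsto_logRho (hG : RSB.Lip K G) {ls : List (ℝ × ℝ)} (hls : Strict ls) (R : ℕ → ℝ)
    (x : EuclideanSpace ℝ (Fin N)) :
    Tendsto (fun n => ∫ v, ∫ z, logRho n ls R G x v z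
        ∂Measure.pi (fun _ : Node n ls.length => stdGaussian (EuclideanSpace ℝ (Fin N)))
        ∂Measure.pi (fun _ : Node n ls.length => unif)) atTop
      (𝓝 (RSB.casc (stdGaussian (EuclideanSpace ℝ (Fin N))) RSB.levM (RSB.sh 1) (RSB.withR ls R) G x)) := by
  have hz : RSB.Lip 0 fun _ : EuclideanSpace ℝ (Fin N) => (0 : ℝ) := RSB.lip_zero
  have hg := good_withR (N := N) R hls.pos
  have h1 := (tendsto_logLap hG (incr_withR R hls) hg x).sub (tendsto_logLap hz (incr_withR R hls) hg x)
  rw [RSB.casc_zero (fun i hi => (hg i hi).1.ne') x, zero_add, add_sub_cancel_right] at h1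
  refine h1.congr' ((eventually_ge_atTop 1).mono fun n hn => ?_)
  obtain ⟨i1, e1⟩ := integral_log_tot hG hls R hn x
  obtain ⟨i2, e2⟩ := integral_log_tot hz hls R hn x
  rw [← e1, ← e2, ← integral_sub i1 i2]
  have hmp := measurePreserving_arrowProdEquivProdArrow ℝ (EuclideanSpace ℝ (Fin N)) (Node n ls.length)
    (fun _ => unif) (fun _ => stdGaussian (EuclideanSpace ℝ (Fin N)))
  set F := fun p : (Node n ls.length → ℝ) × (Node n ls.length → EuclideanSpace ℝ (Fin N)) =>
    Real.log (tot n ls R G x p.1 p.2) - Real.log (tot n ls R (fun _ => 0) x p.1 p.2)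
  have hi : Integrable F ((Measure.pi fun _ : Node n ls.length => unif).prod
      (Measure.pi fun _ : Node n ls.length => stdGaussian (EuclideanSpace ℝ (Fin N)))) :=
    (hmp.integrable_comp_emb (MeasurableEquiv.measurableEmbedding _)).1 (i1.sub i2)
  refine (hmp.integral_comp' F).trans ((integral_prod _ hi).trans ?_)
  refine integral_congr_ae ((ae_all_iff.2 fun u => ((measurePreserving_eval
    (fun _ : Node n ls.length => unif) u).quasiMeasurePreserving.ae
      (ae_unif.mono fun v hv => hv.1))).mono fun v hv => ?_)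
  exact integral_congr_ae (Eventually.of_forall fun z => (logRho_eq hn R x hv z).symm)

end Vale.Agent.P166N
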